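import Vale.Agent.P031.Defs
import Mathlib.Order.Filter.AtTopBot.Basic
import Mathlib.Topology.Instances.Real.Lemmas

/-!
# P031 Q2: the module targets (statements only)
-/

namespace Vale.Agent.P031

open Finset Filter
open scoped Topology

noncomputable section

/-- Module PNT. -/
def PNTRatioTarget : Prop :=
  ∀ c : ℝ, 0 < c →
    Tendsto (fun z : ℝ => (Nat.primeCounting ⌊c * z + 1⌋₊ : ℝ) / Nat.primeCounting ⌊z + 1⌋₊)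
      atTop (𝓝 c)

/-- Module Euler, part 1: Mertens in windows. -/
def WindowTarget : Prop :=
  ∃ C : ℝ, ∀ a b : ℝ, 0 ≤ a → a ≤ b → |(∑ p ∈ window a b, ((p : ℝ) - 1)⁻¹) - (b - a)| ≤ C

/-- Module Euler, part 2: weighted sums over integers with prime factors in cells at most `e`. -/
def EulerTarget : Prop :=
  ∃ C : ℝ, 0 ≤ C ∧ ∀ (e : ℕ) (z : ℕ → ℝ) (Zm Tv : ℝ) (S : Finset ℕ),
    (∀ c, 0 ≤ z c) → (∀ c ≤ e, z c ≤ Zm) →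
    (∑ c ∈ Finset.range e, |z (c + 1) - z c|) ≤ Tv →
    (∀ s : ℕ, s.Prime → cell s ≤ e → z (cell s) ≤ 3 / 4 * s) →
    (∀ n ∈ S, 1 ≤ n ∧ ∀ s : ℕ, s.Prime → s ∣ n → cell s ≤ e) →
    ∑ n ∈ S, wt z n / n ≤ Real.exp ((∑ c ∈ Finset.Icc 1 e, z c) + C * (1 + Zm + Tv) ^ 2)

/-- Module Sieve. -/
def SieveTarget : Prop :=
  ∃ C : ℕ, ∀ (R Y : ℝ) (as : Finset ℕ), 16 ≤ R → R ≤ Y → as.card ≤ 2 →
    (∀ a ∈ as, 1 ≤ a ∧ (a : ℝ) ≤ Y) →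
    (((Finset.range (⌊R⌋₊ + 1)).filter fun r : ℕ => r.Prime ∧ ∀ a ∈ as, (a * r + 1).Prime).card : ℝ)
      ≤ (C : ℝ) * R * Real.log (Real.log Y) ^ C / Real.log R ^ (1 + as.card)

open Classical in
/-- Module Normal. -/
def AbnormalTarget : Prop :=
  ∃ c e₀ : ℝ, 0 < c ∧
    (∀ P : ℝ, 16 ≤ P → e₀ ≤ Real.log (Real.log P) →
      (((Finset.range (⌊P⌋₊ + 1)).filter fun p : ℕ => p.Prime ∧ ¬Normal p).card : ℝ)
        ≤ P / Real.log P * Real.exp (-(c * Real.sqrt (Real.log (Real.log P))))) ∧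
    ∀ a b : ℝ, e₀ ≤ a →
      (∑ p ∈ window a b, if Normal p then 0 else ((p : ℝ) - 1)⁻¹)
        ≤ Real.exp (-(c * Real.sqrt a))

/-- Module Crude, part 1: totient values built from small primes. -/
def CrudeTarget : Prop :=
  ∃ C : ℝ, ∀ (z : ℝ) (U : Finset ℕ), 1 ≤ z →
    (∀ u ∈ U, ∃ b : ℕ, 1 ≤ b ∧ (∀ s : ℕ, s.Prime → s ∣ b → X s ≤ z) ∧ b.totient = u) →
    ∑ u ∈ U, (u : ℝ)⁻¹ ≤ Real.exp (C * Real.log (z + 2) ^ 2)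

/-- Module Crude, part 2: too many prime factors. -/
def ManyFactorsTarget : Prop :=
  ∃ z₀ : ℝ, ∀ (z B : ℝ) (U : Finset ℕ), z₀ ≤ z →
    (∀ u ∈ U, 1 ≤ u ∧ (∀ s : ℕ, s.Prime → s ∣ u → X s ≤ z) ∧
      B < (ArithmeticFunction.cardFactors u : ℝ)) →
    ∑ u ∈ U, (u : ℝ)⁻¹ ≤ Real.exp (3 * z - B / 4)

/-- Module Crude, part 3: too many top primes. -/
def LongTupleTarget : Prop :=
  ∀ᶠ l : ℝ in atTop, ∀ U : Finset ℕ,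
    (∀ u ∈ U, ∃ k : ℕ, Kp l < k ∧ ∃ p : Fin k → ℕ, StrictAnti p ∧
      (∀ i, Normal (p i) ∧ Zp l < X (p i) ∧ X (p i) ≤ l + 2) ∧ u = ∏ i, (p i - 1)) →
    ∑ u ∈ U, (u : ℝ)⁻¹ ≤ Real.exp (-(Lg l ^ 5))

/-- Module Profile, part 1: an inner condition fails. -/
def InnerFailTarget : Prop :=
  ∀ᶠ l : ℝ in atTop, ∀ U : Finset ℕ,
    (∀ u ∈ U, ∃ k ≤ Kp l, ∃ p : Fin k → ℕ, StrictAnti p ∧
      (∀ i, Normal (p i) ∧ Zp l < X (p i) ∧ X (p i) ≤ l + 2) ∧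
      ¬Inner (fun i => X (p i)) (eta l) ∧ u = ∏ i, (p i - 1)) →
    ∑ u ∈ U, (u : ℝ)⁻¹ ≤ Real.exp (-(Lg l ^ 5))

/-- Module Profile, part 2: the top condition fails badly. -/
def TopFailTarget : Prop :=
  ∀ᶠ l : ℝ in atTop, ∀ y : ℝ, 16 ≤ y → |Real.log (Real.log y) - l| ≤ 1 →
    ∀ U : Finset ℕ,
      (∀ v ∈ U, 1 ≤ v ∧ (v : ℝ) ≤ y ∧ ∃ k ≤ Kp l, ∃ p : Fin k → ℕ, ∃ p₀ : ℕ,
        StrictAnti p ∧ (∀ i, Normal (p i) ∧ Zp l < X (p i) ∧ p i < p₀) ∧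
        Normal p₀ ∧ Zp l < X p₀ ∧ X p₀ ≤ l + 2 ∧
        (1 + del l) * l < hvec (fun i => X (p i)) ∧
        ((p₀ - 1) * ∏ i, (p i - 1)) ∣ v) →
      (U.card : ℝ) ≤ y / Real.log y * Real.exp (-(Lg l ^ 5))

/-- The data counted by the collision lemma: the second list holds the largest prime, and only its
tail condition is assumed. -/
def collSet (a b Zb B e : ℕ) (y D : ℝ) :
    Set (((Fin a → ℕ) × (Fin b → ℕ)) × (ℕ × ℕ)) :=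
  {t | StrictAnti t.1.1 ∧ StrictAnti t.1.2 ∧ (∀ i j, t.1.1 i ≠ t.1.2 j) ∧
    (∀ i, Normal (t.1.1 i) ∧ 1 ≤ cell (t.1.1 i)) ∧ (∀ j, Normal (t.1.2 j) ∧ 1 ≤ cell (t.1.2 j)) ∧
    (∀ j : Fin b, j.val = 0 → cell (t.1.2 j) = e ∧ (∀ i, t.1.1 i < t.1.2 j) ∧
      (∑ i : Fin b, if 0 < i.val then aC i.val * X (t.1.2 i) else 0) + D ≤ X (t.1.2 j)) ∧
    1 ≤ t.2.1 ∧ 1 ≤ t.2.2 ∧
    (∀ s : ℕ, s.Prime → s ∣ t.2.1 → cell s ≤ Zb) ∧ (∀ s : ℕ, s.Prime → s ∣ t.2.2 → cell s ≤ Zb) ∧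
    ArithmeticFunction.cardFactors t.2.1 ≤ B ∧ ArithmeticFunction.cardFactors t.2.2 ≤ B ∧
    (∏ i, (t.1.1 i - 1)) * t.2.1 = (∏ j, (t.1.2 j - 1)) * t.2.2 ∧
    (((∏ j, (t.1.2 j - 1)) * t.2.2 : ℕ) : ℝ) ≤ y}

/-- Module Collision. -/
def CollisionTarget : Prop :=
  ∃ C : ℝ, ∀ (a b K Zb B e : ℕ) (y D : ℝ), 1 ≤ b → a ≤ K → b ≤ K → 16 ≤ y →
    ((collSet a b Zb B e y D).ncard : ℝ) ≤ y * Real.exp (-(e : ℝ) - D +
      C * ((K : ℝ) ^ 3 * Real.log ((e : ℝ) + Real.log (Real.log y) + K + 3) +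
        (K : ℝ) * Real.log ((K : ℝ) + 2) * (T0 e + Zb + B + 1)))

/-- Module Volume: the band is thin. -/
def BandTarget : Prop :=
  ∃ C : ℝ, ∀ᶠ l : ℝ in atTop,
    ∑ k ∈ Finset.range (Kp l + 1), ∑ p ∈ bandCfg l k, cfgWt p
      ≤ C * Kp l * del l * ∑ k ∈ Finset.range (Kp l + 1), ∑ p ∈ strictCfg l k, cfgWt p

/-- Module Lower: strict configurations give distinct admissible cofactors. -/
def StrictLeATarget : Prop :=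
  ∀ᶠ l : ℝ in atTop,
    ∑ k ∈ Finset.range (Kp l + 1), ∑ p ∈ strictCfg l k, cfgWt p
      ≤ A l + Real.exp (-(Lg l ^ 5))

/-- Module Upper: almost every totient is `(p - 1) m`. -/
def UpperTarget : Prop :=
  ∀ ε : ℝ, 0 < ε → ∀ᶠ l : ℝ in atTop, ∀ y : ℝ, 16 ≤ y → |Real.log (Real.log y) - l| ≤ 1 →
    (V y : ℝ) ≤ (∑ m ∈ MF l, (Nat.primeCounting ⌊y / m + 1⌋₊ : ℝ)) + ε * (y / Real.log y) * A l

/-- Module Main lower bound: almost every representation `(p - 1) m` is unique. -/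
def LowerTarget : Prop :=
  ∀ ε : ℝ, 0 < ε → ∀ᶠ l : ℝ in atTop, ∀ y : ℝ, 16 ≤ y → |Real.log (Real.log y) - l| ≤ 1 →
    (∑ m ∈ MF l, (Nat.primeCounting ⌊y / m + 1⌋₊ : ℝ)) ≤ (V y : ℝ) + ε * (y / Real.log y) * A l

/-- The final statement: Erdős and Hall's question. -/
def RatioTarget : Prop :=
  ∀ c : ℝ, 1 < c → Tendsto (fun x : ℝ => (V (c * x) : ℝ) / V x) atTop (𝓝 c)

end

end Vale.Agent.P031
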