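import Vale.Agent.P031.PNT
import Vale.Agent.P031.Targets

/-!
The ratio form of the prime number theorem.
-/

open Filter Topology

namespace Vale.Agent.P031

theorem primeCounting_scaled {c : ℝ} (hc : 0 < c) :
    Tendsto (fun z : ℝ => (Nat.primeCounting ⌊c * z + 1⌋₊ : ℝ) * Real.log z / z) atTop (𝓝 c) := by
  have hlin : Tendsto (fun z : ℝ => c * z + 1) atTop atTop :=
    tendsto_atTop_add_const_right atTop 1 (tendsto_id.const_mul_atTop hc)
  have h1 := pnt.comp hlin
  have h2 : Tendsto (fun z : ℝ => (c * z + 1) / z) atTop (𝓝 c) := by
    have := (tendsto_inv_atTop_zero (𝕜 := ℝ)).const_add c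
    rw [add_zero] at this
    refine this.congr' ?_
    filter_upwards [eventually_gt_atTop 0] with z hz
    field_simp
  have hd : Tendsto (fun z : ℝ => Real.log (c * z + 1) - Real.log z) atTop (𝓝 (Real.log c)) := by
    refine ((Real.continuousAt_log hc.ne').tendsto.comp h2).congr' ?_
    filter_upwards [eventually_gt_atTop 0] with z hz
    rw [Function.comp_apply, Real.log_div (by positivity) hz.ne']
  have h3 : Tendsto (fun z : ℝ => Real.log (c * z + 1) / Real.log z) atTop (𝓝 1) := by
    have := (hd.div_atTop Real.tendsto_log_atTop).add_const 1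
    rw [zero_add] at this
    refine this.congr' ?_
    filter_upwards [eventually_gt_atTop 1] with z hz
    have := Real.log_pos hz
    field_simp
    ring
  have h4 := (h1.mul h2).div h3 one_ne_zero
  rw [one_mul, div_one] at h4
  refine h4.congr' ?_
  filter_upwards [eventually_gt_atTop 1] with z hz
  have hcz : 1 < c * z + 1 := by
    have := mul_pos hc (by linarith : (0 : ℝ) < z)
    linarith
  have := Real.log_pos hz
  have := Real.log_pos hcz
  simp only [Function.comp_apply, Pi.div_apply]
  field_simp

theorem pntRatio : PNTRatioTarget := by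
  intro c hc
  have h := (primeCounting_scaled hc).div (primeCounting_scaled one_pos) one_ne_zero
  rw [div_one] at h
  refine h.congr' ?_
  filter_upwards [eventually_gt_atTop 1] with z hz
  have := Real.log_pos hz
  simp only [Pi.div_apply, one_mul]
  field_simp

end Vale.Agent.P031
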