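import Vale.Agent.P031.Defs
import Mathlib.Analysis.Complex.ExponentialBounds

/-!
# P031 Q2: elementary facts about `X`, `cell`, `aC` and `fN`
-/

namespace Vale.Agent.P031

open Finset

lemma log_pos_of_two_le {p : ℕ} (hp : 2 ≤ p) : 0 < Real.log p :=
  Real.log_pos (by exact_mod_cast hp)

lemma X_mono {p q : ℕ} (hp : 2 ≤ p) (h : p ≤ q) : X p ≤ X q :=
  Real.log_le_log (log_pos_of_two_le hp)
    (Real.log_le_log (by exact_mod_cast (by omega : 0 < p)) (by exact_mod_cast h))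

lemma cell_mono {p q : ℕ} (hp : 2 ≤ p) (h : p ≤ q) : cell p ≤ cell q :=
  Nat.ceil_mono (X_mono hp h)

lemma X_le_cell (p : ℕ) : X p ≤ cell p := Nat.le_ceil _

lemma cell_le_X_add_one {p : ℕ} (h : 1 ≤ cell p) : (cell p : ℝ) ≤ X p + 1 := by
  have hX : 0 < X p := Nat.ceil_pos.1 h
  exact (Nat.ceil_lt_add_one hX.le).le

lemma exp_X {p : ℕ} (hp : 2 ≤ p) : Real.exp (X p) = Real.log p :=
  Real.exp_log (log_pos_of_two_le hp)

lemma aC_zero : aC 0 = -1 := by simp [aC]

lemma aC_eq_sub (i : ℕ) : aC i = fN (i + 1) - fN i := by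
  unfold aC fN; push_cast; ring

lemma fN_zero : fN 0 = 0 := by simp [fN]

lemma fN_eq_sum (n : ℕ) : fN n = ∑ i ∈ Finset.range n, aC i := by
  simp only [aC_eq_sub, Finset.sum_range_sub, fN_zero, sub_zero]

lemma aC_ge_log {i : ℕ} (hi : 1 ≤ i) : Real.log i ≤ aC i := by
  have hi' : (0 : ℝ) < i := by exact_mod_cast hi
  have h := Real.one_sub_inv_le_log_of_pos (x := ((i : ℝ) + 1) / i) (by positivity)
  rw [Real.log_div (by linarith) hi'.ne'] at h
  have e : (((i : ℝ) + 1) / i)⁻¹ = i / (i + 1) := by rw [inv_div]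
  rw [e] at h
  have h2 : ((i : ℝ) + 1) * (1 - i / (i + 1)) = 1 := by field_simp; ring
  have h3 := mul_le_mul_of_nonneg_left h (by linarith : (0 : ℝ) ≤ (i : ℝ) + 1)
  rw [h2] at h3
  unfold aC; nlinarith [h3]

lemma aC_le_log (i : ℕ) : aC i ≤ Real.log (i + 1) := by
  rcases Nat.eq_zero_or_pos i with rfl | hi
  · simp [aC_zero]
  have hi' : (0 : ℝ) < i := by exact_mod_cast hi
  have h := Real.log_le_sub_one_of_pos (x := ((i : ℝ) + 1) / i) (by positivity)
  rw [Real.log_div (by linarith) hi'.ne'] at h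
  have h3 := mul_le_mul_of_nonneg_left h hi'.le
  have e : (i : ℝ) * (((i : ℝ) + 1) / i - 1) = 1 := by field_simp; ring
  rw [e] at h3
  unfold aC; nlinarith [h3]

lemma aC_nonneg {i : ℕ} (hi : 1 ≤ i) : 0 ≤ aC i :=
  le_trans (Real.log_nonneg (by exact_mod_cast hi)) (aC_ge_log hi)

lemma aC_mono : Monotone aC := by
  refine monotone_nat_of_le_succ fun i => ?_
  rcases Nat.eq_zero_or_pos i with rfl | hi
  · have := aC_nonneg le_rfl
    rw [aC_zero]; simpa using le_trans (by norm_num : (-1 : ℝ) ≤ 0) this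
  · have h1 := aC_le_log i
    have h2 := aC_ge_log (show 1 ≤ i + 1 by omega)
    push_cast at h2; linarith

lemma aC_one_pos : (0 : ℝ) < aC 1 := by
  have h := Real.log_two_gt_d9
  norm_num [aC]; linarith

lemma aC_pos {i : ℕ} (hi : 1 ≤ i) : 0 < aC i := lt_of_lt_of_le aC_one_pos (aC_mono hi)

end Vale.Agent.P031
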