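import Vale.Agent.P031.Collision.Sum

/-!
# P031 Q2: the collision lemma
-/

namespace Vale.Agent.P031

open Finset Coll

noncomputable section

variable {a b e n : ℕ}

namespace Coll

lemma max_one_pos (k : ℕ) : (0 : ℝ) < ((max k 1 : ℕ) : ℝ) := by
  exact_mod_cast lt_of_lt_of_le zero_lt_one (le_max_right k 1)

lemma euler_cell {C : ℝ} (hE : ∀ (e : ℕ) (z : ℕ → ℝ) (Zm Tv : ℝ) (S : Finset ℕ),
    (∀ c, 0 ≤ z c) → (∀ c ≤ e, z c ≤ Zm) →
    (∑ c ∈ Finset.range e, |z (c + 1) - z c|) ≤ Tv →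
    (∀ s : ℕ, s.Prime → cell s ≤ e → z (cell s) ≤ 3 / 4 * s) →
    (∀ n ∈ S, 1 ≤ n ∧ ∀ s : ℕ, s.Prime → s ∣ n → cell s ≤ e) →
    ∑ n ∈ S, wt z n / n ≤ Real.exp ((∑ c ∈ Finset.Icc 1 e, z c) + C * (1 + Zm + Tv) ^ 2))
    (π : Pat a b e n) (Zb : ℕ) (y : ℝ) (q : Cel a b) :
    ∑ v ∈ cellBox π Zb y q, wt (zw π Zb) v / v ≤
      Real.exp ((∑ t ∈ Finset.Icc 1 (min (rowB π Zb q.1) (colB π Zb q.2)), zw π Zb t) + 9 * C) := by
  set z := zw π Zb
  set u := min (rowB π Zb q.1) (colB π Zb q.2)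
  have hmono : Monotone z := fun s t h =>
    Real.exp_le_exp.2 (neg_le_neg (cw_antitone π Zb h))
  have hTv : ∑ c ∈ Finset.range u, |z (c + 1) - z c| ≤ 1 := by
    rw [Finset.sum_congr rfl fun c _ => abs_of_nonneg (sub_nonneg.2 (hmono (Nat.le_succ c))),
      Finset.sum_range_sub z]
    linarith [zw_le_one π Zb u, (zw_pos π Zb 0).le]
  have h := hE u z 1 1 (cellBox π Zb y q) (fun c => (zw_pos π Zb c).le)
    (fun c _ => zw_le_one π Zb c) hTv (fun s hs _ => by
      have h2 : (2 : ℝ) ≤ s := by exact_mod_cast hs.two_le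
      linarith [zw_le_one π Zb (cell s)]) (fun v hv => by
      obtain ⟨-, h1, h2⟩ := Finset.mem_filter.1 hv
      exact ⟨h1, fun s hs hd => h2 s (Nat.mem_primeFactors.2 ⟨hs, hd, by omega⟩)⟩)
  refine h.trans (le_of_eq ?_)
  norm_num; ring

lemma sum_min_le (π : Pat a b e n) (Zb : ℕ) :
    ∑ q : Cel a b, ∑ t ∈ Finset.Icc 1 (min (rowB π Zb q.1) (colB π Zb q.2)), zw π Zb t ≤
      (Zb : ℝ) + ∑ i, ((π.cp i : ℕ) : ℝ) := by
  rw [Fintype.sum_prod_type]
  have key : ∀ o : Option (Fin a),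
      ∑ l, ∑ t ∈ Finset.Icc 1 (min (rowB π Zb o) (colB π Zb l)), zw π Zb t ≤
        (rowB π Zb o : ℝ) := by
    intro o
    set R := rowB π Zb o
    have h1 : ∀ l, Finset.Icc 1 (min R (colB π Zb l)) =
        (Finset.Icc 1 R).filter (fun t => t ≤ colB π Zb l) := fun l => by
      ext t; simp [and_assoc]
    simp only [h1, Finset.sum_filter]
    rw [Finset.sum_comm]
    have h2 : ∀ t ∈ Finset.Icc 1 R,
        (∑ l, if t ≤ colB π Zb l then zw π Zb t else 0) ≤ 1 := by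
      intro t _
      rw [← Finset.sum_filter, Finset.sum_const, nsmul_eq_mul]
      change (colN π Zb t : ℝ) * _ ≤ 1
      have hm : (0 : ℝ) < ((max (colN π Zb t) 1 : ℕ) : ℝ) := by
        exact_mod_cast lt_of_lt_of_le zero_lt_one (le_max_right (colN π Zb t) 1)
      rw [zw, cw, Real.exp_neg, Real.exp_log hm, ← div_eq_mul_inv, div_le_one hm]
      exact_mod_cast le_max_left (colN π Zb t) 1
    refine (Finset.sum_le_sum h2).trans (le_of_eq ?_)
    simp
  refine (Finset.sum_le_sum fun o _ => key o).trans (le_of_eq ?_)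
  rw [Fintype.sum_option]; rfl

lemma sum_cw_le (π : Pat a b e n) (Zb : ℕ) (hanti : Antitone fun j => (π.cq j : ℕ)) :
    ∑ j, ∑ t ∈ Finset.Icc 1 (π.cq j : ℕ), cw π Zb t ≤
      (∑ j : Fin b, aC j.val * ((π.cq j : ℕ) : ℝ)) + (∑ j, ((π.cq j : ℕ) : ℝ)) + Zb := by
  have hqe : ∀ j, (π.cq j : ℕ) ≤ e := fun j => Nat.le_of_lt_succ (π.cq j).isLt
  have h1 : ∀ j, Finset.Icc 1 (π.cq j : ℕ) =
      (Finset.Icc 1 e).filter (fun t => t ≤ (π.cq j : ℕ)) := fun j => by
    ext t; simp only [Finset.mem_Icc, Finset.mem_filter]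
    have := hqe j; omega
  simp only [h1, Finset.sum_filter]
  rw [Finset.sum_comm]
  have hb' : ∀ t ∈ Finset.Icc 1 e, (∑ j, if t ≤ (π.cq j : ℕ) then cw π Zb t else 0) ≤
      (∑ j : Fin b, if t ≤ (π.cq j : ℕ) then aC j.val + 1 else 0) +
        (if t ≤ Zb then (1 : ℝ) else 0) := by
    intro t _
    set S := univ.filter fun j => t ≤ (π.cq j : ℕ) with hS
    rw [← Finset.sum_filter, ← Finset.sum_filter, ← hS, Finset.sum_const, nsmul_eq_mul,
      Finset.sum_add_distrib, Finset.sum_const, nsmul_eq_mul, mul_one]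
    have hrange : S.map Fin.valEmbedding = Finset.range S.card := by
      refine Finset.eq_of_subset_of_card_le ?_ (by simp)
      intro i hi
      obtain ⟨j, hj, rfl⟩ := Finset.mem_map.1 hi
      refine Finset.mem_range.2 ?_
      have : Finset.Iic j ⊆ S := fun k hk => by
        rw [Finset.mem_Iic] at hk
        simp only [hS, Finset.mem_filter, Finset.mem_univ, true_and] at hj ⊢
        exact hj.trans (hanti hk)
      have := Finset.card_le_card this
      rw [Fin.card_Iic] at this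
      change j.val < _
      omega
    have hsum : ∑ j ∈ S, aC j.val = fN S.card := by
      rw [fN_eq_sum, ← hrange, Finset.sum_map]; rfl
    rw [hsum]
    set N := S.card
    have hcol : colN π Zb t ≤ N + if t ≤ Zb then 1 else 0 := by
      unfold colN
      rw [Finset.card_filter, Fintype.sum_option, add_comm]
      refine Nat.add_le_add ?_ ?_
      · simp only [N, hS, Finset.card_filter]; exact le_rfl
      · exact le_of_eq (if_congr (by simp [colB]) rfl rfl)
    rcases Nat.eq_zero_or_pos N with h0 | hpos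
    · rw [h0]; simp only [fN_zero, Nat.cast_zero, zero_mul, add_zero, zero_add]
      split_ifs <;> norm_num
    have hN : (0 : ℝ) < N := by exact_mod_cast hpos
    unfold fN cw
    split_ifs at hcol ⊢ with hz
    · have h : ((max (colN π Zb t) 1 : ℕ) : ℝ) ≤ N + 1 := by
        exact_mod_cast max_le hcol (by omega : 1 ≤ N + 1)
      have h' := Real.log_le_log (max_one_pos (colN π Zb t)) h
      have hd := Real.log_le_sub_one_of_pos (x := ((N : ℝ) + 1) / N) (by positivity)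
      rw [Real.log_div (by positivity) hN.ne'] at hd
      have e1 : (N : ℝ) * (((N : ℝ) + 1) / N - 1) = 1 := by field_simp; ring
      have := mul_le_mul_of_nonneg_left hd hN.le
      rw [e1] at this
      nlinarith [mul_le_mul_of_nonneg_left h' hN.le]
    · have h : ((max (colN π Zb t) 1 : ℕ) : ℝ) ≤ N := by
        exact_mod_cast max_le (by omega) hpos
      have h' := Real.log_le_log (max_one_pos (colN π Zb t)) h
      nlinarith [mul_le_mul_of_nonneg_left h' hN.le]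
  refine (Finset.sum_le_sum hb').trans ?_
  rw [Finset.sum_add_distrib, Finset.sum_comm]
  refine add_le_add (le_of_eq ?_) ?_
  · rw [← Finset.sum_add_distrib]
    refine Finset.sum_congr rfl fun j _ => ?_
    rw [← Finset.sum_filter, ← h1 j, Finset.sum_const, Nat.card_Icc, nsmul_eq_mul]
    simp
    ring
  · rw [← Finset.sum_filter, Finset.sum_const, nsmul_eq_mul, mul_one]
    have : ((Finset.Icc 1 e).filter fun t => t ≤ Zb).card ≤ (Finset.Icc 1 Zb).card :=
      Finset.card_le_card fun t ht => by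
        simp only [Finset.mem_filter, Finset.mem_Icc] at ht ⊢; omega
    exact_mod_cast this.trans (by simp)

lemma ind_le (π : Pat a b e n) (Zb B : ℕ) (hanti : Antitone fun j => (π.cq j : ℕ)) :
    ind π Zb B ≤ (∑ j : Fin b, aC j.val * ((π.cq j : ℕ) : ℝ)) + (∑ j, ((π.cq j : ℕ) : ℝ)) + Zb +
      ((b : ℝ) * T0 e + B) * Real.log (b + 1) := by
  have h0 : cw π Zb 0 ≤ Real.log (b + 1) := by
    refine Real.log_le_log (max_one_pos (colN π Zb 0)) ?_
    have : colN π Zb 0 ≤ b + 1 := (Finset.card_le_univ _).trans (by simp)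
    exact_mod_cast max_le this (by omega : 1 ≤ b + 1)
  unfold ind
  rw [Finset.sum_add_distrib, Finset.sum_const, Finset.card_univ, Fintype.card_fin, nsmul_eq_mul]
  have h1 := mul_le_mul_of_nonneg_left h0
    (add_nonneg (mul_nonneg (Nat.cast_nonneg b) (T0_nonneg e)) (Nat.cast_nonneg (α := ℝ) B))
  linarith [sum_cw_le π Zb hanti]

lemma card_pat_le (a b e n : ℕ) : (Fintype.card (Pat a b e n) : ℝ) ≤
    (((a : ℝ) + 1) * ((b : ℝ) + 1)) ^ n * (n : ℝ) ^ (a + b) * ((e : ℝ) + 1) ^ (a + b) := by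
  have h := Fintype.card_le_of_injective
    (fun π : Pat a b e n => ((π.c, π.top), (π.cp, π.cq))) (fun x y h => by
      obtain ⟨⟩ := x; obtain ⟨⟩ := y
      simp only [Prod.mk.injEq] at h
      simp [h])
  simp only [Fintype.card_prod, Fintype.card_fun, Fintype.card_option, Fintype.card_fin,
    Fintype.card_sum] at h
  refine (Nat.cast_le.2 h).trans (le_of_eq ?_)
  push_cast
  rw [pow_add ((e : ℝ) + 1)]

lemma inv_gainL_le {c : ℕ} (hc : 1 ≤ c) (he : c ≤ e) :
    (gainL c)⁻¹ ≤ Real.exp (1 - (c : ℝ) + 2 * Real.log ((e : ℝ) + 1)) := by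
  have hc0 : (0 : ℝ) < c := by exact_mod_cast hc
  rw [inv_gainL, Real.exp_add, mul_comm]
  refine mul_le_mul_of_nonneg_left ?_ (Real.exp_pos _).le
  rw [show (2 : ℝ) * Real.log ((e : ℝ) + 1) = Real.log (((e : ℝ) + 1) ^ 2) by
    rw [Real.log_pow]; norm_num, Real.exp_log (by positivity)]
  refine pow_le_pow_left₀ hc0.le ?_ 2
  have : (c : ℝ) ≤ e := by exact_mod_cast he
  linarith

open Classical in
lemma encodings_le {CE : ℝ} {CS : ℕ}
    (hE : ∀ (e : ℕ) (z : ℕ → ℝ) (Zm Tv : ℝ) (S : Finset ℕ),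
      (∀ c, 0 ≤ z c) → (∀ c ≤ e, z c ≤ Zm) →
      (∑ c ∈ Finset.range e, |z (c + 1) - z c|) ≤ Tv →
      (∀ s : ℕ, s.Prime → cell s ≤ e → z (cell s) ≤ 3 / 4 * s) →
      (∀ n ∈ S, 1 ≤ n ∧ ∀ s : ℕ, s.Prime → s ∣ n → cell s ≤ e) →
      ∑ n ∈ S, wt z n / n ≤ Real.exp ((∑ c ∈ Finset.Icc 1 e, z c) + CE * (1 + Zm + Tv) ^ 2))
    (hR : ∀ (a b e n : ℕ) (π : Pat a b e n) (D y : ℝ) (m : Cof a b), π.Valid D → 1 ≤ b →
      16 ≤ y → (∀ q, 1 ≤ m q) →
      (((Fintype.piFinset fun _ : Fin n => Finset.range (⌊y⌋₊ + 1)).filter fun r =>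
          (∀ k, LocalOK π m y k r) ∧ (((∏ q, m q) * ∏ k, r k : ℕ) : ℝ) ≤ y).card : ℝ) ≤
        (CS * Real.log (Real.log (4 * y)) ^ CS) ^ n * (y / ((∏ q, m q : ℕ) : ℝ)) *
          (gainL e)⁻¹ * ∏ x, (gainL (π.cc x))⁻¹)
    (π : Pat a b e n) {D y : ℝ} (Zb B : ℕ) (hV : π.Valid D) (hb : 1 ≤ b) (hy : 16 ≤ y) :
    ((((Fintype.piFinset fun q : Cel a b => cellBox π Zb y q) ×ˢ
        Fintype.piFinset fun _ : Fin n => Finset.range (⌊y⌋₊ + 1)).filter fun w =>
          Good π Zb B y w.1 w.2).card : ℝ) ≤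
      y * (CS * Real.log (Real.log (4 * y)) ^ CS) ^ n *
        Real.exp (-(e : ℝ) - D + 2 * Zb + ((b : ℝ) * T0 e + B + b) * Real.log (b + 1) +
          ((a : ℝ) + b + 1) * (1 + 2 * Real.log ((e : ℝ) + 1)) +
          9 * CE * ((a : ℝ) + 1) * ((b : ℝ) + 1)) := by
  set PP : ℝ := CS * Real.log (Real.log (4 * y)) ^ CS
  have hPP : 0 ≤ PP := by
    have := one_le_loglog (show 16 ≤ 4 * y by linarith); positivity
  set S := Finset.range (⌊y⌋₊ + 1)
  set G : ℝ := (gainL e)⁻¹ * ∏ x, (gainL (π.cc x))⁻¹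
  set I := Real.exp (ind π Zb B)
  have hm1 : ∀ m ∈ Fintype.piFinset (fun q : Cel a b => cellBox π Zb y q), ∀ q, 1 ≤ m q :=
    fun m hm q => (Finset.mem_filter.1 (Fintype.mem_piFinset.1 hm q)).2.1
  have hsplit : ((((Fintype.piFinset fun q : Cel a b => cellBox π Zb y q) ×ˢ
        Fintype.piFinset fun _ : Fin n => S).filter fun w => Good π Zb B y w.1 w.2).card : ℝ) ≤
      ∑ m ∈ Fintype.piFinset (fun q : Cel a b => cellBox π Zb y q),
        I * (∏ q, wt (zw π Zb) (m q)) * (PP ^ n * (y / ((∏ q, m q : ℕ) : ℝ)) * G) := by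
    rw [Finset.card_filter, Finset.sum_product, Nat.cast_sum]
    refine Finset.sum_le_sum fun m hm => ?_
    have hw : 0 ≤ I * ∏ q, wt (zw π Zb) (m q) :=
      mul_nonneg (Real.exp_pos _).le
        (Finset.prod_nonneg fun q _ => wt_nonneg (fun t => (zw_pos π Zb t).le) _)
    have hr := hR a b e n π D y m hV hb hy (hm1 m hm)
    rw [← Finset.card_filter]
    rcases le_or_gt 1 (I * ∏ q, wt (zw π Zb) (m q)) with h1 | h1
    · refine le_trans (Nat.cast_le.2 (Finset.card_le_card ?_)) ((hr.trans (le_of_eq ?_)).trans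
        (le_mul_of_one_le_left ((Nat.cast_nonneg _).trans (hr.trans (le_of_eq ?_))) h1))
      · intro r hr'
        obtain ⟨h2, h3, h4, -⟩ := Finset.mem_filter.1 hr'
        exact Finset.mem_filter.2 ⟨h2, h3, h4⟩
      all_goals simp only [G, PP]; ring
    · have he : (Fintype.piFinset fun _ : Fin n => S).filter (fun r => Good π Zb B y m r) = ∅ :=
        Finset.filter_eq_empty_iff.2 fun r _ hg => absurd hg.2.2 (not_le.2 h1)
      rw [he, Finset.card_empty, Nat.cast_zero]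
      exact mul_nonneg hw ((Nat.cast_nonneg _).trans (hr.trans (le_of_eq (by simp only [G, PP]; ring))))
  refine hsplit.trans ?_
  have hrew : ∀ m : Cof a b, I * (∏ q, wt (zw π Zb) (m q)) *
      (PP ^ n * (y / ((∏ q, m q : ℕ) : ℝ)) * G) =
        y * PP ^ n * (I * G) * ∏ q, wt (zw π Zb) (m q) / (m q : ℝ) := fun m => by
    rw [Finset.prod_div_distrib]; push_cast; ring
  have hgain : ∀ c, 1 ≤ c → 0 ≤ (gainL c)⁻¹ := fun c hc => (inv_pos.2 (gainL_pos hc)).le
  have he1 : 1 ≤ e := by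
    have h1 := hV.2.2.2.1 (Sum.inr ⟨0, hb⟩)
    have h2 : π.cc (Sum.inr ⟨0, hb⟩) = e := hV.2.2.2.2.2.1 ⟨0, hb⟩ rfl
    omega
  have hG0 : 0 ≤ G := mul_nonneg (hgain e he1)
    (Finset.prod_nonneg fun x _ => hgain _ (hV.2.2.2.1 x))
  rw [Finset.sum_congr rfl fun m _ => hrew m, ← Finset.mul_sum,
    ← Finset.prod_univ_sum (fun q : Cel a b => cellBox π Zb y q)
      (fun q v => wt (zw π Zb) v / (v : ℝ))]
  have hy0 : 0 ≤ y * PP ^ n := mul_nonneg (by linarith) (pow_nonneg hPP n)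
  rw [mul_assoc (y * PP ^ n)]
  refine mul_le_mul_of_nonneg_left ?_ hy0
  have hprod : (∏ q : Cel a b, ∑ v ∈ cellBox π Zb y q, wt (zw π Zb) v / (v : ℝ)) ≤
      Real.exp ((Zb : ℝ) + (∑ i, ((π.cp i : ℕ) : ℝ)) +
        9 * CE * ((a : ℝ) + 1) * ((b : ℝ) + 1)) := by
    refine (Finset.prod_le_prod (fun q _ => Finset.sum_nonneg fun v _ =>
      div_nonneg (wt_nonneg (fun t => (zw_pos π Zb t).le) _) (Nat.cast_nonneg v))
      fun q _ => euler_cell hE π Zb y q).trans ?_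
    rw [← Real.exp_sum, Finset.sum_add_distrib]
    refine Real.exp_le_exp.2 (add_le_add (sum_min_le π Zb) (le_of_eq ?_))
    simp [Fintype.card_prod, Fintype.card_option]; ring
  have hGle : G ≤ Real.exp (((a : ℝ) + b + 1) * (1 + 2 * Real.log ((e : ℝ) + 1)) - e -
      (∑ i, ((π.cp i : ℕ) : ℝ)) - ∑ j, ((π.cq j : ℕ) : ℝ)) := by
    have hcce : ∀ x, π.cc x ≤ e := by
      rintro (i | j)
      · exact Nat.le_of_lt_succ (π.cp i).isLt
      · exact Nat.le_of_lt_succ (π.cq j).isLt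
    refine (mul_le_mul (inv_gainL_le he1 le_rfl)
      (Finset.prod_le_prod (fun x _ => hgain _ (hV.2.2.2.1 x))
        fun x _ => inv_gainL_le (hV.2.2.2.1 x) (hcce x))
      (Finset.prod_nonneg fun x _ => hgain _ (hV.2.2.2.1 x)) (Real.exp_pos _).le).trans
      (le_of_eq ?_)
    rw [← Real.exp_sum, ← Real.exp_add, Fintype.sum_sum_type]
    simp only [Pat.cc, Finset.sum_add_distrib, Finset.sum_sub_distrib, Finset.sum_const,
      Finset.card_univ, Fintype.card_fin, nsmul_eq_mul]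
    congr 1; ring
  refine (mul_le_mul (mul_le_mul_of_nonneg_left hGle (Real.exp_pos _).le) hprod
    (Finset.prod_nonneg fun q _ => Finset.sum_nonneg fun v _ =>
      div_nonneg (wt_nonneg (fun t => (zw_pos π Zb t).le) _) (Nat.cast_nonneg v))
    (by positivity)).trans ?_
  rw [← Real.exp_add, ← Real.exp_add]
  refine Real.exp_le_exp.2 ?_
  have hind := ind_le π Zb B hV.2.2.2.2.1
  obtain ⟨b', rfl⟩ : ∃ b', b = b' + 1 := ⟨b - 1, by omega⟩
  have hsum : ∑ j : Fin (b' + 1), aC j.val * ((π.cq j : ℕ) : ℝ) = -(e : ℝ) +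
      ∑ j : Fin (b' + 1), if 0 < j.val then aC j.val * ((π.cq j : ℕ) : ℝ) else 0 := by
    rw [Fin.sum_univ_succ, Fin.sum_univ_succ (fun j : Fin (b' + 1) =>
      if 0 < j.val then aC j.val * ((π.cq j : ℕ) : ℝ) else 0)]
    have h0 : (π.cq 0 : ℕ) = e := hV.2.2.2.2.2.1 0 rfl
    simp [aC_zero, h0]
  have hD := hV.2.2.2.2.2.2
  push_cast at hD hind ⊢
  linarith

lemma one_le_Lam {e K : ℕ} {LL : ℝ} (hLL : 1 ≤ LL) :
    1 ≤ Real.log ((e : ℝ) + LL + K + 3) := by
  have he0 : (0 : ℝ) ≤ e := Nat.cast_nonneg e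
  have hK0 : (0 : ℝ) ≤ K := Nat.cast_nonneg K
  rw [Real.le_log_iff_exp_le (by linarith)]; linarith [Real.exp_one_lt_d9]

lemma log_PP_le {CS : ℕ} (hCS : 1 ≤ CS) {e K : ℕ} {y : ℝ} (hy : 16 ≤ y) :
    1 ≤ (CS : ℝ) * Real.log (Real.log (4 * y)) ^ CS ∧
    Real.log ((CS : ℝ) * Real.log (Real.log (4 * y)) ^ CS) ≤
      2 * CS * Real.log ((e : ℝ) + Real.log (Real.log y) + K + 3) := by
  have hll : 1 ≤ Real.log (Real.log y) := one_le_loglog hy
  have hll4 := one_le_loglog (show 16 ≤ 4 * y by linarith)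
  have hCS1 : (1 : ℝ) ≤ CS := by exact_mod_cast hCS
  have hΛ := one_le_Lam (e := e) (K := K) hll
  refine ⟨one_le_mul_of_one_le_of_one_le hCS1 (one_le_pow₀ hll4), ?_⟩
  rw [Real.log_mul (by positivity) (by positivity), Real.log_pow]
  have h4 : Real.log (Real.log (4 * y)) ≤ Real.log (Real.log y) + 1 := by
    have hly : 0 < Real.log y := Real.log_pos (by linarith)
    have h1 : Real.log (4 * y) ≤ Real.exp 1 * Real.log y := by
      rw [Real.log_mul (by norm_num) (by linarith)]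
      have h4y : Real.log 4 ≤ Real.log y := Real.log_le_log (by norm_num) (by linarith)
      nlinarith [Real.exp_one_gt_d9]
    refine (Real.log_le_log (Real.log_pos (by linarith)) h1).trans (le_of_eq ?_)
    rw [Real.log_mul (Real.exp_pos 1).ne' hly.ne', Real.log_exp]; ring
  have h5 : Real.log (Real.log (Real.log (4 * y))) ≤
      Real.log ((e : ℝ) + Real.log (Real.log y) + K + 3) :=
    Real.log_le_log (by linarith)
      (by linarith [(Nat.cast_nonneg e : (0 : ℝ) ≤ e), (Nat.cast_nonneg K : (0 : ℝ) ≤ K)])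
  have h6 := Real.log_le_sub_one_of_pos (show (0 : ℝ) < CS by linarith)
  have := mul_le_mul_of_nonneg_left h5 (Nat.cast_nonneg (α := ℝ) CS)
  have := mul_le_mul_of_nonneg_left hΛ (Nat.cast_nonneg (α := ℝ) CS)
  linarith

lemma pow_le_exp {x u c : ℝ} {n : ℕ} (hx : 1 ≤ x) (hn : (n : ℝ) ≤ u) (h : Real.log x ≤ c)
    (hu : 0 ≤ u) : x ^ n ≤ Real.exp (u * c) := by
  rw [← Real.exp_log (show (0 : ℝ) < x by linarith), ← Real.exp_nat_mul]
  exact Real.exp_le_exp.2 (mul_le_mul hn h (Real.log_nonneg hx) hu)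

/-- Patterns times the losses of the sieve. -/
lemma patterns_le {CS : ℕ} (hCS : 1 ≤ CS) {a b K e n : ℕ} {y : ℝ} (hy : 16 ≤ y) (hb : 1 ≤ b)
    (ha : a ≤ K) (hbK : b ≤ K) (hn : n ≤ a + b) :
    (Fintype.card (Pat a b e n) : ℝ) *
        (y * (CS * Real.log (Real.log (4 * y)) ^ CS) ^ n) ≤
      y * Real.exp ((4 * CS + 14) * K * Real.log ((e : ℝ) + Real.log (Real.log y) + K + 3)) := by
  obtain ⟨hPP1, hlogPP⟩ := log_PP_le (e := e) (K := K) hCS hy
  set LL := Real.log (Real.log y)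
  have hll : 1 ≤ LL := one_le_loglog hy
  set Λ := Real.log ((e : ℝ) + LL + K + 3)
  have hΛ : 1 ≤ Λ := one_le_Lam hll
  set PP := (CS : ℝ) * Real.log (Real.log (4 * y)) ^ CS
  have hK1 : (1 : ℝ) ≤ K := by exact_mod_cast hb.trans hbK
  have he0 : (0 : ℝ) ≤ e := Nat.cast_nonneg e
  have hla : ∀ z : ℝ, 0 < z → z ≤ ((e : ℝ) + LL + K + 3) ^ 2 → Real.log z ≤ 2 * Λ :=
    fun z hz h => by
      have := Real.log_le_log hz h
      rwa [Real.log_pow, Nat.cast_ofNat] at this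
  have haK : (a : ℝ) ≤ K := by exact_mod_cast ha
  have hbK' : (b : ℝ) ≤ K := by exact_mod_cast hbK
  have hn2 : (n : ℝ) ≤ 2 * K := by exact_mod_cast (show n ≤ 2 * K by omega)
  have hab : (((a + b : ℕ)) : ℝ) ≤ 2 * K := by push_cast; linarith
  have ha0 : (0 : ℝ) ≤ a := Nat.cast_nonneg a
  have hb0 : (0 : ℝ) ≤ b := Nat.cast_nonneg b
  have h1 := pow_le_exp (x := ((a : ℝ) + 1) * ((b : ℝ) + 1))
    (one_le_mul_of_one_le_of_one_le (by linarith) (by linarith)) hn2
    (hla _ (by positivity) (by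
      rw [sq]; exact mul_le_mul (by linarith) (by linarith) (by linarith) (by linarith)))
    (by linarith)
  have h2 : (n : ℝ) ^ (a + b) ≤ Real.exp ((2 * K) * (2 * Λ)) := by
    refine (pow_le_pow_left₀ (Nat.cast_nonneg _) hn2 _).trans ?_
    exact pow_le_exp (by linarith) hab (hla _ (by linarith) (by nlinarith)) (by linarith)
  have h3 := pow_le_exp (x := (e : ℝ) + 1) (by linarith) hab
    (hla _ (by linarith) (by nlinarith)) (by linarith)
  have h4 := pow_le_exp hPP1 hn2 hlogPP (by linarith)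
  have hP : (Fintype.card (Pat a b e n) : ℝ) ≤ Real.exp ((2 * K) * (2 * Λ)) *
      Real.exp ((2 * K) * (2 * Λ)) * Real.exp ((2 * K) * (2 * Λ)) :=
    (card_pat_le a b e n).trans
      (mul_le_mul (mul_le_mul h1 h2 (by positivity) (Real.exp_pos _).le) h3
        (by positivity) (by positivity))
  refine (mul_le_mul hP (mul_le_mul_of_nonneg_left h4 (by linarith)) (by positivity)
    (by positivity)).trans ?_
  rw [← mul_assoc, mul_comm _ y, mul_assoc y]
  simp only [← Real.exp_add]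
  refine mul_le_mul_of_nonneg_left (Real.exp_le_exp.2 ?_) (by linarith)
  nlinarith

/-- The final arithmetic. -/
lemma exponent_le {CE : ℝ} (hCE : 0 ≤ CE) {CS : ℕ} {a b K Zb B e : ℕ} {y D : ℝ} (hy : 16 ≤ y)
    (hb : 1 ≤ b) (ha : a ≤ K) (hbK : b ≤ K) :
    Real.log ((a : ℝ) + b + 1) +
        ((4 * CS + 14) * K * Real.log ((e : ℝ) + Real.log (Real.log y) + K + 3) +
          (-(e : ℝ) - D + 2 * Zb + ((b : ℝ) * T0 e + B + b) * Real.log (b + 1) +
            ((a : ℝ) + b + 1) * (1 + 2 * Real.log ((e : ℝ) + 1)) +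
            9 * CE * ((a : ℝ) + 1) * ((b : ℝ) + 1))) ≤
      -(e : ℝ) - D + (100 + 36 * CE + 5 * CS) *
        ((K : ℝ) ^ 3 * Real.log ((e : ℝ) + Real.log (Real.log y) + K + 3) +
          (K : ℝ) * Real.log ((K : ℝ) + 2) * (T0 e + Zb + B + 1)) := by
  set LL := Real.log (Real.log y)
  have hll : 1 ≤ LL := one_le_loglog hy
  set Λ := Real.log ((e : ℝ) + LL + K + 3)
  have hΛ : 1 ≤ Λ := one_le_Lam hll
  have hK1 : (1 : ℝ) ≤ K := by exact_mod_cast hb.trans hbK
  have hKl : 1 ≤ Real.log ((K : ℝ) + 2) := by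
    rw [Real.le_log_iff_exp_le (by linarith)]; linarith [Real.exp_one_lt_d9]
  have haK : (a : ℝ) ≤ K := by exact_mod_cast ha
  have hbK' : (b : ℝ) ≤ K := by exact_mod_cast hbK
  have ha0 : (0 : ℝ) ≤ a := Nat.cast_nonneg a
  have hb0 : (0 : ℝ) ≤ b := Nat.cast_nonneg b
  have he0 : (0 : ℝ) ≤ e := Nat.cast_nonneg e
  have hT := T0_nonneg e
  have hZ : (0 : ℝ) ≤ Zb := Nat.cast_nonneg Zb
  have hB : (0 : ℝ) ≤ B := Nat.cast_nonneg B
  have hCS0 : (0 : ℝ) ≤ CS := Nat.cast_nonneg CS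
  set P1 := (K : ℝ) ^ 3 * Λ
  set P2 := (K : ℝ) * Real.log ((K : ℝ) + 2) * (T0 e + Zb + B + 1)
  have hK3 : (K : ℝ) ≤ (K : ℝ) ^ 3 := le_self_pow₀ hK1 (by norm_num)
  have hKK : (K : ℝ) ^ 2 ≤ (K : ℝ) ^ 3 := pow_le_pow_right₀ hK1 (by norm_num)
  have hKΛ : (K : ℝ) * Λ ≤ P1 := mul_le_mul_of_nonneg_right hK3 (by linarith)
  have hP2 : 0 ≤ P2 := mul_nonneg (mul_nonneg (by linarith) (by linarith)) (by linarith)
  have hP1 : 0 ≤ P1 := mul_nonneg (by positivity) (by linarith)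
  have hle : Real.log ((e : ℝ) + 1) ≤ Λ := Real.log_le_log (by linarith) (by linarith)
  have h1 : Real.log ((a : ℝ) + b + 1) ≤ 2 * P1 := by
    have := Real.log_le_log (show (0 : ℝ) < (a : ℝ) + b + 1 by linarith)
      (show (a : ℝ) + b + 1 ≤ ((e : ℝ) + LL + K + 3) ^ 2 by nlinarith)
    rw [Real.log_pow, Nat.cast_ofNat] at this
    change Real.log ((a : ℝ) + b + 1) ≤ 2 * Λ at this
    have := le_mul_of_one_le_left (show 0 ≤ Λ by linarith) hK1
    linarith
  have b1 : ((b : ℝ) * T0 e + B + b) * Real.log ((b : ℝ) + 1) ≤ 2 * P2 := by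
    have h : (b : ℝ) * T0 e + B + b ≤ (K : ℝ) * (T0 e + Zb + B + 1) := by nlinarith
    have := mul_le_mul h (Real.log_le_log (by linarith) (by linarith) :
        Real.log ((b : ℝ) + 1) ≤ Real.log ((K : ℝ) + 2))
      (Real.log_nonneg (by linarith)) (mul_nonneg (by linarith) (by linarith))
    simp only [P2] at hP2 ⊢
    linarith
  have b2 : (2 : ℝ) * Zb ≤ 2 * P2 := by
    have : (T0 e + Zb + B + 1) ≤ P2 :=
      le_mul_of_one_le_left (by linarith) (one_le_mul_of_one_le_of_one_le hK1 hKl)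
    linarith
  have b3 : ((a : ℝ) + b + 1) * (1 + 2 * Real.log ((e : ℝ) + 1)) ≤ 9 * P1 := by
    have h : (1 + 2 * Real.log ((e : ℝ) + 1)) ≤ 3 * Λ := by linarith
    have := mul_le_mul (show (a : ℝ) + b + 1 ≤ 3 * K by linarith) h
      (by linarith [Real.log_nonneg (show (1 : ℝ) ≤ (e : ℝ) + 1 by linarith)]) (by linarith)
    linarith
  have b4 : 9 * CE * ((a : ℝ) + 1) * ((b : ℝ) + 1) ≤ 36 * CE * P1 := by
    have h := mul_le_mul (show (a : ℝ) + 1 ≤ 2 * K by linarith)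
      (show (b : ℝ) + 1 ≤ 2 * K by linarith) (by linarith) (by linarith)
    have h' : (K : ℝ) ^ 2 ≤ P1 := hKK.trans (le_mul_of_one_le_right (by positivity) hΛ)
    have h'' := mul_le_mul_of_nonneg_left (show ((a : ℝ) + 1) * ((b : ℝ) + 1) ≤ 4 * P1 by linarith) hCE
    linarith
  have b5 := mul_le_mul_of_nonneg_left hKΛ (show (0 : ℝ) ≤ 4 * CS + 14 by positivity)
  have := mul_nonneg hCE hP2
  have := mul_nonneg hCS0 hP2
  have := mul_nonneg hCS0 hP1
  linarith

end Coll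

open Classical in
/-- Few coincidences `∏ (p - 1) d = ∏ (q - 1) d'`. -/
theorem collision_of (hE : EulerTarget) (hS : SieveTarget) : CollisionTarget := by
  obtain ⟨CE, hCE0, hE'⟩ := hE
  obtain ⟨CS, hCS, hR⟩ := rsum hS
  refine ⟨100 + 36 * CE + 5 * CS, fun a b K Zb B e y D hb ha hbK hy => ?_⟩
  set S : Finset (Σ n : Fin (a + b + 1), Σ _π : Pat a b e n, (Cof a b) × (Fin n → ℕ)) :=
    (Finset.univ : Finset (Fin (a + b + 1))).sigma fun n =>
      ((Finset.univ : Finset (Pat a b e n)).filter fun π => π.Valid D).sigma fun π =>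
        ((Fintype.piFinset fun q : Cel a b => cellBox π Zb y q) ×ˢ
          Fintype.piFinset fun _ : Fin n => Finset.range (⌊y⌋₊ + 1)).filter fun w =>
            Good π Zb B y w.1 w.2 with hSdef
  have hsub : collSet a b Zb B e y D ⊆ ↑(S.image fun u => dec u.2.1 u.2.2.1 u.2.2.2) := by
    intro t ht
    obtain ⟨n, hn, π, hV, m, r, hm, hr, hg, hd⟩ := exists_encoding hb ht
    refine Finset.mem_coe.2 (Finset.mem_image.2 ⟨⟨⟨n, Nat.lt_succ_of_le hn⟩, π, m, r⟩, ?_, hd⟩)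
    simp only [hSdef, Finset.mem_sigma, Finset.mem_filter, Finset.mem_product,
      Fintype.mem_piFinset, Finset.mem_univ, true_and]
    exact ⟨hV, ⟨hm, fun k => Finset.mem_range.2 (Nat.lt_succ_of_le (hr k))⟩, hg⟩
  have hcard : (collSet a b Zb B e y D).ncard ≤ S.card := by
    refine (Set.ncard_le_ncard hsub (Finset.finite_toSet _)).trans ?_
    rw [Set.ncard_coe_finset]; exact Finset.card_image_le
  refine (Nat.cast_le.2 hcard).trans ?_
  rw [hSdef, Finset.card_sigma]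
  simp only [Finset.card_sigma, Nat.cast_sum]
  set W := -(e : ℝ) - D + 2 * Zb + ((b : ℝ) * T0 e + B + b) * Real.log (b + 1) +
    ((a : ℝ) + b + 1) * (1 + 2 * Real.log ((e : ℝ) + 1)) +
    9 * CE * ((a : ℝ) + 1) * ((b : ℝ) + 1) with hW
  set U := (4 * (CS : ℝ) + 14) * K * Real.log ((e : ℝ) + Real.log (Real.log y) + K + 3) with hU
  refine (Finset.sum_le_card_nsmul _ _ (y * Real.exp U * Real.exp W) fun n _ => ?_).trans ?_
  · refine (Finset.sum_le_sum fun π hπ => encodings_le hE' hR π Zb B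
      (Finset.mem_filter.1 hπ).2 hb hy).trans ?_
    rw [Finset.sum_const, nsmul_eq_mul, ← mul_assoc]
    refine mul_le_mul_of_nonneg_right (le_trans ?_
      (patterns_le (e := e) hCS hy hb ha hbK (Nat.le_of_lt_succ n.isLt))) (Real.exp_pos _).le
    refine mul_le_mul_of_nonneg_right ?_ ?_
    · exact Nat.cast_le.2 ((Finset.card_filter_le _ _).trans (by rw [Finset.card_univ]))
    · have := (log_PP_le (e := e) (K := K) hCS hy).1
      exact mul_nonneg (by linarith) (pow_nonneg (by linarith) _)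
  rw [nsmul_eq_mul, Finset.card_univ, Fintype.card_fin]
  have hpos : (0 : ℝ) < (a : ℝ) + b + 1 := by positivity
  calc ((a + b + 1 : ℕ) : ℝ) * (y * Real.exp U * Real.exp W)
      = y * Real.exp (Real.log ((a : ℝ) + b + 1) + (U + W)) := by
        rw [Real.exp_add (Real.log _), Real.exp_add U, Real.exp_log hpos]; push_cast; ring
    _ ≤ _ := by
        refine mul_le_mul_of_nonneg_left (Real.exp_le_exp.2 ?_) (by linarith)
        exact exponent_le hCE0 hy hb ha hbK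

end

end Vale.Agent.P031
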