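import Vale.Agent.P031.Rankin
import Mathlib.Algebra.Order.Field.GeomSum

/-!
# P031: crude bounds for sums over totient values
-/

namespace Vale.Agent.P031.Rankin

open Finset

noncomputable section

/-- `u` is the totient of an integer with all prime factors in cells at most `n`. -/
def Good (n u : ℕ) : Prop :=
  ∃ b : ℕ, 1 ≤ b ∧ (∀ s : ℕ, s.Prime → s ∣ b → cell s ≤ n) ∧ b.totient = u

theorem Good.one_le {n u : ℕ} (h : Good n u) : 1 ≤ u := by
  obtain ⟨b, hb, _, rfl⟩ := h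
  exact Nat.totient_pos.2 hb

theorem exists_prime_ge_of_dvd_totient {b s : ℕ} (hb : b ≠ 0) (hs : s.Prime) (h : s ∣ b.totient) :
    ∃ q : ℕ, q.Prime ∧ q ∣ b ∧ s ≤ q := by
  rw [Nat.totient_eq_prod_factorization hb, Nat.Prime.prime hs |>.dvd_finsuppProd_iff] at h
  obtain ⟨q, hq, hdvd⟩ := h
  have hqp : q.Prime := Nat.prime_of_mem_primeFactors hq
  refine ⟨q, hqp, Nat.dvd_of_mem_primeFactors hq, ?_⟩
  rcases hs.dvd_mul.1 hdvd with h | h
  · exact Nat.le_of_dvd hqp.pos (hs.dvd_of_dvd_pow h)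
  · exact (Nat.le_of_dvd (by have := hqp.two_le; omega) h).trans (Nat.sub_le _ _)

theorem Good.smooth {n u : ℕ} (h : Good n u) : ∀ s : ℕ, s.Prime → s ∣ u → cell s ≤ n := by
  obtain ⟨b, hb, hsm, rfl⟩ := h
  intro s hs hdvd
  obtain ⟨q, hq, hqb, hsq⟩ := exists_prime_ge_of_dvd_totient (by omega) hs hdvd
  exact (cell_le_cell hs hsq).trans (hsm q hq hqb)

theorem euler_inv (hE : EulerTarget) : ∃ C : ℝ, 0 ≤ C ∧ ∀ (e : ℕ) (U : Finset ℕ),
    (∀ u ∈ U, 1 ≤ u ∧ ∀ s : ℕ, s.Prime → s ∣ u → cell s ≤ e) →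
    ∑ u ∈ U, (u : ℝ)⁻¹ ≤ Real.exp ((e : ℝ) + C) := by
  obtain ⟨C, hC, hEu⟩ := hE
  refine ⟨C * (1 + 1 + 0) ^ 2, by positivity, fun e U hU => ?_⟩
  have h := hEu e (fun _ => 1) 1 0 U (fun _ => zero_le_one) (fun _ _ => le_rfl) (by simp)
    (fun s hs _ => by have : (2 : ℝ) ≤ s := by exact_mod_cast hs.two_le
                      linarith) hU
  simpa [wt, List.map_const', one_div] using h

theorem sum_inv_le_mul {U A B : Finset ℕ} (h : ∀ u ∈ U, ∃ a ∈ A, ∃ b ∈ B, u = a * b) :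
    ∑ u ∈ U, (u : ℝ)⁻¹ ≤ (∑ a ∈ A, (a : ℝ)⁻¹) * ∑ b ∈ B, (b : ℝ)⁻¹ := by
  classical
  rw [sum_mul_sum, ← sum_product']
  have hsub : U ⊆ (A ×ˢ B).image (fun x : ℕ × ℕ => x.1 * x.2) := fun u hu => by
    obtain ⟨a, ha, b, hb, rfl⟩ := h u hu
    exact mem_image.2 ⟨(a, b), mem_product.2 ⟨ha, hb⟩, rfl⟩
  refine (sum_le_sum_of_subset_of_nonneg hsub fun _ _ _ => by positivity).trans ?_
  refine (sum_image_le_of_nonneg fun _ _ => by positivity).trans (le_of_eq ?_)
  exact sum_congr rfl fun x _ => by push_cast; rw [mul_inv]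

theorem sum_inv_union_le (s t : Finset ℕ) :
    ∑ w ∈ s ∪ t, (w : ℝ)⁻¹ ≤ (∑ w ∈ s, (w : ℝ)⁻¹) + ∑ w ∈ t, (w : ℝ)⁻¹ := by
  rw [← sum_union_inter]
  exact le_add_of_nonneg_right (sum_nonneg fun _ _ => by positivity)

/-- The supremum of the sums of `1 / u` over finite sets of good values. -/
def Esup (n : ℕ) : ℝ :=
  sSup {r : ℝ | ∃ U : Finset ℕ, (∀ u ∈ U, Good n u) ∧ r = ∑ u ∈ U, (u : ℝ)⁻¹}

theorem bddAbove_esup (hE : EulerTarget) (n : ℕ) :
    BddAbove {r : ℝ | ∃ U : Finset ℕ, (∀ u ∈ U, Good n u) ∧ r = ∑ u ∈ U, (u : ℝ)⁻¹} := by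
  obtain ⟨C, _, h⟩ := euler_inv hE
  refine ⟨Real.exp ((n : ℝ) + C), ?_⟩
  rintro r ⟨U, hU, rfl⟩
  exact h n U fun u hu => ⟨(hU u hu).one_le, (hU u hu).smooth⟩

theorem le_esup (hE : EulerTarget) {n : ℕ} {U : Finset ℕ} (hU : ∀ u ∈ U, Good n u) :
    ∑ u ∈ U, (u : ℝ)⁻¹ ≤ Esup n := le_csSup (bddAbove_esup hE n) ⟨U, hU, rfl⟩

theorem one_le_esup (hE : EulerTarget) (n : ℕ) : 1 ≤ Esup n := by
  have h : ∀ u ∈ ({1} : Finset ℕ), Good n u := fun u hu =>
    ⟨1, le_rfl, fun s hs h => absurd (Nat.dvd_one.1 h) hs.ne_one, by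
      rw [Finset.mem_singleton.1 hu]; exact Nat.totient_one⟩
  simpa using le_esup hE h

theorem esup_le (n : ℕ) {B : ℝ}
    (h : ∀ U : Finset ℕ, (∀ u ∈ U, Good n u) → ∑ u ∈ U, (u : ℝ)⁻¹ ≤ B) : Esup n ≤ B := by
  refine csSup_le ⟨0, ∅, by simp, by simp⟩ ?_
  rintro r ⟨U, hU, rfl⟩
  exact h U hU

/-- Splitting off the full power of a prime. -/
theorem split_prime {n b q : ℕ} (hb : 1 ≤ b) (hsm : ∀ s : ℕ, s.Prime → s ∣ b → cell s ≤ n)
    (hq : q.Prime) (hqb : q ∣ b) :
    ∃ a b' : ℕ, 1 ≤ a ∧ 1 ≤ b' ∧ b = q ^ a * b' ∧ ¬q ∣ b' ∧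
      b.totient = (q ^ a).totient * b'.totient ∧ (∀ s : ℕ, s.Prime → s ∣ b' → cell s ≤ n) := by
  refine ⟨b.factorization q, b / q ^ b.factorization q, hq.factorization_pos_of_dvd (by omega) hqb,
    Nat.ordCompl_pos q (by omega), (Nat.ordProj_mul_ordCompl_eq_self b q).symm,
    Nat.not_dvd_ordCompl hq (by omega), ?_, fun s hs h => hsm s hs (h.trans (Nat.ordCompl_dvd b q))⟩
  conv_lhs => rw [← Nat.ordProj_mul_ordCompl_eq_self b q]
  exact Nat.totient_mul ((Nat.coprime_ordCompl hq (by omega)).pow_left _)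

theorem split_simple {n b q : ℕ} (hb : 1 ≤ b) (hsm : ∀ s : ℕ, s.Prime → s ∣ b → cell s ≤ n)
    (hq : q.Prime) (hqb : q ∣ b) (hsq : ¬q ^ 2 ∣ b) :
    ∃ b' : ℕ, 1 ≤ b' ∧ b = q * b' ∧ ¬q ∣ b' ∧ b.totient = (q - 1) * b'.totient ∧
      (∀ s : ℕ, s.Prime → s ∣ b' → cell s ≤ n) := by
  obtain ⟨a, b', ha, hb', heq, hnd, htot, hsm'⟩ := split_prime hb hsm hq hqb
  have ha1 : a = 1 := by
    by_contra h
    exact hsq (heq ▸ dvd_mul_of_dvd_left (pow_dvd_pow q (by omega : 2 ≤ a)) _)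
  subst ha1
  rw [pow_one] at heq htot
  rw [Nat.totient_prime hq] at htot
  exact ⟨b', hb', heq, hnd, htot, hsm'⟩

theorem mem_window_of_cell {m n p : ℕ} (hp : p.Prime) (h1 : m < cell p) (h2 : cell p ≤ n) :
    p ∈ window m n := by
  have hX : X p ≤ n := Nat.ceil_le.1 h2
  refine mem_filter.2 ⟨mem_range.2 (Nat.lt_succ_of_le (Nat.le_floor ?_)), hp, lt_cell_iff.1 h1, hX⟩
  have h0 : (0 : ℝ) < p := by exact_mod_cast hp.pos
  rw [← Real.exp_log h0]
  refine Real.exp_le_exp.2 ?_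
  rw [← Real.exp_log (log_pos_of_prime hp)]
  exact Real.exp_le_exp.2 hX

theorem totient_pow_inv_le {q a : ℕ} (hq : q.Prime) (ha : 1 ≤ a) :
    ((q ^ a).totient : ℝ)⁻¹ ≤ 2 * ((q : ℝ)⁻¹) ^ a := by
  have h0 : (0 : ℝ) < q := by exact_mod_cast hq.pos
  have h : q ^ a ≤ 2 * (q ^ a).totient := by
    obtain ⟨c, rfl⟩ : ∃ c, a = c + 1 := ⟨a - 1, by omega⟩
    rw [Nat.totient_prime_pow_succ hq, pow_succ, mul_left_comm]
    exact Nat.mul_le_mul_left _ (by have := hq.two_le; omega)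
  have h' : (q : ℝ) ^ a ≤ 2 * ((q ^ a).totient : ℝ) := by exact_mod_cast h
  have hpos : (0 : ℝ) < ((q ^ a).totient : ℝ) := by
    exact_mod_cast Nat.totient_pos.2 (pow_pos hq.pos _)
  rw [inv_pow, ← div_eq_mul_inv, inv_eq_one_div, div_le_div_iff₀ hpos (pow_pos h0 a)]
  linarith

/-- The recursion. -/
theorem esup_rec (hE : EulerTarget) (hW : WindowTarget) (hA : AbnormalTarget) :
    ∃ (n₀ : ℕ) (C : ℝ), 0 ≤ C ∧ ∀ n : ℕ, n₀ ≤ n →
      Esup n ≤ 2 * ((n : ℝ) + C + 2) ^ 2 * Esup (17 * n / 20) := by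
  classical
  obtain ⟨W, hW⟩ := hW
  obtain ⟨c, e₀, hc, -, hAb⟩ := hA
  obtain ⟨P, hP0, hprof⟩ := profile_sum hE
  refine ⟨⌈max 0 e₀⌉₊ * 2 + ⌈(3 / c) ^ 2⌉₊ * 2 + ⌈|W|⌉₊ * 100 + 1000 +
    ⌈(20 * (6 * Real.log 3 + 12 + 16 * P + 6 * Real.log 3) + 1) ^ 4⌉₊,
    |W|, abs_nonneg _, fun n hn => ?_⟩
  set m := 17 * n / 20 with hm
  have hm20 : 20 * m ≤ 17 * n := by omega
  have hm20' : 17 * n < 20 * (m + 1) := by omega
  set Q := window m n with hQ
  set S := ∑ q ∈ Q, ((q : ℝ) - 1)⁻¹ with hS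
  have hQmem : ∀ q ∈ Q, q.Prime ∧ (m : ℝ) < X q := fun q hq =>
    ⟨(mem_filter.1 hq).2.1, (mem_filter.1 hq).2.2.1⟩
  have hq1 : ∀ q ∈ Q, (0 : ℝ) < (q : ℝ) - 1 := fun q hq => by
    have : (2 : ℝ) ≤ q := by exact_mod_cast (hQmem q hq).1.two_le
    linarith
  have hS0 : 0 ≤ S := sum_nonneg fun q hq => (inv_pos.2 (hq1 q hq)).le
  have hSn : S ≤ (n : ℝ) + |W| := by
    have hmn : (m : ℝ) ≤ n := by exact_mod_cast (by omega : m ≤ n)
    have := hW m n (Nat.cast_nonneg m) hmn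
    have := (abs_le.1 this).2
    have := le_abs_self W
    have : (0 : ℝ) ≤ m := Nat.cast_nonneg m
    rw [hS, hQ]
    linarith
  have hcast : ∀ q ∈ Q, ((q - 1 : ℕ) : ℝ)⁻¹ = ((q : ℝ) - 1)⁻¹ := fun q hq => by
    rw [Nat.cast_sub (hQmem q hq).1.one_le, Nat.cast_one]
  -- the abnormal primes and the higher powers
  have hab : ∑ q ∈ Q.filter (fun q => ¬Normal q), ((q - 1 : ℕ) : ℝ)⁻¹ ≤ 1 / 4 := by
    have hme : e₀ ≤ m := by
      have : ⌈max 0 e₀⌉₊ ≤ m := by omega
      exact le_trans (le_max_right 0 e₀) (le_trans (Nat.le_ceil _) (by exact_mod_cast this))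
    refine le_trans (le_of_eq ?_) (le_trans (hAb m n hme) ?_)
    · rw [sum_filter]
      exact sum_congr rfl fun q hq => by split_ifs <;> simp [hcast q hq]
    · have h3 : 3 ≤ c * Real.sqrt m := by
        have h1 : (3 / c) ^ 2 ≤ (m : ℝ) :=
          le_trans (Nat.le_ceil _) (by exact_mod_cast (by omega : ⌈(3 / c) ^ 2⌉₊ ≤ m))
        have := (Real.le_sqrt (by positivity) (Nat.cast_nonneg m)).2 h1
        rwa [div_le_iff₀ hc, mul_comm] at this
      rw [Real.exp_neg, inv_le_comm₀ (Real.exp_pos _) (by norm_num)]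
      have := Real.add_one_le_exp (c * Real.sqrt m)
      norm_num
      linarith
  have hpow : ∀ M : ℕ, ∑ x ∈ Q ×ˢ Icc 2 M, (((x.1 ^ x.2).totient : ℕ) : ℝ)⁻¹ ≤ 1 / 4 := by
    intro M
    rw [sum_product]
    have hbig : ∀ q ∈ Q, Real.exp (Real.exp m) ≤ (q : ℝ) := fun q hq =>
      (exp_exp_lt_of_lt_X (hQmem q hq).1 (hQmem q hq).2).le
    have hone : ∀ q ∈ Q, ∑ a ∈ Icc 2 M, (((q ^ a).totient : ℕ) : ℝ)⁻¹
        ≤ 4 / Real.exp (Real.exp m) * ((q : ℝ) - 1)⁻¹ := by
      intro q hq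
      have h2 : (2 : ℝ) ≤ q := by exact_mod_cast (hQmem q hq).1.two_le
      have hinv : ((q : ℝ))⁻¹ ≤ 1 / 2 := by rw [one_div]; exact inv_anti₀ (by norm_num) h2
      refine (sum_le_sum fun a ha => totient_pow_inv_le (hQmem q hq).1
        (by have := (mem_Icc.1 ha).1; omega)).trans ?_
      rw [← mul_sum, ← Ico_add_one_right_eq_Icc]
      refine le_trans (mul_le_mul_of_nonneg_left
        (geom_sum_Ico_le_of_lt_one (by positivity) (by linarith)) zero_le_two) ?_
      calc 2 * (((q : ℝ))⁻¹ ^ 2 / (1 - (q : ℝ)⁻¹))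
          ≤ 2 * (((q : ℝ))⁻¹ ^ 2 / (1 / 2)) := by gcongr; linarith
        _ = 4 * ((q : ℝ))⁻¹ * ((q : ℝ))⁻¹ := by ring
        _ ≤ 4 * (Real.exp (Real.exp m))⁻¹ * ((q : ℝ) - 1)⁻¹ := by
            refine mul_le_mul (mul_le_mul_of_nonneg_left (inv_anti₀ (Real.exp_pos _) (hbig q hq))
              (by norm_num)) (inv_anti₀ (hq1 q hq) (by linarith)) (by positivity) (by positivity)
        _ = _ := by ring
    refine (sum_le_sum hone).trans ?_
    rw [← mul_sum, ← hS, div_mul_eq_mul_div, div_le_iff₀ (Real.exp_pos _)]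
    have h1 : (m : ℝ) ^ 2 / 2 ≤ Real.exp (Real.exp m) := by
      have h1 := Real.quadratic_le_exp_of_nonneg (Nat.cast_nonneg (α := ℝ) m)
      have h2 := Real.add_one_le_exp (Real.exp (m : ℝ))
      have : (0 : ℝ) ≤ m := Nat.cast_nonneg m
      linarith
    have h4 : (100 : ℝ) * |W| + 1000 ≤ n := by
      have : ⌈|W|⌉₊ * 100 + 1000 ≤ n := by omega
      have : (⌈|W|⌉₊ : ℝ) * 100 + 1000 ≤ n := by exact_mod_cast this
      linarith [Nat.le_ceil |W|]
    have h5 : (17 : ℝ) * n ≤ 20 * m + 20 := by exact_mod_cast (by omega : 17 * n ≤ 20 * m + 20)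
    have := abs_nonneg W
    nlinarith
  suffices hall : Esup n ≤ (1 + S + S ^ 2) * Esup m + 1 / 2 * Esup n + 1 by
    have hEm := one_le_esup hE m
    have h1 : 2 * (1 + S + S ^ 2) + 2 ≤ 2 * ((n : ℝ) + |W| + 2) ^ 2 := by
      nlinarith [pow_le_pow_left₀ hS0 hSn 2]
    have h2 := mul_le_mul_of_nonneg_right h1 (zero_le_one.trans hEm)
    nlinarith
  refine esup_le n fun U hU => ?_
  choose! b hb1 hbsm hbtot using hU
  set bad : ℕ → Prop := fun u =>
    ∃ q : ℕ, q.Prime ∧ q ∣ b u ∧ m < cell q ∧ (¬Normal q ∨ q ^ 2 ∣ b u) with hbad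
  set big : ℕ → Finset ℕ := fun u => (b u).primeFactors.filter (fun q => m < cell q) with hbig
  have hmembig : ∀ u ∈ U, ∀ q, q ∈ big u ↔ q.Prime ∧ q ∣ b u ∧ m < cell q := by
    intro u hu q
    simp only [hbig, mem_filter, Nat.mem_primeFactors]
    have := hb1 u hu
    constructor
    · rintro ⟨⟨h1, h2, -⟩, h3⟩; exact ⟨h1, h2, h3⟩
    · rintro ⟨h1, h2, h3⟩; exact ⟨⟨h1, h2, by omega⟩, h3⟩
  set U2 := U.filter bad with hU2
  set U1 := U.filter fun u => ¬bad u ∧ (big u).card ≤ 2 with hU1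
  set U3 := U.filter fun u => ¬bad u ∧ 3 ≤ (big u).card with hU3
  have hsplit : ∑ u ∈ U, (u : ℝ)⁻¹
      ≤ (∑ u ∈ U1, (u : ℝ)⁻¹) + (∑ u ∈ U2, (u : ℝ)⁻¹) + ∑ u ∈ U3, (u : ℝ)⁻¹ := by
    rw [hU1, hU2, hU3, sum_filter, sum_filter, sum_filter, ← sum_add_distrib, ← sum_add_distrib]
    refine sum_le_sum fun u _ => ?_
    have : (0 : ℝ) ≤ (u : ℝ)⁻¹ := by positivity
    by_cases hb : bad u
    · rw [if_pos hb, if_neg (fun h => h.1 hb), if_neg (fun h => h.1 hb)]
      linarith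
    · rcases Nat.lt_or_ge 2 (big u).card with h | h
      · simp [hb, (by omega : 3 ≤ (big u).card)]; split_ifs <;> linarith
      · simp [hb, h]; split_ifs <;> linarith
  have hQin : ∀ u ∈ U, ∀ q, q.Prime → q ∣ b u → m < cell q → q ∈ Q := fun u hu q hq hd hm' =>
    mem_window_of_cell hq hm' (hbsm u hu q hq hd)
  -- at most two large primes
  have h1 : ∑ u ∈ U1, (u : ℝ)⁻¹ ≤ (1 + S + S ^ 2) * Esup m := by
    set W0 : Finset ℕ := ({1} ∪ Q.image (fun q => q - 1)) ∪
      (Q ×ˢ Q).image (fun x => (x.1 - 1) * (x.2 - 1)) with hW0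
    have hW0sum : ∑ w ∈ W0, (w : ℝ)⁻¹ ≤ 1 + S + S ^ 2 := by
      refine (sum_inv_union_le _ _).trans (add_le_add ?_ ?_)
      · refine (sum_inv_union_le _ _).trans (add_le_add (by simp) ?_)
        refine (sum_image_le_of_nonneg fun _ _ => by positivity).trans (le_of_eq ?_)
        exact sum_congr rfl hcast
      · refine (sum_image_le_of_nonneg fun _ _ => by positivity).trans (le_of_eq ?_)
        rw [sq, hS, sum_mul_sum, ← sum_product']
        refine sum_congr rfl fun x hx => ?_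
        rw [mem_product] at hx
        push_cast
        rw [mul_inv, hcast _ hx.1, hcast _ hx.2]
    have key : ∀ u ∈ U1, ∃ w ∈ W0, ∃ v, Good m v ∧ u = w * v := by
      intro u hu
      rw [hU1, mem_filter] at hu
      obtain ⟨huU, hnb, hcard⟩ := hu
      have hsq : ∀ q : ℕ, q.Prime → q ∣ b u → m < cell q → ¬q ^ 2 ∣ b u :=
        fun q hq hd hm' h => hnb ⟨q, hq, hd, hm', Or.inr h⟩
      have hlow : ∀ b' : ℕ, b' ∣ b u → (∀ q ∈ big u, ¬q ∣ b') →
          ∀ s : ℕ, s.Prime → s ∣ b' → cell s ≤ m := fun b' hb' hno s hs hd => by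
        by_contra h
        exact hno s ((hmembig u huU s).2 ⟨hs, hd.trans hb', not_le.1 h⟩) hd
      rcases (by omega : (big u).card = 0 ∨ (big u).card = 1 ∨ (big u).card = 2) with h | h | h
      · refine ⟨1, by simp [hW0], u, ⟨b u, hb1 u huU, hlow _ dvd_rfl ?_, hbtot u huU⟩,
          (one_mul u).symm⟩
        rw [card_eq_zero.1 h]; simp
      · obtain ⟨q, hq⟩ := card_eq_one.1 h
        obtain ⟨hqp, hqd, hqm⟩ := (hmembig u huU q).1 (by simp [hq])
        obtain ⟨b', hb', heq, hnd, htot, -⟩ :=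
          split_simple (hb1 u huU) (hbsm u huU) hqp hqd (hsq q hqp hqd hqm)
        refine ⟨q - 1, mem_union_left _ (mem_union_right _ (mem_image_of_mem _
          (hQin u huU q hqp hqd hqm))), b'.totient,
          ⟨b', hb', hlow b' ⟨q, by rw [heq, mul_comm]⟩ (by simpa [hq] using hnd), rfl⟩,
          by rw [← hbtot u huU, htot]⟩
      · obtain ⟨q, r, hqr, hq⟩ := card_eq_two.1 h
        obtain ⟨hqp, hqd, hqm⟩ := (hmembig u huU q).1 (by simp [hq])
        obtain ⟨hrp, hrd, hrm⟩ := (hmembig u huU r).1 (by simp [hq])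
        obtain ⟨b', hb', heq, hnd, htot, hsm'⟩ :=
          split_simple (hb1 u huU) (hbsm u huU) hqp hqd (hsq q hqp hqd hqm)
        have hb'd : b' ∣ b u := ⟨q, by rw [heq, mul_comm]⟩
        have hrb' : r ∣ b' := by
          rw [heq] at hrd
          rcases hrp.dvd_mul.1 hrd with h | h
          · exact absurd ((Nat.prime_dvd_prime_iff_eq hrp hqp).1 h).symm hqr
          · exact h
        obtain ⟨b'', hb'', heq', hnd', htot', -⟩ :=
          split_simple hb' hsm' hrp hrb' fun h => hsq r hrp hrd hrm (h.trans hb'd)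
        have hd' : b'' ∣ b' := ⟨r, by rw [heq', mul_comm]⟩
        refine ⟨(q - 1) * (r - 1), mem_union_right _ (mem_image.2 ⟨(q, r), mem_product.2
          ⟨hQin u huU q hqp hqd hqm, hQin u huU r hrp hrd hrm⟩, rfl⟩), b''.totient,
          ⟨b'', hb'', hlow b'' (hd'.trans hb'd) ?_, rfl⟩,
          by rw [← hbtot u huU, htot, htot', mul_assoc]⟩
        intro s hs
        rw [hq, mem_insert, mem_singleton] at hs
        rcases hs with rfl | rfl
        · exact fun h => hnd (h.trans hd')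
        · exact hnd'
    choose! w hw v hv huv using key
    refine (sum_inv_le_mul (A := W0) (B := U1.image v)
      fun u hu => ⟨w u, hw u hu, v u, mem_image_of_mem _ hu, huv u hu⟩).trans ?_
    exact mul_le_mul hW0sum (le_esup hE fun x hx => by
      obtain ⟨u, hu, rfl⟩ := mem_image.1 hx; exact hv u hu)
      (sum_nonneg fun _ _ => by positivity) (by nlinarith)
  -- an exceptional large prime
  have h2 : ∑ u ∈ U2, (u : ℝ)⁻¹ ≤ 1 / 2 * Esup n := by
    set M := U.sup b with hM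
    set W2 : Finset ℕ := (Q.filter (fun q => ¬Normal q)).image (fun q => q - 1) ∪
      (Q ×ˢ Icc 2 M).image (fun x => (x.1 ^ x.2).totient) with hW2
    have hW2sum : ∑ w ∈ W2, (w : ℝ)⁻¹ ≤ 1 / 2 := by
      refine (sum_inv_union_le _ _).trans ?_
      have ha := (sum_image_le_of_nonneg (g := fun q : ℕ => q - 1)
        (s := Q.filter fun q => ¬Normal q) (f := fun w : ℕ => (w : ℝ)⁻¹)
        fun _ _ => by positivity).trans hab
      have hp := (sum_image_le_of_nonneg (g := fun x : ℕ × ℕ => (x.1 ^ x.2).totient)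
        (s := Q ×ˢ Icc 2 M) (f := fun w : ℕ => (w : ℝ)⁻¹) fun _ _ => by positivity).trans (hpow M)
      linarith
    have key : ∀ u ∈ U2, ∃ w ∈ W2, ∃ v, Good n v ∧ u = w * v := by
      intro u hu
      rw [hU2, mem_filter] at hu
      obtain ⟨huU, q, hqp, hqd, hqm, hor⟩ := hu
      obtain ⟨a, b', ha, hb', heq, hnd, htot, hsm'⟩ := split_prime (hb1 u huU) (hbsm u huU) hqp hqd
      refine ⟨(q ^ a).totient, ?_, b'.totient, ⟨b', hb', hsm', rfl⟩, by rw [← hbtot u huU, htot]⟩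
      rcases eq_or_lt_of_le ha with h | h
      · subst h
        refine mem_union_left _ (mem_image.2 ⟨q, mem_filter.2 ⟨hQin u huU q hqp hqd hqm, ?_⟩,
          by rw [pow_one, Nat.totient_prime hqp]⟩)
        rcases hor with h | h
        · exact h
        · exfalso
          rw [heq, pow_one, sq, Nat.mul_dvd_mul_iff_left hqp.pos] at h
          exact hnd h
      · refine mem_union_right _ (mem_image.2 ⟨(q, a), mem_product.2
          ⟨hQin u huU q hqp hqd hqm, mem_Icc.2 ⟨h, ?_⟩⟩, rfl⟩)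
        calc a ≤ q ^ a := (Nat.lt_pow_self hqp.one_lt).le
          _ ≤ b u := Nat.le_of_dvd (hb1 u huU) ⟨b', heq⟩
          _ ≤ M := le_sup huU
    choose! w hw v hv huv using key
    refine (sum_inv_le_mul (A := W2) (B := U2.image v)
      fun u hu => ⟨w u, hw u hu, v u, mem_image_of_mem _ hu, huv u hu⟩).trans ?_
    exact mul_le_mul hW2sum (le_esup hE fun x hx => by
      obtain ⟨u, hu, rfl⟩ := mem_image.1 hx; exact hv u hu)
      (sum_nonneg fun _ _ => by positivity) (by norm_num)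
  -- three large primes
  have h3 : ∑ u ∈ U3, (u : ℝ)⁻¹ ≤ 1 := by
    refine (hprof 3 n 2 n ((n : ℝ) / 20) U3 ?_ ?_).trans (Real.exp_le_one_iff.2 ?_)
    · have h1 := Real.quadratic_le_exp_of_nonneg (show (0 : ℝ) ≤ (2 : ℕ) by norm_num)
      have h2 := Real.exp_one_gt_d9
      have h3 : (7 : ℝ) ≤ Real.exp (2 : ℕ) := by
        rw [show ((2 : ℕ) : ℝ) = 1 + 1 by norm_num, Real.exp_add]
        nlinarith
      refine le_trans ?_ (Real.exp_le_exp.2 h3)
      have h4 : (2.7 : ℝ) ^ (7 : ℕ) ≤ Real.exp 7 := by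
        rw [show (7 : ℝ) = (7 : ℕ) * 1 by norm_num, Real.exp_nat_mul]
        exact pow_le_pow_left₀ (by norm_num) (by linarith) _
      norm_num at h4 ⊢
      linarith
    · intro u hu
      rw [hU3, mem_filter] at hu
      obtain ⟨huU, hnb, hcard⟩ := hu
      refine ⟨(hbtot u huU) ▸ Nat.totient_pos.2 (hb1 u huU),
        Good.smooth ⟨b u, hb1 u huU, hbsm u huU, hbtot u huU⟩, ?_⟩
      obtain ⟨T, hT, hTc⟩ := exists_subset_card_eq hcard
      set e := T.orderEmbOfFin hTc with he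
      have hmem : ∀ i, (e i).Prime ∧ e i ∣ b u ∧ m < cell (e i) := fun i =>
        (hmembig u huU _).1 (hT (orderEmbOfFin_mem T hTc i))
      refine ⟨fun i => e i.rev, cell_antitone (fun i => (hmem _).1)
        (fun i j h => e.strictMono (Fin.rev_lt_rev.2 h)), fun i => ⟨?_, ?_, ?_⟩, ?_, ?_⟩
      · by_contra h
        exact hnb ⟨_, (hmem i.rev).1, (hmem i.rev).2.1, (hmem i.rev).2.2, Or.inl h⟩
      · have := (hmem i.rev).2.2
        show 2 ≤ cell (e i.rev)
        omega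
      · exact hbsm u huU _ (hmem i.rev).1 (hmem i.rev).2.1
      · have hdiv : (∏ i : Fin 3, e i.rev) ∣ b u := by
          have hne : ∀ i j : Fin 3, i ≠ j → Nat.Coprime (e i.rev) (e j.rev) := fun i j hij =>
            (Nat.coprime_primes (hmem _).1 (hmem _).1).2
              fun h => hij (Fin.rev_injective (e.injective h))
          rw [Fin.prod_univ_three]
          exact Nat.Coprime.mul_dvd_of_dvd_of_dvd
            (Nat.Coprime.mul_left (hne 0 2 (by decide)) (hne 1 2 (by decide)))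
            (Nat.Coprime.mul_dvd_of_dvd_of_dvd (hne 0 1 (by decide)) (hmem _).2.1 (hmem _).2.1)
            (hmem _).2.1
        refine (dvd_of_eq ?_).trans ((Nat.totient_dvd_of_dvd hdiv).trans (dvd_of_eq (hbtot u huU)))
        have hne : ∀ i j : Fin 3, i ≠ j → Nat.Coprime (e i.rev) (e j.rev) := fun i j hij =>
          (Nat.coprime_primes (hmem _).1 (hmem _).1).2
            fun h => hij (Fin.rev_injective (e.injective h))
        rw [Fin.prod_univ_three, Fin.prod_univ_three, Nat.totient_mul (Nat.Coprime.mul_left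
          (hne 0 2 (by decide)) (hne 1 2 (by decide))), Nat.totient_mul (hne 0 1 (by decide)),
          Nat.totient_prime (hmem _).1, Nat.totient_prime (hmem _).1, Nat.totient_prime (hmem _).1]
      · have hc : ∀ i : Fin 3, (17 : ℝ) * n / 20 ≤ cell (e i.rev) := fun i => by
          have h1 : m + 1 ≤ cell (e i.rev) := (hmem i.rev).2.2
          have h2 : (17 : ℝ) * n ≤ 20 * (m + 1 : ℕ) := by exact_mod_cast hm20'.le
          have h3 : ((m + 1 : ℕ) : ℝ) ≤ cell (e i.rev) := by exact_mod_cast h1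
          linarith
        have ha1 := aC_nonneg (le_refl 1)
        have ha2 := aC_nonneg (show 1 ≤ 2 by norm_num)
        have hsum : (1.29 : ℝ) ≤ aC 1 + aC 2 := by
          have := Real.log_three_gt_d9
          simp only [aC]; norm_num
          linarith
        simp only [tailC, Fin.sum_univ_three]
        norm_num
        have e1 := mul_le_mul_of_nonneg_left (hc 1) ha1
        have e2 := mul_le_mul_of_nonneg_left (hc 2) ha2
        have e3 := mul_le_mul_of_nonneg_right hsum (show (0 : ℝ) ≤ 17 * n / 20 by positivity)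
        nlinarith
    · -- the error is at most `n / 20`
      set r := (n : ℝ) ^ (1 / 4 : ℝ) with hr
      have hr0 : 0 ≤ r := by positivity
      have hr4 : r ^ 4 = n := by
        rw [hr, ← Real.rpow_natCast, ← Real.rpow_mul (Nat.cast_nonneg n)]; norm_num
      have hT : T0 n = r ^ 3 := by
        rw [T0, hr, ← Real.rpow_natCast, ← Real.rpow_mul (Nat.cast_nonneg n)]; norm_num
      have hlog : Real.log ((n : ℝ) + 1) ≤ 4 * r := by
        rw [← hr4]
        have h1 : r ^ 4 + 1 ≤ (r + 1) ^ 4 := by nlinarith [pow_nonneg hr0 2, pow_nonneg hr0 3]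
        refine (Real.log_le_log (by positivity) h1).trans ?_
        rw [Real.log_pow]
        push_cast
        linarith [Real.log_le_sub_one_of_pos (show (0 : ℝ) < r + 1 by linarith)]
      have hl3 : 0 ≤ Real.log 3 := Real.log_nonneg (by norm_num)
      set K := 20 * (6 * Real.log 3 + 12 + 16 * P + 6 * Real.log 3) + 1 with hK
      have hK1 : 1 ≤ K := by rw [hK]; linarith
      have hrK : K ≤ r := by
        have h1 : K ^ 4 ≤ (n : ℝ) := le_trans (Nat.le_ceil _)
          (by exact_mod_cast (by omega : ⌈K ^ 4⌉₊ ≤ n))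
        rw [← hr4] at h1
        exact le_of_pow_le_pow_left₀ (by norm_num) hr0 h1
      have hr1 : 1 ≤ r := hK1.trans hrK
      rw [perr, hT]
      push_cast
      have h4 : r ≤ r ^ 3 := le_self_pow₀ hr1 (by norm_num)
      have h5 : 1 ≤ r ^ 3 := one_le_pow₀ hr1
      have h6 : K * r ^ 3 ≤ r * r ^ 3 := mul_le_mul_of_nonneg_right hrK (by linarith)
      have h7 := mul_le_mul_of_nonneg_left h5 hl3
      have h8 := mul_le_mul_of_nonneg_left h5 hP0
      rw [hK] at h6
      nlinarith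
  exact hsplit.trans (by linarith)

/-- The crude bound for the supremum. -/
theorem esup_bound (hE : EulerTarget) (hW : WindowTarget) (hA : AbnormalTarget) :
    ∃ A : ℝ, 0 ≤ A ∧ ∀ n : ℕ, Esup n ≤ Real.exp (A * Real.log ((n : ℝ) + 2) ^ 2) := by
  obtain ⟨n₀, C, hC, hrec⟩ := esup_rec hE hW hA
  obtain ⟨C', hC', heul⟩ := euler_inv hE
  have hl2 : 0 < Real.log 2 := Real.log_pos (by norm_num)
  set A := max (10 * (3 + 2 * Real.log (C + 3))) (((n₀ : ℝ) + 4 + C') / Real.log 2 ^ 2) with hAdef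
  have hA2 : (n₀ : ℝ) + 4 + C' ≤ A * Real.log 2 ^ 2 :=
    (div_le_iff₀ (by positivity)).1 (le_max_right _ _)
  have hA1 : 10 * (3 + 2 * Real.log (C + 3)) ≤ A := le_max_left _ _
  have hA0 : 0 ≤ A := le_trans (by positivity) (le_max_right _ _)
  refine ⟨A, hA0, fun n => ?_⟩
  induction n using Nat.strong_induction_on with
  | _ n ih =>
    rcases lt_or_ge n (n₀ + 4) with h | h
    · refine esup_le n fun U hU => (heul n U fun u hu => ⟨(hU u hu).one_le, (hU u hu).smooth⟩).trans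
        (Real.exp_le_exp.2 ?_)
      have h1 : Real.log 2 ≤ Real.log ((n : ℝ) + 2) :=
        Real.log_le_log (by norm_num) (by linarith [Nat.cast_nonneg (α := ℝ) n])
      have h2 := mul_le_mul_of_nonneg_left (pow_le_pow_left₀ hl2.le h1 2) hA0
      have h3 : (n : ℝ) ≤ n₀ + 4 := by exact_mod_cast h.le
      linarith
    · set m := 17 * n / 20 with hm
      have hn4 : (4 : ℝ) ≤ n := by exact_mod_cast (by omega : 4 ≤ n)
      have hm17 : 20 * (m : ℝ) ≤ 17 * n := by exact_mod_cast (by omega : 20 * m ≤ 17 * n)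
      set a := Real.log ((n : ℝ) + 2) with ha
      set b := Real.log ((m : ℝ) + 2) with hb
      have hb0 : 0 ≤ b := Real.log_nonneg (by linarith [Nat.cast_nonneg (α := ℝ) m])
      have ha1 : 1 ≤ a := by
        rw [ha, Real.le_log_iff_exp_le (by linarith)]
        have := Real.exp_one_lt_d9
        linarith
      have hba : b ≤ a - 1 / 10 := by
        have h1 : b ≤ Real.log ((9 / 10 : ℝ) * ((n : ℝ) + 2)) :=
          Real.log_le_log (by positivity) (by linarith)
        rw [Real.log_mul (by norm_num) (by linarith)] at h1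
        have := Real.log_le_sub_one_of_pos (show (0 : ℝ) < 9 / 10 by norm_num)
        linarith
      have hpoly : 2 * ((n : ℝ) + C + 2) ^ 2 ≤ Real.exp (A * (a ^ 2 - b ^ 2)) := by
        rw [← Real.log_le_iff_le_exp (by positivity), Real.log_mul (by norm_num) (by positivity),
          Real.log_pow]
        have h1 : Real.log ((n : ℝ) + C + 2) ≤ a + Real.log (C + 3) := by
          rw [ha, ← Real.log_mul (by linarith) (by linarith)]
          exact Real.log_le_log (by linarith) (by nlinarith)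
        have h2 : 0 ≤ Real.log (C + 3) := Real.log_nonneg (by linarith)
        have h3 : a / 10 ≤ a ^ 2 - b ^ 2 := by nlinarith
        have h4 := mul_le_mul_of_nonneg_left h3 hA0
        have h5 := mul_le_mul_of_nonneg_right hA1 (show 0 ≤ a / 10 by linarith)
        have := Real.log_two_lt_d9
        push_cast
        nlinarith
      calc Esup n ≤ 2 * ((n : ℝ) + C + 2) ^ 2 * Esup m := hrec n (by omega)
        _ ≤ Real.exp (A * (a ^ 2 - b ^ 2)) * Real.exp (A * b ^ 2) :=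
            mul_le_mul hpoly (ih m (by omega)) (zero_le_one.trans (one_le_esup hE m))
              (Real.exp_pos _).le
        _ = Real.exp (A * a ^ 2) := by rw [← Real.exp_add]; ring_nf

theorem _root_.Vale.Agent.P031.crude (hE : EulerTarget) (hW : WindowTarget) (hA : AbnormalTarget) : CrudeTarget := by
  obtain ⟨A, hA0, h⟩ := esup_bound hE hW hA
  refine ⟨4 * A, fun z U hz hU => ?_⟩
  have hgood : ∀ u ∈ U, Good ⌈z⌉₊ u := fun u hu => by
    obtain ⟨b, hb, hs, htot⟩ := hU u hu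
    exact ⟨b, hb, fun s h1 h2 => Nat.ceil_mono (hs s h1 h2), htot⟩
  refine (le_esup hE hgood).trans ((h _).trans (Real.exp_le_exp.2 ?_))
  have h1 : (⌈z⌉₊ : ℝ) < z + 1 := Nat.ceil_lt_add_one (by linarith)
  have h2 : Real.log ((⌈z⌉₊ : ℝ) + 2) ≤ 2 * Real.log (z + 2) := by
    refine (Real.log_le_log (by positivity) (show _ ≤ (z + 2) ^ 2 by nlinarith)).trans ?_
    rw [Real.log_pow]
    norm_num
  have h3 := pow_le_pow_left₀ (Real.log_nonneg (by linarith [Nat.cast_nonneg (α := ℝ) ⌈z⌉₊])) h2 2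
  nlinarith [mul_le_mul_of_nonneg_left h3 hA0]

theorem _root_.Vale.Agent.P031.manyFactors (hE : EulerTarget) : ManyFactorsTarget := by
  obtain ⟨C, hC, hEu⟩ := hE
  refine ⟨2 + 7 * C, fun z B U hz hU => ?_⟩
  have hw : ∀ u : ℕ, wt (fun _ => (3 / 2 : ℝ)) u
      = (3 / 2 : ℝ) ^ ArithmeticFunction.cardFactors u := fun u => by
    simp [wt, List.map_const', List.prod_replicate, ArithmeticFunction.cardFactors_apply]
  have h := hEu ⌈z⌉₊ (fun _ => (3 / 2 : ℝ)) (3 / 2) 0 U (fun _ => by norm_num) (fun _ _ => le_rfl)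
    (by simp)
    (fun s hs _ => by have : (2 : ℝ) ≤ s := by exact_mod_cast hs.two_le
                      linarith)
    fun u hu => ⟨(hU u hu).1, fun s hs hd => Nat.ceil_mono ((hU u hu).2.1 s hs hd)⟩
  have hpt : ∀ u ∈ U, (u : ℝ)⁻¹
      ≤ Real.exp (-(B / 4)) * (wt (fun _ => (3 / 2 : ℝ)) u / u) := by
    intro u hu
    obtain ⟨-, -, hB⟩ := hU u hu
    rw [← mul_div_assoc, inv_eq_one_div]
    gcongr
    rw [hw, ← Real.exp_log (show (0 : ℝ) < 3 / 2 by norm_num), ← Real.exp_nat_mul, ← Real.exp_add]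
    apply Real.one_le_exp
    have h1 := Real.one_sub_inv_le_log_of_pos (show (0 : ℝ) < 3 / 2 by norm_num)
    have h2 := mul_le_mul_of_nonneg_left h1
      (Nat.cast_nonneg (α := ℝ) (ArithmeticFunction.cardFactors u))
    norm_num at h2
    linarith [Nat.cast_nonneg (α := ℝ) (ArithmeticFunction.cardFactors u)]
  refine (sum_le_sum hpt).trans ?_
  rw [← mul_sum]
  refine (mul_le_mul_of_nonneg_left h (Real.exp_pos _).le).trans ?_
  rw [← Real.exp_add, sum_const, Nat.card_Icc, nsmul_eq_mul]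
  apply Real.exp_le_exp.2
  have h1 : (⌈z⌉₊ : ℝ) < z + 1 := Nat.ceil_lt_add_one (by linarith)
  simp only [add_tsub_cancel_right]
  linarith

/-- The shift by `j`. -/
def shiftEmb {k : ℕ} (j N : ℕ) (h : j + N ≤ k) : Fin N ↪ Fin k :=
  ⟨fun i => ⟨j + i.val, by omega⟩, fun a b hab => by
    simp only [Fin.mk.injEq] at hab
    exact Fin.ext (by omega)⟩

theorem map_shift {k j : ℕ} (h : j ≤ k) :
    (univ : Finset (Fin (k - j))).map (shiftEmb j (k - j) (by omega))
      = univ.filter fun i : Fin k => ¬i.val < j := by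
  ext i
  simp only [mem_map, mem_univ, true_and, mem_filter, not_lt]
  constructor
  · rintro ⟨a, rfl⟩; exact Nat.le_add_right j a.val
  · intro hi; exact ⟨⟨i.val - j, by omega⟩, Fin.ext (show j + (i.val - j) = i.val by omega)⟩

theorem totient_prod {ι : Type*} (s : Finset ι) (p : ι → ℕ) (hp : ∀ i ∈ s, (p i).Prime)
    (hinj : ∀ i ∈ s, ∀ j ∈ s, p i = p j → i = j) :
    (∏ i ∈ s, p i).totient = ∏ i ∈ s, (p i - 1) := by
  classical
  induction s using Finset.induction_on with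
  | empty => simp
  | insert a s ha ih =>
    rw [prod_insert ha, prod_insert ha, Nat.totient_mul, Nat.totient_prime (hp a (by simp)),
      ih (fun i hi => hp i (by simp [hi])) fun i hi j hj h => hinj i (by simp [hi]) j (by simp [hj]) h]
    exact Nat.Coprime.prod_right fun i hi => (Nat.coprime_primes (hp a (by simp))
      (hp i (by simp [hi]))).2 fun h => ha (hinj a (by simp) i (by simp [hi]) h ▸ hi)

theorem good_prod {ι : Type*} {n : ℕ} (s : Finset ι) (p : ι → ℕ) (hp : ∀ i ∈ s, (p i).Prime)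
    (hinj : ∀ i ∈ s, ∀ j ∈ s, p i = p j → i = j) (hn : ∀ i ∈ s, cell (p i) ≤ n) :
    Good n (∏ i ∈ s, (p i - 1)) := by
  refine ⟨∏ i ∈ s, p i, Finset.one_le_prod' fun i hi => (hp i hi).one_le, fun t ht hd => ?_,
    totient_prod s p hp hinj⟩
  obtain ⟨i, hi, hdi⟩ := (Prime.dvd_finsetProd_iff ht.prime p).1 hd
  rw [(Nat.prime_dvd_prime_iff_eq ht (hp i hi)).1 hdi]
  exact hn i hi

/-- Splitting a set of values into a crude part and a part with small reciprocal sum. -/
theorem split_bound (hE : EulerTarget) {ι : Type*} {U : Finset ℕ} {n : ℕ} (I : Finset ι)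
    (P : ι → ℕ → Prop) {β : ℝ} (hβ : ∀ i ∈ I, ∀ V : Finset ℕ, (∀ v ∈ V, P i v) →
      ∑ v ∈ V, (v : ℝ)⁻¹ ≤ β)
    (h : ∀ u ∈ U, ∃ i ∈ I, ∃ a b : ℕ, Good n a ∧ P i b ∧ u = a * b) :
    ∑ u ∈ U, (u : ℝ)⁻¹ ≤ I.card * (Esup n * β) := by
  classical
  rcases U.eq_empty_or_nonempty with rfl | ⟨u₀, hu₀⟩
  · rcases I.eq_empty_or_nonempty with rfl | ⟨i, hi⟩
    · simp
    · have h1 : (0 : ℝ) ≤ β := by simpa using hβ i hi ∅ (by simp)
      have := one_le_esup hE n
      simp only [sum_empty]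
      positivity
  have : Nonempty ι := by obtain ⟨i, _⟩ := h u₀ hu₀; exact ⟨i⟩
  choose! f hf a b ha hb hab using h
  rw [← sum_fiberwise_of_maps_to hf, ← nsmul_eq_mul]
  refine sum_le_card_nsmul _ _ _ fun i hi => ?_
  refine (sum_inv_le_mul (A := (U.filter fun u => f u = i).image a)
    (B := (U.filter fun u => f u = i).image b) fun u hu => ⟨a u, mem_image_of_mem _ hu, b u,
      mem_image_of_mem _ hu, hab u (mem_filter.1 hu).1⟩).trans ?_
  refine mul_le_mul (le_esup hE fun x hx => ?_) (hβ i hi _ fun x hx => ?_)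
    (sum_nonneg fun _ _ => by positivity) (zero_le_one.trans (one_le_esup hE n))
  · obtain ⟨u, hu, rfl⟩ := mem_image.1 hx
    exact ha u (mem_filter.1 hu).1
  · obtain ⟨u, hu, rfl⟩ := mem_image.1 hx
    rw [mem_filter] at hu
    exact hu.2 ▸ hb u hu.1

theorem Lg_tendsto : Filter.Tendsto Lg Filter.atTop Filter.atTop := Real.tendsto_log_atTop

theorem _root_.Vale.Agent.P031.longTuple (hE : EulerTarget) (hW : WindowTarget) (hA : AbnormalTarget) :
    LongTupleTarget := by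
  obtain ⟨A, hA0, hEsup⟩ := esup_bound hE hW hA
  obtain ⟨P, hP0, hprof⟩ := profile_sum hE
  filter_upwards [Lg_tendsto.eventually_ge_atTop (50 + 4 * A + (200 + 81 * P) ^ 4),
    Filter.eventually_ge_atTop (5 : ℝ)] with l hL hl
  intro U hU
  set L := Lg l with hLdef
  have hPp : (0 : ℝ) ≤ (200 + 81 * P) ^ 4 := by positivity
  have hL50 : 50 ≤ L := by linarith
  have hlL : l = Real.exp L := (Real.exp_log (by linarith)).symm
  set E := ⌈l + 2⌉₊ with hEdef
  have hE3 : (E : ℝ) < l + 3 := by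
    have := Nat.ceil_lt_add_one (show (0 : ℝ) ≤ l + 2 by linarith); linarith
  have hZ : (200 + 81 * P) ^ 4 + 1 ≤ Zp l := by
    have : L ^ 2 ≤ Zp l := pow_le_pow_right₀ (by linarith) (by norm_num)
    nlinarith
  have hZ80 : L ^ 7 ≤ Zp l := pow_le_pow_right₀ (by linarith) (by norm_num)
  have key : ∀ u ∈ U, ∃ e ∈ (range (E + 1)).filter (fun e : ℕ => Zp l ≤ (e : ℝ)), ∃ a b : ℕ,
      Good E a ∧ (Good e b ∧ ∃ q : Fin 8 → ℕ, Antitone (fun i => cell (q i)) ∧
        (∀ i, Normal (q i) ∧ 3 ≤ cell (q i) ∧ cell (q i) ≤ e) ∧ (∏ i, (q i - 1)) ∣ b ∧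
        (e : ℝ) + (3 * (e : ℝ) - 4) ≤ tailC (fun i => cell (q i))) ∧ u = a * b := by
    intro u hu
    obtain ⟨k, hk, p, hanti, hp, rfl⟩ := hU u hu
    have hpr : ∀ i, (p i).Prime := fun i => (hp i).1.1
    obtain ⟨i, hi, hhalf⟩ : ∃ i : ℕ, ∃ h : i + 7 < k,
        X (p ⟨i, by omega⟩) ≤ 2 * X (p ⟨i + 7, h⟩) := by
      by_contra hcon
      simp only [not_exists, not_le] at hcon
      have hchain : ∀ m : ℕ, ∀ h : 7 * m < k,
          2 ^ m * X (p ⟨7 * m, h⟩) ≤ X (p ⟨0, by omega⟩) := by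
        intro m
        induction m with
        | zero => intro h; simp
        | succ m ih =>
          intro h
          have h1 := hcon (7 * m) (by omega)
          have h2 := ih (by omega)
          have e : (⟨7 * m + 7, by omega⟩ : Fin k) = ⟨7 * (m + 1), h⟩ := Fin.ext (by ring)
          rw [e] at h1
          have h3 := mul_le_mul_of_nonneg_left h1.le (show (0 : ℝ) ≤ 2 ^ m by positivity)
          calc (2 : ℝ) ^ (m + 1) * X (p ⟨7 * (m + 1), h⟩)
              = 2 ^ m * (2 * X (p ⟨7 * (m + 1), h⟩)) := by ring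
            _ ≤ 2 ^ m * X (p ⟨7 * m, by omega⟩) := h3
            _ ≤ _ := h2
      have hm : 7 * (Kp l / 7) < k := by omega
      have h1 := hchain _ hm
      have h2 := (hp ⟨7 * (Kp l / 7), hm⟩).2.1
      have h3 := (hp ⟨0, by omega⟩).2.2
      have hKm : L ^ 2 / 7 - 2 ≤ ((Kp l / 7 : ℕ) : ℝ) := by
        have e1 : L ^ 2 < (Kp l : ℝ) + 1 := Nat.lt_floor_add_one _
        have e2 : (Kp l : ℝ) ≤ 7 * ((Kp l / 7 : ℕ) : ℝ) + 6 := by
          exact_mod_cast (by omega : Kp l ≤ 7 * (Kp l / 7) + 6)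
        linarith
      have hbig : l + 2 < (2 : ℝ) ^ (Kp l / 7) := by
        conv_rhs => rw [← Real.exp_log (show (0 : ℝ) < 2 by norm_num), ← Real.exp_nat_mul]
        have := Real.log_two_gt_d9
        have e1 : L + 1 ≤ ((Kp l / 7 : ℕ) : ℝ) * Real.log 2 := by nlinarith
        refine lt_of_lt_of_le ?_ (Real.exp_le_exp.2 e1)
        rw [Real.exp_add, ← hlL]
        have := Real.exp_one_gt_d9
        nlinarith
      have hZ1 : 1 ≤ Zp l := by linarith
      have h4 : (2 : ℝ) ^ (Kp l / 7) * 1 ≤ 2 ^ (Kp l / 7) * X (p ⟨7 * (Kp l / 7), hm⟩) :=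
        mul_le_mul_of_nonneg_left (by linarith) (by positivity)
      linarith
    set i₀ : Fin k := ⟨i, by omega⟩ with hi₀
    set q : Fin 8 → ℕ := fun j => p ⟨i + j.val, by omega⟩ with hq
    have hqa : StrictAnti q := fun a b hab => hanti (Fin.mk_lt_mk.2 (by
      have : a.val < b.val := hab; omega))
    refine ⟨cell (p i₀), mem_filter.2 ⟨mem_range.2 (Nat.lt_succ_of_le (Nat.ceil_mono (hp i₀).2.2)),
      (hp i₀).2.1.le.trans (X_le_cell _)⟩, ∏ j ∈ univ.filter (fun j : Fin k => j.val < i), (p j - 1),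
      ∏ j ∈ univ.filter (fun j : Fin k => ¬j.val < i), (p j - 1),
      good_prod _ _ (fun j _ => hpr j) (fun a _ b _ h => hanti.injective h)
        (fun j _ => Nat.ceil_mono (hp j).2.2),
      ⟨good_prod _ _ (fun j _ => hpr j) (fun a _ b _ h => hanti.injective h) (fun j hj =>
        cell_le_cell (hpr j) (hanti.antitone (Fin.le_def.2 (not_lt.1 (mem_filter.1 hj).2)))),
        q, cell_antitone (fun j => hpr _) hqa, fun j => ⟨(hp _).1, ?_, ?_⟩, ?_, ?_⟩,
      (prod_filter_mul_prod_filter_not _ _ _).symm⟩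
    · have h1 : Zp l < (cell (q j) : ℝ) := (hp _).2.1.trans_le (X_le_cell _)
      have h2 : L ≤ L ^ 7 := le_self_pow₀ (by linarith) (by norm_num)
      exact_mod_cast le_trans (by linarith : (3 : ℝ) ≤ Zp l) h1.le
    · exact cell_le_cell (hpr _) (hanti.antitone (Fin.le_def.2 (Nat.le_add_right i j.val)))
    · have e : ∏ j : Fin 8, (q j - 1)
          = ∏ j ∈ (univ : Finset (Fin 8)).map (shiftEmb i 8 (by omega)), (p j - 1) := by
        rw [prod_map]; rfl
      rw [e]
      refine prod_dvd_prod_of_subset _ _ _ fun j hj => ?_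
      obtain ⟨a, -, rfl⟩ := mem_map.1 hj
      exact mem_filter.2 ⟨mem_univ _, not_lt.2 (Nat.le_add_right i a.val)⟩
    · have hX0 : ∀ j : Fin k, 0 ≤ X (p j) := fun j => by linarith [(hp j).2.1]
      have h0 : ((cell (p i₀) : ℕ) : ℝ) ≤ X (p i₀) + 1 := (cell_lt_add_one (hX0 _)).le
      set x := X (p ⟨i + 7, hi⟩) with hx
      have hsum : (fN 8 + 1) * x ≤ tailC (fun j => cell (q j)) := by
        have e : fN 8 + 1 = ∑ j : Fin 8, if 0 < j.val then aC j.val else 0 := by
          have h := sum_range_aC 8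
          rw [← Fin.sum_univ_eq_sum_range] at h
          rw [← h, Fin.sum_univ_succ, Fin.sum_univ_succ (n := 7)]
          simp [aC]
        rw [e, sum_mul]
        refine sum_le_sum fun j _ => ?_
        split_ifs with hj
        · refine mul_le_mul_of_nonneg_left (le_trans ?_ (X_le_cell _)) (aC_nonneg hj)
          exact X_le_X (hpr _) (hanti.antitone (Fin.le_def.2 (by simp; omega)))
        · simp
      have hf : (8 : ℝ) ≤ fN 8 + 1 := by
        have h8 : Real.log ((8 : ℕ) : ℝ) = 3 * Real.log 2 := by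
          rw [show ((8 : ℕ) : ℝ) = 2 ^ 3 by norm_num, Real.log_pow]; norm_num
        have := Real.log_two_gt_d9
        rw [fN, h8]; push_cast; linarith
      have h8 := mul_le_mul_of_nonneg_right hf (show 0 ≤ x from hX0 _)
      rw [hi₀] at h0 ⊢
      linarith
  refine (split_bound hE _ (P := fun e b => Good e b ∧ ∃ q : Fin 8 → ℕ,
    Antitone (fun i => cell (q i)) ∧
    (∀ i, Normal (q i) ∧ 3 ≤ cell (q i) ∧ cell (q i) ≤ e) ∧ (∏ i, (q i - 1)) ∣ b ∧
    (e : ℝ) + (3 * (e : ℝ) - 4) ≤ tailC (fun i => cell (q i))) (β := Real.exp (-Zp l))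
    (fun e he V hV => ?_) key).trans ?_
  · rw [mem_filter] at he
    refine (hprof 8 e 3 e (3 * (e : ℝ) - 4) V ?_ fun v hv =>
      ⟨(hV v hv).1.one_le, (hV v hv).1.smooth, (hV v hv).2⟩).trans (Real.exp_le_exp.2 ?_)
    · have h2 := Real.exp_one_gt_d9
      have h3 : (10 : ℝ) ≤ Real.exp (3 : ℕ) := by
        rw [show ((3 : ℕ) : ℝ) = 1 + 1 + 1 by norm_num, Real.exp_add, Real.exp_add]
        nlinarith
      refine le_trans ?_ (Real.exp_le_exp.2 h3)
      have h4 : (2.7 : ℝ) ^ (10 : ℕ) ≤ Real.exp 10 := by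
        rw [show (10 : ℝ) = (10 : ℕ) * 1 by norm_num, Real.exp_nat_mul]
        exact pow_le_pow_left₀ (by norm_num) (by linarith) _
      norm_num at h4 ⊢
      linarith
    · set r := (e : ℝ) ^ (1 / 4 : ℝ) with hr
      have hr0 : 0 ≤ r := by positivity
      have hr4 : r ^ 4 = e := by
        rw [hr, ← Real.rpow_natCast, ← Real.rpow_mul (Nat.cast_nonneg e)]; norm_num
      have hT : T0 e = r ^ 3 := by
        rw [T0, hr, ← Real.rpow_natCast, ← Real.rpow_mul (Nat.cast_nonneg e)]; norm_num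
      have hK : 200 + 81 * P ≤ r := by
        refine le_of_pow_le_pow_left₀ (by norm_num : 4 ≠ 0) hr0 ?_
        rw [hr4]
        linarith [he.2]
      have hlog : Real.log ((e : ℝ) + 1) ≤ 4 * r := by
        rw [← hr4]
        have h1 : r ^ 4 + 1 ≤ (r + 1) ^ 4 := by nlinarith [pow_nonneg hr0 2, pow_nonneg hr0 3]
        refine (Real.log_le_log (by positivity) h1).trans ?_
        rw [Real.log_pow]
        push_cast
        linarith [Real.log_le_sub_one_of_pos (show (0 : ℝ) < r + 1 by linarith)]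
      have hl8 : Real.log 8 = 3 * Real.log 2 := by
        rw [show (8 : ℝ) = 2 ^ 3 by norm_num, Real.log_pow]; norm_num
      have := Real.log_two_lt_d9
      have hl0 : 0 ≤ Real.log 2 := Real.log_nonneg (by norm_num)
      have hr1 : 1 ≤ r := by linarith
      rw [perr, hT]
      push_cast
      rw [hl8]
      have h4 : r ≤ r ^ 3 := le_self_pow₀ hr1 (by norm_num)
      have h5 : 1 ≤ r ^ 3 := one_le_pow₀ hr1
      have h6 : (200 + 81 * P) * r ^ 3 ≤ r * r ^ 3 := mul_le_mul_of_nonneg_right hK (by linarith)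
      have h7 := mul_le_mul_of_nonneg_left h5 hP0
      have hee : Zp l ≤ (e : ℝ) := he.2
      nlinarith
  · have hcard : ((((range (E + 1)).filter (fun e : ℕ => Zp l ≤ (e : ℝ))).card : ℕ) : ℝ)
        ≤ Real.exp (L + 1) := by
      have h1 : ((range (E + 1)).filter (fun e : ℕ => Zp l ≤ (e : ℝ))).card ≤ E + 1 :=
        (card_filter_le _ _).trans (card_range _).le
      have h2 : ((((range (E + 1)).filter (fun e : ℕ => Zp l ≤ (e : ℝ))).card : ℕ) : ℝ)
          ≤ (E : ℝ) + 1 := by exact_mod_cast h1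
      rw [Real.exp_add, ← hlL]
      have := Real.exp_one_gt_d9
      nlinarith
    have hEs : Esup E ≤ Real.exp (4 * A * L ^ 2) := by
      refine (hEsup E).trans (Real.exp_le_exp.2 ?_)
      have h1 : Real.log ((E : ℝ) + 2) ≤ 2 * L := by
        refine (Real.log_le_log (by positivity) (show _ ≤ l ^ 2 by nlinarith)).trans ?_
        rw [Real.log_pow, hLdef, Lg]
        norm_num
      have h2 := pow_le_pow_left₀ (Real.log_nonneg (by linarith [Nat.cast_nonneg (α := ℝ) E])) h1 2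
      nlinarith [mul_le_mul_of_nonneg_left h2 hA0]
    refine (mul_le_mul hcard (mul_le_mul_of_nonneg_right hEs (Real.exp_pos _).le)
      (mul_nonneg (zero_le_one.trans (one_le_esup hE E)) (Real.exp_pos _).le)
      (Real.exp_pos _).le).trans ?_
    rw [← Real.exp_add, ← Real.exp_add]
    apply Real.exp_le_exp.2
    have h1 : L ^ 2 ≤ L ^ 5 := pow_le_pow_right₀ (by linarith) (by norm_num)
    have h2 : L ≤ L ^ 5 := le_self_pow₀ (by linarith) (by norm_num)
    have h3 : 4 * A + 50 ≤ L ^ 2 := by nlinarith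
    have h4 := mul_le_mul_of_nonneg_right h3 (show 0 ≤ L ^ 5 by positivity)
    have h5 : (1 : ℝ) ≤ L ^ 5 := one_le_pow₀ (by linarith)
    have h6 : 4 * A * L ^ 2 ≤ 4 * A * L ^ 5 := mul_le_mul_of_nonneg_left h1 (by linarith)
    nlinarith

end

end Vale.Agent.P031.Rankin
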