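import Mathlib.NumberTheory.ArithmeticFunction.Misc
import Mathlib.NumberTheory.PrimeCounting
import Mathlib.Analysis.SpecialFunctions.Pow.Real

/-!
# P031 Q2: definitions for `V (c x) / V x → c`
-/

namespace Vale.Agent.P031

open Finset

noncomputable section

/-- The number of totient values at most `x`. -/
def V (x : ℝ) : ℕ := Set.ncard {v : ℕ | (v : ℝ) ≤ x ∧ ∃ n, 1 ≤ n ∧ n.totient = v}

/-- `log log p`. -/
def X (p : ℕ) : ℝ := Real.log (Real.log p)

/-- The cell of a prime. -/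
def cell (p : ℕ) : ℕ := ⌈X p⌉₊

/-- Prime factors of `n`, with multiplicity, lying in cells at most `t`. -/
def omegaUpTo (t n : ℕ) : ℕ := (n.primeFactorsList.filter fun s => decide (cell s ≤ t)).length

/-- The allowed deviation. -/
def T0 (e : ℕ) : ℝ := (e : ℝ) ^ (3 / 4 : ℝ)

/-- A prime `p` with normally distributed factors of `p - 1`, one of them large. -/
def Normal (p : ℕ) : Prop :=
  p.Prime ∧ (∀ t ≤ cell p, |(omegaUpTo t (p - 1) : ℝ) - t| ≤ T0 (cell p)) ∧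
    ∃ r : ℕ, r.Prime ∧ r ∣ p - 1 ∧ (p : ℝ) ^ (1 / (cell p : ℝ) ^ 2) ≤ r

/-- The coefficients `a i`. -/
def aC (i : ℕ) : ℝ := ((i : ℝ) + 1) * Real.log (i + 1) - i * Real.log i - 1

/-- `N log N - N`. -/
def fN (N : ℕ) : ℝ := (N : ℝ) * Real.log N - N

/-- The linear form `∑ a_{i+1} x_i`. -/
def hvec {k : ℕ} (x : Fin k → ℝ) : ℝ := ∑ i, aC (i.val + 1) * x i

/-- The linear form of the entries after `j`. -/
def tail {k : ℕ} (x : Fin k → ℝ) (j : Fin k) : ℝ :=
  ∑ i, if j < i then aC (i.val - j.val) * x i else 0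

/-- The top condition with bound `Λ`. -/
def Top {k : ℕ} (x : Fin k → ℝ) (Λ : ℝ) : Prop := hvec x ≤ Λ ∧ ∀ i, x i ≤ Λ

/-- The inner conditions with relative slack `θ`. -/
def Inner {k : ℕ} (x : Fin k → ℝ) (θ : ℝ) : Prop := ∀ j, tail x j ≤ (1 + θ) * x j

/-! Parameters, all functions of `l = log log x`. -/

def Lg (l : ℝ) : ℝ := Real.log l
def Kp (l : ℝ) : ℕ := ⌊Lg l ^ 2⌋₊
def eta (l : ℝ) : ℝ := (Lg l ^ 6)⁻¹
def Zp (l : ℝ) : ℝ := Lg l ^ 80
def Bp (l : ℝ) : ℝ := Zp l * Lg l ^ 5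
def del (l : ℝ) : ℝ := l ^ (-(1 / 5 : ℝ))

/-- The primes `p` with `a < log log p ≤ b`. -/
def window (a b : ℝ) : Finset ℕ :=
  (Finset.range (⌊Real.exp (Real.exp b)⌋₊ + 1)).filter fun p => p.Prime ∧ a < X p ∧ X p ≤ b

/-- `m` is an admissible cofactor. -/
def InM (l : ℝ) (m : ℕ) : Prop :=
  ∃ k ≤ Kp l, ∃ p : Fin k → ℕ, StrictAnti p ∧ (∀ i, Normal (p i) ∧ Zp l / 256 < X (p i)) ∧
    Top (fun i => X (p i)) ((1 - del l) * l) ∧
    ∃ b : ℕ, 1 ≤ b ∧ (∀ i, ¬p i ∣ b) ∧ (∀ s : ℕ, s.Prime → s ∣ b → X s ≤ Zp l) ∧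
      (ArithmeticFunction.cardFactors b.totient : ℝ) ≤ Bp l ∧
      m = (∏ i, (p i - 1)) * b.totient

open Classical in
/-- The admissible cofactors, as a finite set. -/
def MF (l : ℝ) : Finset ℕ :=
  (Finset.range (⌊Real.exp (2 * ((Kp l : ℝ) + Bp l + 1) * Real.exp ((1 - del l) * l))⌋₊ + 1)).filter
    (InM l)

/-- The sum of reciprocals of the admissible cofactors. -/
def A (l : ℝ) : ℝ := ∑ m ∈ MF l, (m : ℝ)⁻¹

open Classical in
/-- Relaxed configurations in the band around `l`. -/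
def bandCfg (l : ℝ) (k : ℕ) : Finset (Fin k → ℕ) :=
  (Fintype.piFinset fun _ : Fin k => window (Zp l) ((1 + del l) * l)).filter fun p =>
    StrictAnti p ∧ Inner (fun i => X (p i)) (eta l) ∧ Top (fun i => X (p i)) ((1 + del l) * l) ∧
      ¬Top (fun i => X (p i)) ((1 - del l) * l)

open Classical in
/-- Strict configurations. -/
def strictCfg (l : ℝ) (k : ℕ) : Finset (Fin k → ℕ) :=
  (Fintype.piFinset fun _ : Fin k => window (Zp l / 256) ((1 - eta l) * l)).filter fun p =>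
    StrictAnti p ∧ Inner (fun i => X (p i)) (-eta l) ∧ Top (fun i => X (p i)) ((1 - eta l) * l)

/-- The weight `1 / ∏ (p - 1)` of a configuration. -/
def cfgWt {k : ℕ} (p : Fin k → ℕ) : ℝ := ∏ i, ((p i : ℝ) - 1)⁻¹

/-- The completely multiplicative weight given by a function of the cell. -/
def wt (z : ℕ → ℝ) (n : ℕ) : ℝ := (n.primeFactorsList.map fun s => z (cell s)).prod

end

end Vale.Agent.P031
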