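import Vale.Agent.P031.Targets
import Mathlib.NumberTheory.Chebyshev
import Mathlib.NumberTheory.EulerProduct.Basic
import Mathlib.Data.Nat.Choose.Factorization
import Mathlib.Analysis.SpecialFunctions.Stirling
import Mathlib.Analysis.PSeries
import Mathlib.Analysis.Complex.ExponentialBounds
import Mathlib.Analysis.Real.Pi.Bounds

/-!
# P031 Q2, module Euler: Mertens in windows and weighted Euler products
-/

namespace Vale.Agent.P031

open Finset

noncomputable section

/-- The primes `p` with `log log p ≤ t`, given by their bound. -/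
def lvl (t : ℝ) : ℕ := ⌊Real.exp (Real.exp t)⌋₊

/-- The primes up to `n`. -/
def upTo (n : ℕ) : Finset ℕ := (Finset.range (n + 1)).filter Nat.Prime

lemma mem_upTo {n p : ℕ} : p ∈ upTo n ↔ p.Prime ∧ p ≤ n := by
  simp [upTo, and_comm]

lemma mem_upTo_lvl {t : ℝ} {p : ℕ} : p ∈ upTo (lvl t) ↔ p.Prime ∧ X p ≤ t := by
  rw [mem_upTo]
  refine and_congr_right fun hp => ?_
  have h1 : (1 : ℝ) < p := by exact_mod_cast hp.one_lt
  rw [lvl, Nat.le_floor_iff (Real.exp_pos _).le, X, Real.log_le_iff_le_exp (Real.log_pos h1),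
    Real.log_le_iff_le_exp (by linarith)]

lemma lvl_mono {a b : ℝ} (h : a ≤ b) : lvl a ≤ lvl b :=
  Nat.floor_le_floor (Real.exp_le_exp.2 (Real.exp_le_exp.2 h))

lemma upTo_mono {m n : ℕ} (h : m ≤ n) : upTo m ⊆ upTo n := fun p hp => by
  rw [mem_upTo] at hp ⊢; exact ⟨hp.1, hp.2.trans h⟩

lemma sum_upTo_succ (f : ℕ → ℝ) (n : ℕ) :
    ∑ p ∈ upTo (n + 1), f p = ∑ p ∈ upTo n, f p + if (n + 1).Prime then f (n + 1) else 0 := by
  simp only [upTo, Finset.sum_filter]
  rw [Finset.sum_range_succ]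

/-- The sum of `log p / p`. -/
def LogSum (n : ℕ) : ℝ := ∑ p ∈ upTo n, Real.log p / p

/-- The sum of `1 / p`. -/
def RecSum (n : ℕ) : ℝ := ∑ p ∈ upTo n, (p : ℝ)⁻¹

lemma sum_rpow_le (s : Finset ℕ) :
    ∑ k ∈ s, 1 / (k : ℝ) ^ (3 / 2 : ℝ) ≤ ∑' k : ℕ, 1 / (k : ℝ) ^ (3 / 2 : ℝ) :=
  (Real.summable_one_div_nat_rpow.2 (by norm_num)).sum_le_tsum s
    fun k _ => by positivity

lemma prime_tail_bound {p : ℕ} (hp : p.Prime) :
    (1 : ℝ) / ((p : ℝ) * (p - 1)) ≤ 4 * (1 / (p : ℝ) ^ (3 / 2 : ℝ)) ∧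
      Real.log p / ((p : ℝ) * (p - 1)) ≤ 4 * (1 / (p : ℝ) ^ (3 / 2 : ℝ)) ∧
        (1 : ℝ) / (p : ℝ) ^ 2 ≤ 4 * (1 / (p : ℝ) ^ (3 / 2 : ℝ)) := by
  have h2 : (2 : ℝ) ≤ p := by exact_mod_cast hp.two_le
  have hp0 : (0 : ℝ) < p := by linarith
  have hl := Real.log_le_rpow_div hp0.le (show (0 : ℝ) < 1 / 2 by norm_num)
  have e : (p : ℝ) ^ (3 / 2 : ℝ) * (p : ℝ) ^ (1 / 2 : ℝ) = (p : ℝ) ^ 2 := by
    rw [← Real.rpow_add hp0]; norm_num
  have hr : 1 ≤ (p : ℝ) ^ (1 / 2 : ℝ) := Real.one_le_rpow (by linarith) (by norm_num)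
  have hm : 0 < (p : ℝ) * (p - 1) := by nlinarith
  have hq : 0 < (p : ℝ) ^ (3 / 2 : ℝ) := Real.rpow_pos_of_pos hp0 _
  have hkey : ∀ u : ℝ, u ≤ 2 * (p : ℝ) ^ (1 / 2 : ℝ) →
      u * (p : ℝ) ^ (3 / 2 : ℝ) ≤ 4 * ((p : ℝ) * (p - 1)) := fun u hu => by
    nlinarith [mul_le_mul_of_nonneg_right hu hq.le]
  refine ⟨?_, ?_, ?_⟩
  · rw [mul_one_div, div_le_div_iff₀ hm hq]
    exact hkey 1 (by linarith)
  · rw [mul_one_div, div_le_div_iff₀ hm hq]
    exact hkey _ (by linarith)
  · rw [mul_one_div, div_le_div_iff₀ (by positivity) hq]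
    nlinarith [hkey 1 (by linarith)]

/-- Mertens' first theorem. -/
lemma logSum_bound : ∃ C : ℝ, ∀ n : ℕ, 1 ≤ n → |LogSum n - Real.log n| ≤ C := by
  refine ⟨4 * ∑' k : ℕ, 1 / (k : ℝ) ^ (3 / 2 : ℝ) + 3, fun n hn => ?_⟩
  have hT := sum_rpow_le (upTo n)
  set T := ∑' k : ℕ, 1 / (k : ℝ) ^ (3 / 2 : ℝ)
  have hT0 : 0 ≤ T := tsum_nonneg fun k => by positivity
  have hn0 : (0 : ℝ) < n := by exact_mod_cast hn
  have hfac : Real.log (n.factorial : ℝ) =
      ∑ p ∈ upTo n, (n.factorial.factorization p : ℝ) * Real.log p := by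
    rw [Real.log_nat_eq_sum_factorization]
    refine Finsupp.sum_of_support_subset _ ?_ _ (by simp)
    intro p hp
    rw [Nat.support_factorization, Nat.mem_primeFactors] at hp
    exact mem_upTo.2 ⟨hp.1, (Nat.Prime.dvd_factorial hp.1).1 hp.2.1⟩
  have hlo : (n : ℝ) * LogSum n - Chebyshev.theta n ≤ Real.log (n.factorial : ℝ) := by
    have ht : Chebyshev.theta n = ∑ p ∈ upTo n, Real.log p := by
      rw [Chebyshev.theta_eq_sum_Icc, Nat.floor_natCast]
      refine Finset.sum_congr ?_ fun _ _ => rfl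
      ext p; simp [mem_upTo, and_comm]
    rw [hfac, ht, LogSum, Finset.mul_sum, ← Finset.sum_sub_distrib]
    refine Finset.sum_le_sum fun p hp => ?_
    obtain ⟨hp, -⟩ := mem_upTo.1 hp
    have hv : n / p ≤ n.factorial.factorization p := by
      rw [Nat.factorization_factorial hp (b := Nat.log p n + 2) (by omega)]
      calc n / p = n / p ^ 1 := by rw [pow_one]
        _ ≤ _ := Finset.single_le_sum (f := fun i => n / p ^ i) (fun i _ => Nat.zero_le _)
          (by simp)
    have hp0 : (0 : ℝ) < p := by exact_mod_cast hp.pos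
    have hfl : (n : ℝ) / p - 1 ≤ ((n / p : ℕ) : ℝ) := by
      rw [sub_le_iff_le_add, div_le_iff₀ hp0]
      have := Nat.lt_div_mul_add (a := n) hp.pos
      have h' : (n : ℝ) ≤ ((n / p * p + p : ℕ) : ℝ) := by exact_mod_cast this.le
      push_cast at h'
      linarith
    have hv' : ((n / p : ℕ) : ℝ) ≤ (n.factorial.factorization p : ℝ) := by exact_mod_cast hv
    calc (n : ℝ) * (Real.log p / p) - Real.log p = ((n : ℝ) / p - 1) * Real.log p := by ring
      _ ≤ _ := mul_le_mul_of_nonneg_right (hfl.trans hv') (Real.log_natCast_nonneg p)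
  have hhi : Real.log (n.factorial : ℝ) ≤ (n : ℝ) * (LogSum n + 4 * T) := by
    have h : Real.log (n.factorial : ℝ) ≤
        ∑ p ∈ upTo n, (n : ℝ) * (Real.log p / p + 4 * (1 / (p : ℝ) ^ (3 / 2 : ℝ))) := by
      rw [hfac]
      refine Finset.sum_le_sum fun p hp => ?_
      obtain ⟨hp, -⟩ := mem_upTo.1 hp
      have h2 : (2 : ℝ) ≤ p := by exact_mod_cast hp.two_le
      have hv : (n.factorial.factorization p : ℝ) ≤ (n : ℝ) / (p - 1) := by
        have h1 : (n.factorial.factorization p : ℝ) ≤ ((n / (p - 1) : ℕ) : ℝ) := by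
          exact_mod_cast Nat.factorization_factorial_le_div_pred hp n
        refine h1.trans (Nat.cast_div_le.trans ?_)
        rw [Nat.cast_sub hp.one_le, Nat.cast_one]
      refine (mul_le_mul_of_nonneg_right hv (Real.log_natCast_nonneg p)).trans ?_
      have e : (n : ℝ) / ((p : ℝ) - 1) * Real.log p =
          (n : ℝ) * (Real.log p / p + Real.log p / ((p : ℝ) * (p - 1))) := by
        have : (p : ℝ) - 1 ≠ 0 := by linarith
        have : (p : ℝ) ≠ 0 := by linarith
        field_simp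
        ring
      rw [e]
      exact mul_le_mul_of_nonneg_left (add_le_add le_rfl (prime_tail_bound hp).2.1) hn0.le
    refine h.trans ?_
    rw [← Finset.mul_sum, Finset.sum_add_distrib, ← Finset.mul_sum, LogSum]
    exact mul_le_mul_of_nonneg_left (by linarith) hn0.le
  have hup : Real.log (n.factorial : ℝ) ≤ (n : ℝ) * Real.log n := by
    rw [← Real.log_pow]
    exact Real.log_le_log (by exact_mod_cast n.factorial_pos)
      (by exact_mod_cast Nat.factorial_le_pow n)
  have hst := Stirling.le_log_factorial_stirling (n := n) (by omega)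
  have hth := Chebyshev.theta_le_log4_mul_x hn0.le
  have h4 : Real.log 4 ≤ 2 := by
    rw [show (4 : ℝ) = 2 ^ 2 by norm_num, Real.log_pow]
    have := Real.log_two_lt_d9
    push_cast; linarith
  have hlpi : 0 ≤ Real.log (2 * Real.pi) := Real.log_nonneg (by linarith [Real.pi_gt_three])
  have hl : 0 ≤ Real.log n := Real.log_natCast_nonneg n
  have h4' : Real.log 4 * (n : ℝ) ≤ 2 * n := mul_le_mul_of_nonneg_right h4 hn0.le
  have k1 : (n : ℝ) * (LogSum n - Real.log n - 2) ≤ 0 := by linarith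
  have k2 : 0 ≤ (n : ℝ) * (LogSum n - Real.log n + 4 * T + 1) := by linarith
  rw [abs_le]
  constructor
  · nlinarith
  · nlinarith

/-- Mertens' second theorem, with a bounded error. -/
lemma recSum_bound : ∃ C : ℝ, ∀ n : ℕ, 2 ≤ n → |RecSum n - Real.log (Real.log n)| ≤ C := by
  obtain ⟨C, hC⟩ := logSum_bound
  have hC0 : 0 ≤ C := (abs_nonneg _).trans (hC 1 le_rfl)
  have hl2 : 0 < Real.log 2 := Real.log_pos one_lt_two
  let H : ℕ → ℝ := fun n => RecSum n - LogSum n / Real.log n - Real.log (Real.log n)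
  have key : ∀ n : ℕ, 2 ≤ n → |H n - H 2| ≤ (1 + C) * (1 / Real.log 2 - 1 / Real.log n) := by
    intro n hn
    induction n, hn using Nat.le_induction with
    | base => simp
    | succ n hn ih =>
      have hn1 : (1 : ℝ) < n := by exact_mod_cast hn
      set u := Real.log n with hu
      set v := Real.log ((n + 1 : ℕ) : ℝ) with hv
      have hu0 : 0 < u := Real.log_pos hn1
      have huv : u ≤ v := Real.log_le_log (by linarith) (by push_cast; linarith)
      have hv0 : 0 < v := by linarith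
      have hd : v - u ≤ 1 := by
        rw [hv, hu, ← Real.log_div (by positivity) (by linarith)]
        refine (Real.log_le_sub_one_of_pos (by positivity)).trans ?_
        rw [sub_le_iff_le_add, div_le_iff₀ (by linarith)]
        push_cast; linarith
      set a := if (n + 1).Prime then Real.log ((n + 1 : ℕ) : ℝ) / ((n + 1 : ℕ) : ℝ) else 0 with ha
      have e1 : LogSum (n + 1) = LogSum n + a := by
        rw [LogSum, sum_upTo_succ]; rfl
      have e2 : RecSum (n + 1) = RecSum n + a / v := by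
        rw [RecSum, sum_upTo_succ, RecSum, ha]
        congr 1
        split_ifs with h
        · rw [← hv]; field_simp
        · simp
      have e3 : H (n + 1) - H n = LogSum n * (1 / u - 1 / v) - (Real.log v - Real.log u) := by
        simp only [H, e1, e2, ← hu, ← hv]
        ring
      have h1 : Real.log v - Real.log u ≤ (v - u) / u := by
        rw [← Real.log_div hv0.ne' hu0.ne', sub_div, div_self hu0.ne']
        exact Real.log_le_sub_one_of_pos (by positivity)
      have h2 : (v - u) / v ≤ Real.log v - Real.log u := by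
        rw [← Real.log_div hv0.ne' hu0.ne', sub_div, div_self hv0.ne']
        have := Real.one_sub_inv_le_log_of_pos (show 0 < v / u by positivity)
        rwa [inv_div] at this
      have hg : 0 ≤ 1 / u - 1 / v := sub_nonneg.2 (one_div_le_one_div_of_le hu0 huv)
      have h3 : (v - u) / u - (v - u) / v ≤ 1 / u - 1 / v := by
        have : (v - u) / u - (v - u) / v = (v - u) * (1 / u - 1 / v) := by ring
        rw [this]; exact mul_le_of_le_one_left hg hd
      have h4 : u * (1 / u - 1 / v) = (v - u) / v := by field_simp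
      have hR := abs_le.1 (hC n (by omega))
      rw [← hu] at hR
      have h5 := mul_le_mul_of_nonneg_right hR.1 hg
      have h6 := mul_le_mul_of_nonneg_right hR.2 hg
      have hstep : |H (n + 1) - H n| ≤ (1 + C) * (1 / u - 1 / v) := by
        rw [e3, abs_le]
        constructor <;> nlinarith
      calc |H (n + 1) - H 2| ≤ |H (n + 1) - H n| + |H n - H 2| := abs_sub_le _ _ _
        _ ≤ _ := by linarith
  refine ⟨|H 2| + (1 + C) / Real.log 2 + (1 + C / Real.log 2), fun n hn => ?_⟩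
  have hn1 : (1 : ℝ) < n := by exact_mod_cast hn
  have hl : 0 < Real.log n := Real.log_pos hn1
  have hl' : Real.log 2 ≤ Real.log n := Real.log_le_log two_pos (by exact_mod_cast hn)
  have h1 : |LogSum n / Real.log n| ≤ 1 + C / Real.log 2 := by
    have := hC n (by omega)
    rw [abs_div, abs_of_pos hl, div_le_iff₀ hl]
    have h' : |LogSum n| ≤ Real.log n + C := by
      have := abs_sub_abs_le_abs_sub (LogSum n) (Real.log n)
      rw [abs_of_pos hl] at this; linarith
    have h'' : C ≤ C / Real.log 2 * Real.log n := by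
      rw [div_mul_eq_mul_div, le_div_iff₀ hl2]; exact mul_le_mul_of_nonneg_left hl' hC0
    nlinarith
  have h2 := key n hn
  have h3 : (1 + C) * (1 / Real.log 2 - 1 / Real.log n) ≤ (1 + C) / Real.log 2 := by
    have : 0 ≤ (1 + C) * (1 / Real.log n) := by positivity
    have e : (1 + C) / Real.log 2 = (1 + C) * (1 / Real.log 2) := by ring
    linarith
  have e : RecSum n - Real.log (Real.log n) = (H n - H 2) + H 2 + LogSum n / Real.log n := by
    simp only [H]; ring
  rw [e]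
  exact (abs_add_three _ _ _).trans (by linarith)

lemma log_log_lvl {t : ℝ} (ht : 0 ≤ t) : 2 ≤ lvl t ∧ |Real.log (Real.log (lvl t)) - t| ≤ 2 := by
  set E := Real.exp t with hE
  have hE1 : 1 ≤ E := Real.one_le_exp ht
  have hy : (2 : ℝ) ≤ Real.exp E := by linarith [Real.add_one_le_exp E]
  have hn : 2 ≤ lvl t := Nat.le_floor (by exact_mod_cast hy)
  refine ⟨hn, ?_⟩
  have hn' : (2 : ℝ) ≤ (lvl t : ℝ) := by exact_mod_cast hn
  have hup : (lvl t : ℝ) ≤ Real.exp E := Nat.floor_le (Real.exp_pos _).le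
  have hlo : Real.exp E < (lvl t : ℝ) + 1 := Nat.lt_floor_add_one _
  have h1 : Real.log (lvl t) ≤ E := (Real.log_le_iff_le_exp (by linarith)).2 hup
  have h2 : E ≤ Real.log (lvl t) + Real.log 2 := by
    rw [← Real.log_mul (by linarith) two_ne_zero, Real.le_log_iff_exp_le (by linarith)]
    linarith
  have h3 : Real.log 2 < 3 / 4 := by have := Real.log_two_lt_d9; linarith
  have h4 : E / 4 ≤ Real.log (lvl t) := by linarith
  have h5 : Real.log (Real.log (lvl t)) ≤ t := by
    have := Real.log_le_log (by linarith) h1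
    rwa [hE, Real.log_exp] at this
  have h6 : t - Real.log 4 ≤ Real.log (Real.log (lvl t)) := by
    have := Real.log_le_log (by linarith) h4
    rwa [Real.log_div (by linarith) (by norm_num), hE, Real.log_exp] at this
  have h7 : Real.log 4 ≤ 2 := by
    rw [show (4 : ℝ) = 2 ^ 2 by norm_num, Real.log_pow]
    push_cast; linarith
  rw [abs_le]
  constructor <;> linarith

lemma recSum_lvl : ∃ C : ℝ, 0 ≤ C ∧ ∀ t : ℝ, 0 ≤ t → |RecSum (lvl t) - t| ≤ C := by
  obtain ⟨C, hC⟩ := recSum_bound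
  refine ⟨C + 2, by linarith [(abs_nonneg _).trans (hC 2 le_rfl)], fun t ht => ?_⟩
  obtain ⟨hn, h⟩ := log_log_lvl ht
  exact (abs_sub_le _ (Real.log (Real.log (lvl t))) _).trans (add_le_add (hC _ hn) h)

theorem window_of : WindowTarget := by
  obtain ⟨C, -, hC⟩ := recSum_lvl
  refine ⟨2 * C + 4 * ∑' k : ℕ, 1 / (k : ℝ) ^ (3 / 2 : ℝ), fun a b ha hab => ?_⟩
  set T := ∑' k : ℕ, 1 / (k : ℝ) ^ (3 / 2 : ℝ)
  have hw : window a b = upTo (lvl b) \ upTo (lvl a) := by
    ext p
    simp only [window, Finset.mem_sdiff, mem_upTo_lvl, Finset.mem_filter, Finset.mem_range]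
    constructor
    · rintro ⟨-, hp, h1, h2⟩
      exact ⟨⟨hp, h2⟩, fun h => absurd h.2 (not_le.2 h1)⟩
    · rintro ⟨⟨hp, h2⟩, h⟩
      have := (mem_upTo_lvl.2 ⟨hp, h2⟩ : p ∈ upTo (lvl b))
      rw [mem_upTo, lvl] at this
      exact ⟨by omega, hp, not_le.1 fun h1 => h ⟨hp, h1⟩, h2⟩
  have hsub := upTo_mono (lvl_mono hab)
  have e1 : ∑ p ∈ window a b, (p : ℝ)⁻¹ = RecSum (lvl b) - RecSum (lvl a) := by
    rw [hw, Finset.sum_sdiff_eq_sub hsub]; rfl
  have hd : ∀ p ∈ window a b, |((p : ℝ) - 1)⁻¹ - (p : ℝ)⁻¹| ≤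
      4 * (1 / (p : ℝ) ^ (3 / 2 : ℝ)) := by
    intro p hp
    have hp' : p.Prime := (Finset.mem_filter.1 hp).2.1
    have h2 : (2 : ℝ) ≤ p := by exact_mod_cast hp'.two_le
    have e : ((p : ℝ) - 1)⁻¹ - (p : ℝ)⁻¹ = 1 / ((p : ℝ) * (p - 1)) := by
      have : (p : ℝ) - 1 ≠ 0 := by linarith
      have : (p : ℝ) ≠ 0 := by linarith
      field_simp
      ring
    rw [e, abs_of_nonneg (div_nonneg zero_le_one (by nlinarith))]
    exact (prime_tail_bound hp').1
  have h3 : |∑ p ∈ window a b, ((p : ℝ) - 1)⁻¹ - ∑ p ∈ window a b, (p : ℝ)⁻¹| ≤ 4 * T := by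
    rw [← Finset.sum_sub_distrib]
    refine (Finset.abs_sum_le_sum_abs _ _).trans ((Finset.sum_le_sum hd).trans ?_)
    rw [← Finset.mul_sum]
    exact mul_le_mul_of_nonneg_left (sum_rpow_le _) (by norm_num)
  rw [e1] at h3
  have h4 := abs_le.1 (hC b (ha.trans hab))
  have h5 := abs_le.1 (hC a ha)
  have h6 := abs_le.1 h3
  rw [abs_le]
  constructor <;> linarith

/-- A completely multiplicative function given on primes. -/
def mulOf (u : ℕ → ℝ) : ℕ →* ℝ where
  toFun n := if n = 0 then 0 else (n.primeFactorsList.map u).prod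
  map_one' := by simp
  map_mul' m n := by
    by_cases hm : m = 0
    · simp [hm]
    by_cases hn : n = 0
    · simp [hn]
    simp only [mul_eq_zero, hm, hn, or_self, if_false]
    rw [((Nat.perm_primeFactorsList_mul hm hn).map u).prod_eq, List.map_append, List.prod_append]

lemma mulOf_prime (u : ℕ → ℝ) {p : ℕ} (hp : p.Prime) : mulOf u p = u p := by
  simp [mulOf, Nat.primeFactorsList_prime hp, hp.ne_zero]

lemma mulOf_nonneg {u : ℕ → ℝ} (hu : ∀ s, 0 ≤ u s) (n : ℕ) : 0 ≤ mulOf u n := by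
  simp only [mulOf, MonoidHom.coe_mk, OneHom.coe_mk]
  split_ifs
  · exact le_rfl
  · refine List.prod_nonneg fun x hx => ?_
    obtain ⟨s, -, rfl⟩ := List.mem_map.1 hx
    exact hu s

lemma inv_one_sub_le_exp {u : ℝ} (h0 : 0 ≤ u) (h : u ≤ 3 / 4) :
    (1 - u)⁻¹ ≤ Real.exp (u + 2 * u ^ 2) := by
  have hq := Real.quadratic_le_exp_of_nonneg (show 0 ≤ u + 2 * u ^ 2 by positivity)
  rw [inv_le_iff_one_le_mul₀ (by linarith)]
  refine le_trans ?_ (mul_le_mul_of_nonneg_right hq (by linarith))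
  have h3 : 0 ≤ 3 / 2 - u / 2 - 2 * u ^ 3 := by
    nlinarith [mul_le_mul h h h0 (by norm_num), sq_nonneg u]
  nlinarith [mul_nonneg (sq_nonneg u) h3]

lemma cellSum_eq (z : ℕ → ℝ) (e : ℕ) :
    ∑ s ∈ upTo (lvl e), z (cell s) / s = ∑ c ∈ Finset.Icc 1 e, z c
      + z e * (RecSum (lvl e) - e)
      - ∑ c ∈ Finset.range e, (z (c + 1) - z c) * (RecSum (lvl c) - c) := by
  induction e with
  | zero =>
    simp only [Finset.range_zero, Finset.sum_empty, Nat.cast_zero, sub_zero]
    rw [show Finset.Icc 1 0 = (∅ : Finset ℕ) by simp, Finset.sum_empty, zero_add, RecSum,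
      Finset.mul_sum]
    refine Finset.sum_congr rfl fun s hs => ?_
    have h0 : cell s = 0 := Nat.ceil_eq_zero.2 (mem_upTo_lvl.1 hs).2
    rw [h0, div_eq_mul_inv]
  | succ e ih =>
    have hsub : upTo (lvl (e : ℝ)) ⊆ upTo (lvl ((e + 1 : ℕ) : ℝ)) :=
      upTo_mono (lvl_mono (by push_cast; linarith))
    have hnew : ∑ s ∈ upTo (lvl ((e + 1 : ℕ) : ℝ)) \ upTo (lvl (e : ℝ)), z (cell s) / s =
        z (e + 1) * (RecSum (lvl ((e + 1 : ℕ) : ℝ)) - RecSum (lvl (e : ℝ))) := by
      rw [RecSum, RecSum, ← Finset.sum_sdiff_eq_sub hsub, Finset.mul_sum]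
      refine Finset.sum_congr rfl fun s hs => ?_
      rw [Finset.mem_sdiff, mem_upTo_lvl, mem_upTo_lvl] at hs
      have h2 : (e : ℝ) < X s := not_le.1 fun h => hs.2 ⟨hs.1.1, h⟩
      have hc : cell s = e + 1 :=
        (Nat.ceil_eq_iff (by omega)).2 ⟨by simpa using h2, hs.1.2⟩
      rw [hc, div_eq_mul_inv]
    rw [← Finset.sum_sdiff hsub, hnew, ih, Finset.sum_range_succ,
      Finset.sum_Icc_succ_top (by omega)]
    push_cast
    ring

theorem euler_of : EulerTarget := by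
  obtain ⟨C, hC0, hC⟩ := recSum_lvl
  set T := ∑' k : ℕ, 1 / (k : ℝ) ^ (3 / 2 : ℝ)
  have hT0 : 0 ≤ T := tsum_nonneg fun k => by positivity
  refine ⟨C + 8 * T, by positivity, fun e z Zm Tv S hz hZ hTv hsmall hS => ?_⟩
  set P := upTo (lvl (e : ℝ)) with hP
  have hmem : ∀ {s : ℕ}, s ∈ P ↔ s.Prime ∧ cell s ≤ e := by
    intro s
    rw [hP, mem_upTo_lvl, cell, Nat.ceil_le]
  let u : ℕ → ℝ := fun s => if s ∈ P then z (cell s) / s else 0
  have hu0 : ∀ s, 0 ≤ u s := fun s => by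
    simp only [u]; split_ifs
    · exact div_nonneg (hz _) (Nat.cast_nonneg _)
    · exact le_rfl
  have hu1 : ∀ s, u s ≤ 3 / 4 := fun s => by
    simp only [u]; split_ifs with h
    · obtain ⟨hp, hc⟩ := hmem.1 h
      rw [div_le_iff₀ (by exact_mod_cast hp.pos)]
      exact hsmall s hp hc
    · norm_num
  have hlt : ∀ {p : ℕ}, p.Prime → ‖mulOf u p‖ < 1 := fun {p} hp => by
    rw [mulOf_prime u hp, Real.norm_of_nonneg (hu0 p)]; linarith [hu1 p]
  obtain ⟨-, hsum⟩ :=
    EulerProduct.summable_and_hasSum_factoredNumbers_prod_filter_prime_geometric hlt P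
  have hSf : ∀ n ∈ S, n ∈ Nat.factoredNumbers P := fun n hn => by
    obtain ⟨h1, h⟩ := hS n hn
    rw [Nat.mem_factoredNumbers]
    refine ⟨by omega, fun s hs => ?_⟩
    rw [Nat.mem_primeFactorsList (by omega)] at hs
    exact hmem.2 ⟨hs.1, h s hs.1 hs.2⟩
  have hterm : ∀ n ∈ S, wt z n / n = mulOf u n := fun n hn => by
    obtain ⟨h1, h⟩ := hS n hn
    have hl : ∀ l : List ℕ, (∀ s ∈ l, s ∈ P) →
        (l.map u).prod = (l.map fun s => z (cell s)).prod / (l.prod : ℕ) := by
      intro l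
      induction l with
      | nil => simp
      | cons s l ih =>
        intro hl
        rw [List.forall_mem_cons] at hl
        have hus : u s = z (cell s) / s := if_pos hl.1
        simp only [List.map_cons, List.prod_cons, ih hl.2, hus]
        push_cast
        rw [div_mul_div_comm]
    have hn0 : n ≠ 0 := by omega
    have hmul : mulOf u n = (n.primeFactorsList.map u).prod := by simp [mulOf, hn0]
    rw [hmul, hl _ fun s hs => (Nat.mem_factoredNumbers.1 (hSf n hn)).2 s hs,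
      Nat.prod_primeFactorsList hn0]
    rfl
  rw [Finset.sum_congr rfl hterm, ← Finset.sum_subtype_of_mem _ hSf]
  refine (sum_le_hasSum _ (fun m _ => mulOf_nonneg hu0 _) hsum).trans ?_
  rw [Finset.filter_true_of_mem fun s hs => (hmem.1 hs).1]
  have hb : ∀ s ∈ P, (1 - mulOf u s)⁻¹ ≤
      Real.exp (z (cell s) / s + Zm ^ 2 * (8 * (1 / (s : ℝ) ^ (3 / 2 : ℝ)))) := fun s hs => by
    obtain ⟨hp, hc⟩ := hmem.1 hs
    rw [mulOf_prime u hp]
    refine (inv_one_sub_le_exp (hu0 s) (hu1 s)).trans (Real.exp_le_exp.2 ?_)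
    have hus : u s = z (cell s) / s := if_pos hs
    rw [hus, div_pow]
    refine add_le_add le_rfl ?_
    have h1 : z (cell s) ^ 2 ≤ Zm ^ 2 := pow_le_pow_left₀ (hz _) (hZ _ hc) 2
    have h2 : (0 : ℝ) ≤ 1 / (s : ℝ) ^ 2 := by positivity
    have h3 := mul_le_mul h1 (prime_tail_bound hp).2.2 h2 (sq_nonneg Zm)
    have e1 : z (cell s) ^ 2 / (s : ℝ) ^ 2 = z (cell s) ^ 2 * (1 / (s : ℝ) ^ 2) := by ring
    rw [e1]; linarith
  refine (Finset.prod_le_prod (fun s hs => ?_) hb).trans ?_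
  · rw [mulOf_prime u (hmem.1 hs).1]
    exact inv_nonneg.2 (by linarith [hu1 s])
  rw [← Real.exp_sum, Finset.sum_add_distrib, cellSum_eq, ← Finset.mul_sum, ← Finset.mul_sum]
  refine Real.exp_le_exp.2 ?_
  have hZ0 : 0 ≤ Zm := (hz 0).trans (hZ 0 (Nat.zero_le _))
  have hT' : 0 ≤ Tv := le_trans (Finset.sum_nonneg fun c _ => abs_nonneg _) hTv
  have h1 : z e * (RecSum (lvl (e : ℝ)) - e) ≤ Zm * C :=
    (le_abs_self _).trans (by
      rw [abs_mul, abs_of_nonneg (hz e)]
      exact mul_le_mul (hZ e le_rfl) (hC _ (Nat.cast_nonneg e)) (abs_nonneg _) hZ0)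
  have h2 : -∑ c ∈ Finset.range e, (z (c + 1) - z c) * (RecSum (lvl (c : ℝ)) - c) ≤ C * Tv := by
    refine (neg_le_abs _).trans ((Finset.abs_sum_le_sum_abs _ _).trans ?_)
    refine le_trans (Finset.sum_le_sum (g := fun c => C * |z (c + 1) - z c|) fun c _ => ?_) ?_
    · rw [abs_mul, mul_comm C]
      exact mul_le_mul_of_nonneg_left (hC _ (Nat.cast_nonneg c)) (abs_nonneg _)
    · rw [← Finset.mul_sum]; exact mul_le_mul_of_nonneg_left hTv hC0
  have h3 := mul_le_mul_of_nonneg_left (sum_rpow_le P)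
    (show 0 ≤ Zm ^ 2 * 8 by positivity)
  nlinarith [mul_nonneg hC0 hZ0, mul_nonneg hC0 hT', mul_nonneg hT0 hZ0, mul_nonneg hT0 hT',
    mul_nonneg hZ0 hT', mul_nonneg (mul_nonneg hC0 hZ0) hT', sq_nonneg Zm, sq_nonneg Tv,
    mul_nonneg hC0 (sq_nonneg (Zm + Tv)), mul_nonneg hT0 (sq_nonneg Tv),
    mul_nonneg (mul_nonneg hT0 hZ0) hT']

end

end Vale.Agent.P031
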