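import Vale.Agent.P031.Targets
import Mathlib.NumberTheory.Chebyshev
import Mathlib.Analysis.SpecialFunctions.Pow.Asymptotics
import Mathlib.Analysis.Complex.ExponentialBounds

/-!
# P031 Q2: the ratio from the two comparisons and the prime number theorem
-/

namespace Vale.Agent.P031

open Finset Filter
open scoped Topology

noncomputable section

/-- The count of `(p - 1) * m`, `m` admissible. -/
def mainSum (l y : ℝ) : ℝ := ∑ m ∈ MF l, (Nat.primeCounting ⌊y / m + 1⌋₊ : ℝ)

theorem one_mem_MF {l : ℝ} (hl : 1 ≤ l) : 1 ∈ MF l := by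
  classical
  have hL : 0 ≤ Lg l := Real.log_nonneg hl
  have hdel : del l ≤ 1 := Real.rpow_le_one_of_one_le_of_nonpos hl (by norm_num)
  have hB : 0 ≤ Bp l := mul_nonneg (pow_nonneg hL _) (pow_nonneg hL _)
  rw [MF, mem_filter]
  refine ⟨mem_range.2 (Nat.lt_succ_of_le (Nat.le_floor ?_)),
    0, Nat.zero_le _, ![], fun i => Fin.elim0 i, fun i => Fin.elim0 i, ⟨?_, fun i => Fin.elim0 i⟩,
    1, le_rfl, fun i => Fin.elim0 i, fun s hs h => absurd (Nat.le_of_dvd one_pos h) (by have := hs.two_le; omega), ?_, ?_⟩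
  · rw [Nat.cast_one]
    exact Real.one_le_exp (mul_nonneg (mul_nonneg zero_le_two (by linarith [Nat.cast_nonneg (α := ℝ) (Kp l)]))
      (Real.exp_nonneg _))
  · simp only [hvec, univ_eq_empty, sum_empty]
    exact mul_nonneg (by linarith) (by linarith)
  · simpa using hB
  · simp

theorem MF_small : ∀ᶠ l : ℝ in atTop, ∀ m ∈ MF l, 1 ≤ m → (m : ℝ) ≤ Real.exp (Real.exp l / 2) := by
  have h1 := (Real.tendsto_log_atTop.eventually (eventually_ge_atTop (4 : ℝ)))
  have h2 : ∀ᶠ l : ℝ in atTop, Real.log l ≤ l ^ (4 / 5 : ℝ) / 100 := by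
    have h := (isLittleO_log_rpow_atTop (show (0 : ℝ) < 4 / 5 by norm_num)).bound
      (show (0 : ℝ) < 1 / 100 by norm_num)
    filter_upwards [h, eventually_gt_atTop 0] with l hl hl0
    rw [Real.norm_eq_abs, Real.norm_eq_abs, abs_of_pos (Real.rpow_pos_of_pos hl0 _)] at hl
    linarith [le_abs_self (Real.log l)]
  filter_upwards [h1, h2, eventually_gt_atTop 1] with l hL hsmall hl m hm _
  classical
  rw [MF, mem_filter, mem_range, Nat.lt_succ_iff] at hm
  refine (Nat.cast_le.2 hm.1).trans ((Nat.floor_le (Real.exp_nonneg _)).trans (Real.exp_le_exp.2 ?_))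
  have hl0 : (0 : ℝ) < l := by linarith
  set L := Lg l with hLdef
  have hL4 : 4 ≤ L := hL
  have hK : (Kp l : ℝ) ≤ L ^ 85 :=
    (Nat.floor_le (by positivity)).trans (pow_le_pow_right₀ (by linarith) (by norm_num))
  have hB : Bp l = L ^ 85 := by rw [Bp, Zp, ← hLdef, ← pow_add]
  have h1L : 1 ≤ L ^ 85 := one_le_pow₀ (by linarith)
  have hdl : del l * l = l ^ (4 / 5 : ℝ) := by
    rw [del]
    conv_lhs => arg 2; rw [← Real.rpow_one l]
    rw [← Real.rpow_add hl0]
    norm_num
  have he : Real.exp ((1 - del l) * l) = Real.exp l * Real.exp (-(l ^ (4 / 5 : ℝ))) := by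
    rw [← Real.exp_add, sub_mul, one_mul, hdl, sub_eq_add_neg]
  have hpoly : 12 * L ^ 85 ≤ Real.exp (l ^ (4 / 5 : ℝ)) := by
    have hLE : L ≤ Real.exp L := by linarith [Real.add_one_le_exp L]
    calc 12 * L ^ 85 ≤ L ^ 2 * L ^ 85 := mul_le_mul_of_nonneg_right (by nlinarith) (by positivity)
      _ = L ^ 87 := by rw [← pow_add]
      _ ≤ Real.exp L ^ 87 := pow_le_pow_left₀ (by linarith) hLE _
      _ = Real.exp (87 * L) := by rw [← Real.exp_nat_mul]; norm_num
      _ ≤ _ := Real.exp_le_exp.2 (by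
          have : L ≤ l ^ (4 / 5 : ℝ) / 100 := hsmall
          linarith)
  rw [he]
  have hE : 0 < Real.exp (-(l ^ (4 / 5 : ℝ))) := Real.exp_pos _
  have hprod : 12 * L ^ 85 * Real.exp (-(l ^ (4 / 5 : ℝ))) ≤ 1 := by
    have := mul_le_mul_of_nonneg_right hpoly hE.le
    rwa [← Real.exp_add, add_neg_cancel, Real.exp_zero] at this
  calc 2 * ((Kp l : ℝ) + Bp l + 1) * (Real.exp l * Real.exp (-(l ^ (4 / 5 : ℝ))))
      ≤ 6 * L ^ 85 * (Real.exp l * Real.exp (-(l ^ (4 / 5 : ℝ)))) :=
        mul_le_mul_of_nonneg_right (by linarith) (by positivity)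
    _ = Real.exp l * (12 * L ^ 85 * Real.exp (-(l ^ (4 / 5 : ℝ)))) / 2 := by ring
    _ ≤ _ := by
        refine div_le_div_of_nonneg_right ?_ zero_le_two
        exact mul_le_of_le_one_right (Real.exp_nonneg _) hprod

theorem chebyshev_lower : ∀ᶠ z : ℝ in atTop,
    z / Real.log z / 4 ≤ (Nat.primeCounting ⌊z + 1⌋₊ : ℝ) := by
  have h1 := Real.isLittleO_log_id_atTop.bound (show (0 : ℝ) < 1 / 4 by norm_num)
  filter_upwards [h1, eventually_ge_atTop (8 : ℝ)] with z hz hz2
  have hl : 0 < Real.log z := Real.log_pos (by linarith)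
  have hpi := Chebyshev.pi_ge' (show 1 < z by linarith)
  have hmono : (Nat.primeCounting ⌊z⌋₊ : ℝ) ≤ (Nat.primeCounting ⌊z + 1⌋₊ : ℝ) :=
    Nat.cast_le.2 (Nat.monotone_primeCounting (Nat.floor_mono (by linarith)))
  refine le_trans ?_ (hpi.trans hmono)
  rw [div_div, mul_comm, ← div_div]
  refine div_le_div_of_nonneg_right ?_ hl.le
  have hl2 := Real.log_two_gt_d9
  have e : Real.log (z + 2) ≤ Real.log 2 + Real.log z := by
    rw [← Real.log_mul (by norm_num) (by linarith)]
    exact Real.log_le_log (by linarith) (by linarith)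
  simp only [id, Real.norm_eq_abs, abs_of_pos hl, abs_of_pos (show (0 : ℝ) < z by linarith)] at hz
  nlinarith [Real.log_two_lt_d9]

/-- The ratio from the comparisons and the prime number theorem. -/
theorem ratio_of (hpnt : PNTRatioTarget) (hU : UpperTarget) (hL : LowerTarget) : RatioTarget := by
  intro c hc
  rw [Metric.tendsto_nhds]
  intro ε hε
  set K := 2 * (8 * c + 2)
  set η := min (1 / 8) (ε / K) with hη
  have hK : 0 < K := by positivity
  have hη0 : 0 < η := lt_min (by norm_num) (div_pos hε hK)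
  have hη8 : η ≤ 1 / 8 := min_le_left _ _
  obtain ⟨z0, hz0⟩ := eventually_atTop.1
    ((Metric.tendsto_nhds.1 (hpnt c (by linarith)) η hη0).and chebyshev_lower)
  obtain ⟨l0, hl0⟩ := eventually_atTop.1
    ((hU η hη0).and ((hL η hη0).and (MF_small.and (eventually_ge_atTop (1 : ℝ)))))
  have hlim : Tendsto (fun x : ℝ => Real.log (Real.log x)) atTop atTop :=
    Real.tendsto_log_atTop.comp Real.tendsto_log_atTop
  filter_upwards [eventually_ge_atTop (max 16 (max c (max 1 z0 ^ 2))),
    hlim.eventually (eventually_ge_atTop l0)] with x hx hxl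
  have hx16 : 16 ≤ x := (le_max_left _ _).trans hx
  have hxc : c ≤ x := ((le_max_left _ _).trans (le_max_right _ _)).trans hx
  have hxz : max 1 z0 ^ 2 ≤ x := ((le_max_right c _).trans (le_max_right (16 : ℝ) _)).trans hx
  set l := Real.log (Real.log x) with hldef
  obtain ⟨hUl, hLl, hsmall, hl1⟩ := hl0 l hxl
  have hx0 : 0 < x := by linarith
  have hlx : 1 < Real.log x := by
    have : Real.log 16 ≤ Real.log x := Real.log_le_log (by norm_num) hx16
    have e : Real.log 16 = 4 * Real.log 2 := by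
      rw [show (16 : ℝ) = 2 ^ (4 : ℕ) by norm_num, Real.log_pow]; norm_num
    linarith [Real.log_two_gt_d9]
  have hlcx : Real.log x ≤ Real.log (c * x) := Real.log_le_log hx0 (le_mul_of_one_le_left hx0.le hc.le)
  have hnear : |Real.log (Real.log (c * x)) - l| ≤ 1 := by
    have h2 : Real.log (c * x) ≤ 2 * Real.log x := by
      rw [Real.log_mul (by linarith) hx0.ne']
      linarith [Real.log_le_log (by linarith) hxc]
    have h3 : Real.log (Real.log (c * x)) ≤ Real.log 2 + l := by
      rw [hldef, ← Real.log_mul (by norm_num) (by linarith)]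
      exact Real.log_le_log (by linarith) h2
    have h4 : l ≤ Real.log (Real.log (c * x)) := Real.log_le_log (by linarith) hlcx
    rw [abs_le]
    constructor <;> linarith [Real.log_two_lt_d9]
  have hm1 : ∀ m ∈ MF l, 1 ≤ m → z0 ≤ x / m ∧ 1 < x / m := by
    intro m hm h1
    have hle := hsmall m hm h1
    rw [hldef, Real.exp_log (by linarith)] at hle
    have hle2 : (m : ℝ) ≤ Real.sqrt x := by
      rwa [Real.sqrt_eq_rpow, Real.rpow_def_of_pos hx0, mul_one_div]
    have hq : Real.sqrt x ≤ x / m := by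
      rw [le_div_iff₀ (by exact_mod_cast h1)]
      calc Real.sqrt x * m ≤ Real.sqrt x * Real.sqrt x :=
            mul_le_mul_of_nonneg_left hle2 (Real.sqrt_nonneg x)
        _ = x := Real.mul_self_sqrt hx0.le
    refine ⟨le_trans ?_ hq, lt_of_lt_of_le ?_ hq⟩
    · refine (le_max_right 1 z0).trans ?_
      exact Real.le_sqrt_of_sq_le hxz
    · rw [Real.lt_sqrt zero_le_one]; linarith
  have hterm : ∀ m ∈ MF l, x / Real.log x / 4 * (m : ℝ)⁻¹ ≤ (Nat.primeCounting ⌊x / m + 1⌋₊ : ℝ) ∧
      |(Nat.primeCounting ⌊c * x / m + 1⌋₊ : ℝ) - c * Nat.primeCounting ⌊x / m + 1⌋₊|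
        ≤ η * Nat.primeCounting ⌊x / m + 1⌋₊ := by
    intro m hm
    rcases Nat.eq_zero_or_pos m with rfl | hpos
    · have h1 : Nat.primeCounting 1 = 0 := by decide
      simp [h1]
    obtain ⟨hz, hz1⟩ := hm1 m hm hpos
    obtain ⟨hd, hch⟩ := hz0 (x / m) hz
    have hlz : 0 < Real.log (x / m) := Real.log_pos hz1
    have hlow : x / Real.log x / 4 * (m : ℝ)⁻¹ ≤ (Nat.primeCounting ⌊x / m + 1⌋₊ : ℝ) := by
      refine le_trans ?_ hch
      calc x / Real.log x / 4 * (m : ℝ)⁻¹ = x / m / Real.log x / 4 := by ring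
        _ ≤ x / m / Real.log (x / m) / 4 := by
            gcongr
            exact div_le_self hx0.le (by exact_mod_cast hpos)
    refine ⟨hlow, ?_⟩
    have hP : (0 : ℝ) < Nat.primeCounting ⌊x / m + 1⌋₊ :=
      lt_of_lt_of_le (by positivity) hlow
    rw [Real.dist_eq] at hd
    rw [show c * x / m = c * (x / m) by ring]
    calc |(Nat.primeCounting ⌊c * (x / m) + 1⌋₊ : ℝ) - c * Nat.primeCounting ⌊x / m + 1⌋₊|
        = |(Nat.primeCounting ⌊c * (x / m) + 1⌋₊ : ℝ) / Nat.primeCounting ⌊x / m + 1⌋₊ - c| *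
            Nat.primeCounting ⌊x / m + 1⌋₊ := by
          rw [← abs_of_pos hP]
          rw [← abs_mul, sub_mul, abs_of_pos hP, div_mul_cancel₀ _ hP.ne']
      _ ≤ _ := mul_le_mul_of_nonneg_right hd.le hP.le
  set S := mainSum l x with hS
  set E := x / Real.log x * A l
  have hE : E ≤ 4 * S := by
    simp only [E, A, S, mainSum, mul_sum]
    refine sum_le_sum fun m hm => ?_
    linarith [(hterm m hm).1]
  have hEpos : 0 < E := by
    refine mul_pos (div_pos hx0 (by linarith)) ?_
    exact lt_of_lt_of_le (by norm_num : (0 : ℝ) < ((1 : ℕ) : ℝ)⁻¹)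
      (single_le_sum (f := fun m : ℕ => (m : ℝ)⁻¹) (fun m _ => by positivity) (one_mem_MF hl1))
  have hSpos : 0 < S := by linarith
  have hcS : |mainSum l (c * x) - c * S| ≤ η * S := by
    simp only [S, mainSum, mul_sum, ← sum_sub_distrib]
    exact (abs_sum_le_sum_abs _ _).trans (sum_le_sum fun m hm => (hterm m hm).2)
  have hA0 : 0 ≤ A l := sum_nonneg fun m _ => by positivity
  have hEc : c * x / Real.log (c * x) * A l ≤ c * E := by
    rw [show c * E = c * x / Real.log x * A l by simp only [E]; ring]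
    refine mul_le_mul_of_nonneg_right ?_ hA0
    gcongr
  have u1 : (V x : ℝ) ≤ S + η * (x / Real.log x) * A l := hUl x hx16 (by simp [hldef])
  have l1 : S ≤ (V x : ℝ) + η * (x / Real.log x) * A l := hLl x hx16 (by simp [hldef])
  have u2 : (V (c * x) : ℝ) ≤ mainSum l (c * x) + η * (c * x / Real.log (c * x)) * A l :=
    hUl (c * x) (hx16.trans (le_mul_of_one_le_left hx0.le hc.le)) hnear
  have l2 : mainSum l (c * x) ≤ (V (c * x) : ℝ) + η * (c * x / Real.log (c * x)) * A l :=
    hLl (c * x) (hx16.trans (le_mul_of_one_le_left hx0.le hc.le)) hnear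
  rw [mul_assoc] at u1 l1 u2 l2
  have hEc' := mul_le_mul_of_nonneg_left hEc hη0.le
  have hEx : η * E ≤ 4 * η * S := by
    calc η * E ≤ η * (4 * S) := mul_le_mul_of_nonneg_left hE hη0.le
      _ = _ := by ring
  have hVlow : S / 2 ≤ (V x : ℝ) := by
    have : 4 * η * S ≤ S / 2 := by nlinarith
    linarith
  have hVpos : 0 < (V x : ℝ) := by linarith
  have habs := abs_le.1 hcS
  have hfin : |(V (c * x) : ℝ) - c * V x| ≤ η * (8 * c + 1) * S := by
    have h1 := mul_le_mul_of_nonneg_left u1 (show (0 : ℝ) ≤ c by linarith)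
    have h2 := mul_le_mul_of_nonneg_left l1 (show (0 : ℝ) ≤ c by linarith)
    have h3 := mul_le_mul_of_nonneg_left hEx (show (0 : ℝ) ≤ c by linarith)
    rw [abs_le]
    constructor <;> nlinarith
  rw [Real.dist_eq, div_sub' hVpos.ne', abs_div, abs_of_pos hVpos, div_lt_iff₀ hVpos,
    mul_comm (V x : ℝ) c]
  refine hfin.trans_lt ?_
  have hηK : η * K ≤ ε := (le_div_iff₀ hK).1 (min_le_right _ _)
  calc η * (8 * c + 1) * S < η * K * (S / 2) := by
        simp only [K]; nlinarith [mul_pos hη0 hSpos]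
    _ ≤ ε * (V x : ℝ) := mul_le_mul hηK hVlow (by positivity) hε.le

end

end Vale.Agent.P031
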