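import Vale.Agent.P031.Targets
import Vale.Agent.P031.Basic
import Mathlib.NumberTheory.PrimeCounting
import Mathlib.Analysis.SpecialFunctions.Pow.Asymptotics
import Mathlib.Data.Finset.Sort
import Mathlib.Algebra.BigOperators.Field

/-!
# P031 Q2, module Lower: almost every representation `(p - 1) m` is unique

`theorem lower_of : CollisionTarget → AbnormalTarget → WindowTarget → LowerTarget`.

A pair `(p, m)` with `p` normal and `p > √y` gives the totient `(p - 1) m ≤ y`. Two pairs with the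
same value give, after cancelling common primes, data counted by the collision lemma.
-/

namespace Vale.Agent.P031.Lower

open Finset Filter
open scoped Topology Classical

noncomputable section

/-! ### Enumerations of finite sets of primes -/

/-- The elements of `T` in decreasing order (zero if the size is wrong). -/
def dec (T : Finset ℕ) (a : ℕ) : Fin a → ℕ := fun i =>
  if h : T.card = a then T.orderEmbOfFin h i.rev else 0

lemma dec_anti {T : Finset ℕ} {a : ℕ} (h : T.card = a) : StrictAnti (dec T a) := by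
  intro i j hij
  simp only [dec, dif_pos h]
  exact (T.orderEmbOfFin h).strictMono (Fin.rev_lt_rev.mpr hij)

lemma dec_mem {T : Finset ℕ} {a : ℕ} (h : T.card = a) (i : Fin a) : dec T a i ∈ T := by
  simp only [dec, dif_pos h]
  exact T.orderEmbOfFin_mem h _

lemma dec_image {T : Finset ℕ} {a : ℕ} (h : T.card = a) : Finset.univ.image (dec T a) = T := by
  refine Finset.eq_of_subset_of_card_le (fun s hs => ?_) ?_
  · obtain ⟨i, -, rfl⟩ := Finset.mem_image.mp hs
    exact dec_mem h i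
  · rw [Finset.card_image_of_injective _ (dec_anti h).injective, Finset.card_univ,
      Fintype.card_fin, h]

lemma dec_prod {T : Finset ℕ} {a : ℕ} (h : T.card = a) (f : ℕ → ℕ) :
    ∏ i, f (dec T a i) = ∏ s ∈ T, f s := by
  conv_rhs => rw [← dec_image h]
  exact (Finset.prod_image fun i _ j _ hij => (dec_anti h).injective hij).symm

/-- A decreasing list inside a decreasing list is dominated entrywise. -/
lemma sub_list {k n : ℕ} {p : Fin k → ℕ} (hp : StrictAnti p) {q : Fin n → ℕ} (hq : StrictAnti q)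
    (hm : ∀ i, ∃ j, p j = q i) : ∀ i : Fin n, ∃ j : Fin k, i.val ≤ j.val ∧ q i = p j := by
  choose σ hσ using hm
  have hmono : StrictMono σ := fun i j hij => hp.lt_iff_gt.mp (by rw [hσ, hσ]; exact hq hij)
  intro i
  refine ⟨σ i, ?_, (hσ i).symm⟩
  obtain ⟨m, hm⟩ := i
  induction m with
  | zero => simp
  | succ m ih =>
      have h1 := ih (by omega)
      have h2 : σ ⟨m, by omega⟩ < σ ⟨m + 1, hm⟩ := hmono (Fin.mk_lt_mk.mpr (Nat.lt_succ_self m))
      have h3 : (σ ⟨m, by omega⟩).val < (σ ⟨m + 1, hm⟩).val := h2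
      simp only at h1 ⊢
      omega

lemma hvec_sub {k n : ℕ} {p : Fin k → ℕ} (hp : StrictAnti p) (h2 : ∀ i, 2 ≤ p i)
    (h0 : ∀ i, 0 ≤ X (p i)) {q : Fin n → ℕ} (hq : StrictAnti q) (hm : ∀ i, ∃ j, p j = q i) :
    hvec (fun i => X (q i)) ≤ hvec (fun i => X (p i)) := by
  have hs := sub_list hp hq hm
  have hnk : ∀ i : Fin n, i.val < k := fun i => by
    obtain ⟨j, hj, -⟩ := hs i
    exact lt_of_le_of_lt hj j.isLt
  set ι : Fin n → Fin k := fun i => ⟨i.val, hnk i⟩ with hι
  have hinj : Function.Injective ι := fun i j hij =>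
    Fin.ext (congrArg (fun t : Fin k => t.val) hij :)
  unfold hvec
  calc ∑ i, aC (i.val + 1) * X (q i) ≤ ∑ i, aC ((ι i).val + 1) * X (p (ι i)) := by
        refine Finset.sum_le_sum fun i _ => mul_le_mul_of_nonneg_left ?_
          (aC_nonneg (Nat.le_add_left 1 _))
        obtain ⟨j, hj, hqj⟩ := hs i
        rw [hqj]
        exact X_mono (h2 j) (hp.antitone (Fin.mk_le_mk.mpr hj))
    _ = ∑ j ∈ Finset.univ.image ι, aC (j.val + 1) * X (p j) :=
        (Finset.sum_image (f := fun j : Fin k => aC (j.val + 1) * X (p j))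
          fun i _ j _ hij => hinj hij).symm
    _ ≤ ∑ j, aC (j.val + 1) * X (p j) :=
        Finset.sum_le_sum_of_subset_of_nonneg (Finset.subset_univ _) fun j _ _ =>
          mul_nonneg (aC_nonneg (Nat.le_add_left 1 _)) (h0 j)

/-! ### Totients -/

lemma totient_prod (S : Finset ℕ) (b : ℕ) (hS : ∀ s ∈ S, s.Prime) (hb : ∀ s ∈ S, ¬ s ∣ b) :
    Nat.totient ((∏ s ∈ S, s) * b) = (∏ s ∈ S, (s - 1)) * b.totient := by
  induction S using Finset.induction_on with
  | empty => simp
  | @insert a S ha ih =>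
      have hpa : a.Prime := hS a (Finset.mem_insert_self a S)
      have hS' : ∀ s ∈ S, s.Prime := fun s hs => hS s (Finset.mem_insert_of_mem hs)
      have hb' : ∀ s ∈ S, ¬ s ∣ b := fun s hs => hb s (Finset.mem_insert_of_mem hs)
      rw [Finset.prod_insert ha, Finset.prod_insert ha, mul_assoc, mul_assoc]
      have hcop : Nat.Coprime a ((∏ s ∈ S, s) * b) := by
        rw [hpa.coprime_iff_not_dvd]
        intro hd
        rcases hpa.dvd_mul.mp hd with h | h
        · obtain ⟨s, hs, hds⟩ := hpa.prime.dvd_finsetProd_iff _ |>.mp h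
          exact ha ((Nat.prime_dvd_prime_iff_eq hpa (hS' s hs)).mp hds ▸ hs)
        · exact hb a (Finset.mem_insert_self a S) h
      rw [Nat.totient_mul hcop, Nat.totient_prime hpa, ih hS' hb']

lemma prime_dvd_totient {b s : ℕ} (hb : b ≠ 0) (hs : s.Prime) (h : s ∣ b.totient) :
    ∃ q, q.Prime ∧ q ∣ b ∧ s ≤ q := by
  rw [Nat.totient_eq_prod_factorization hb, Finsupp.prod] at h
  obtain ⟨q, hq, hd⟩ := hs.prime.dvd_finsetProd_iff _ |>.mp h
  rw [Nat.support_factorization, Nat.mem_primeFactors] at hq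
  refine ⟨q, hq.1, hq.2.1, ?_⟩
  rcases hs.dvd_mul.mp hd with h1 | h1
  · exact Nat.le_of_dvd hq.1.pos (hs.dvd_of_dvd_pow h1)
  · exact (Nat.le_of_dvd (Nat.sub_pos_of_lt hq.1.one_lt) h1).trans (Nat.sub_le q 1)

/-- `primeCounting` as a cardinality. -/
lemma primeCounting_card (n : ℕ) :
    Nat.primeCounting n = ((Finset.range (n + 1)).filter Nat.Prime).card := by
  rw [Nat.primeCounting, Nat.primeCounting', Nat.count_eq_card_filter_range]

lemma collSet_finite (a b Zb B e : ℕ) (y D : ℝ) : (collSet a b Zb B e y D).Finite := by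
  set N := ⌊y⌋₊ + 2
  refine Set.Finite.subset
    (((Fintype.piFinset fun _ : Fin a => Finset.range N) ×ˢ
        (Fintype.piFinset fun _ : Fin b => Finset.range N)) ×ˢ
      (Finset.range N ×ˢ Finset.range N)).finite_toSet ?_
  rintro ⟨⟨P, Q⟩, d, d'⟩ ⟨-, -, -, hP, hQ, -, hd, hd', -, -, -, -, heq, hy⟩
  simp only at hP hQ hd hd' heq hy
  have hv := Nat.le_floor hy
  have hposP : ∀ i, 1 ≤ P i - 1 := fun i => by have := (hP i).1.1.two_le; omega
  have hposQ : ∀ i, 1 ≤ Q i - 1 := fun i => by have := (hQ i).1.1.two_le; omega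
  have hPpos : 1 ≤ ∏ i, (P i - 1) := Finset.one_le_prod fun i _ => hposP i
  have hQpos : 1 ≤ ∏ i, (Q i - 1) := Finset.one_le_prod fun i _ => hposQ i
  simp only [Finset.coe_product, Set.mem_prod, Finset.mem_coe, Fintype.mem_piFinset,
    Finset.mem_range, N]
  refine ⟨⟨fun i => ?_, fun i => ?_⟩, ?_, ?_⟩
  · have h1 : P i - 1 ≤ ∏ j, (P j - 1) :=
      Finset.single_le_prod' (fun j _ => hposP j) (Finset.mem_univ i)
    have h2 : ∏ j, (P j - 1) ≤ (∏ j, (P j - 1)) * d := Nat.le_mul_of_pos_right _ hd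
    rw [heq] at h2
    omega
  · have h1 : Q i - 1 ≤ ∏ j, (Q j - 1) :=
      Finset.single_le_prod' (fun j _ => hposQ j) (Finset.mem_univ i)
    have h2 : ∏ j, (Q j - 1) ≤ (∏ j, (Q j - 1)) * d' := Nat.le_mul_of_pos_right _ hd'
    omega
  · have h2 : d ≤ (∏ j, (P j - 1)) * d := Nat.le_mul_of_pos_left _ hPpos
    rw [heq] at h2
    omega
  · have h2 : d' ≤ (∏ j, (Q j - 1)) * d' := Nat.le_mul_of_pos_left _ hQpos
    omega

/-- The sum over subsets of bounded size of products. -/
lemma sum_small_subsets (W : Finset ℕ) (w : ℕ → ℝ) (hw : ∀ s ∈ W, 0 ≤ w s) (K : ℕ) {S : ℝ}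
    (hS : ∑ s ∈ W, w s ≤ S) :
    ∑ I ∈ W.powerset.filter (fun I => I.card ≤ K), ∏ s ∈ I, w s ≤ 3 * (S + 1) ^ K := by
  have hS0 : 0 ≤ S := (Finset.sum_nonneg hw).trans hS
  set c := S + 1 with hc
  have hc1 : 1 ≤ c := by linarith
  calc ∑ I ∈ W.powerset.filter (fun I => I.card ≤ K), ∏ s ∈ I, w s
      ≤ ∑ I ∈ W.powerset.filter (fun I => I.card ≤ K), c ^ K * ∏ s ∈ I, w s / c := by
        refine Finset.sum_le_sum fun I hI => ?_
        rw [Finset.mem_filter, Finset.mem_powerset] at hI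
        rw [Finset.prod_div_distrib, Finset.prod_const, mul_div_assoc',
          le_div_iff₀ (by positivity), mul_comm]
        exact mul_le_mul_of_nonneg_right (pow_le_pow_right₀ hc1 hI.2)
          (Finset.prod_nonneg fun s hs => hw s (hI.1 hs))
    _ ≤ ∑ I ∈ W.powerset, c ^ K * ∏ s ∈ I, w s / c := by
        refine Finset.sum_le_sum_of_subset_of_nonneg (Finset.filter_subset _ _) fun I hI _ => ?_
        rw [Finset.mem_powerset] at hI
        exact mul_nonneg (by positivity)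
          (Finset.prod_nonneg fun s hs => div_nonneg (hw s (hI hs)) (by linarith))
    _ = c ^ K * ∏ s ∈ W, (1 + w s / c) := by rw [Finset.prod_one_add, Finset.mul_sum]
    _ ≤ c ^ K * ∏ s ∈ W, Real.exp (w s / c) := by
        refine mul_le_mul_of_nonneg_left ?_ (by positivity)
        refine Finset.prod_le_prod (fun s hs => ?_) fun s _ => ?_
        · have := div_nonneg (hw s hs) (by linarith : (0 : ℝ) ≤ c)
          linarith
        · linarith [Real.add_one_le_exp (w s / c)]
    _ ≤ c ^ K * Real.exp 1 := by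
        rw [← Real.exp_sum, ← Finset.sum_div]
        refine mul_le_mul_of_nonneg_left (Real.exp_le_exp.mpr ?_) (by positivity)
        rw [div_le_one (by linarith)]
        linarith
    _ ≤ 3 * c ^ K := by
        nlinarith [Real.exp_one_lt_d9, pow_nonneg (by linarith : (0 : ℝ) ≤ c) K]

/-! ### The parameters -/

/-- The bound on `log m`, `m ∈ MF l`. -/
def Mb (l : ℝ) : ℝ := 2 * ((Kp l : ℝ) + Bp l + 1) * Real.exp ((1 - del l) * l)

/-- The exponent of the collision count. -/
def coll (l C C₀ : ℝ) : ℝ :=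
  3 - (del l * l - 2) + C * (((Kp l : ℝ) + 1) ^ 3 * Real.log (4 * l) +
      ((Kp l : ℝ) + 1) * Real.log ((Kp l : ℝ) + 3) *
        (2 * l ^ (3 / 4 : ℝ) + (Zp l + 1) + Bp l + 1)) +
    Real.log 3 + ((Kp l : ℝ) + 1) * Real.log (2 * l + C₀) + Real.log (((Kp l : ℝ) + 2) ^ 2) +
      Real.log (l + 6)

/-- Numerical conditions. -/
structure Cond (l C C₀ e₀ c ε : ℝ) : Prop where
  l16 : 16 ≤ l
  Z256 : 256 ≤ Zp l
  ZB : 0 ≤ Bp l
  dl : 5 ≤ del l * l
  Zl : Zp l + 3 ≤ l
  Mb_le : Mb l + 1 ≤ Real.exp (l - 1) / 6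
  ab : 3 * Real.exp (-(c * Real.sqrt (l - 2))) ≤ ε / 3
  e0 : e₀ ≤ l - 2
  small : 2 * Real.exp (l + 1) * Real.exp (-(Real.exp (l - 1)) / 3) ≤ ε / 3
  coll_le : 2 * Real.exp (coll l C C₀) ≤ ε / 3

/-- The collision exponent is at most `-U / 2`. -/
lemma coll_neg {l C C₀ L U T G : ℝ} (hl : 16 ≤ l) (hL : L = Real.log l) (hL8 : 8 ≤ L)
    (hU : del l * l = U) (hU10 : 40 ≤ U) (hC : 0 ≤ C) (hC₀ : 0 ≤ C₀) (hlC : C₀ ≤ l)
    (hT : T = L ^ 100 * l ^ (3 / 4 : ℝ)) (hG : G = 60 * (C + 1)) (hkey : G * T ≤ U / 4) :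
    coll l C C₀ ≤ -(U / 2) := by
  have hl0 : 0 < l := by linarith
  have hLg : Lg l = L := hL.symm
  have hL1 : 1 ≤ L := by linarith
  have hKp : (Kp l : ℝ) ≤ L ^ 2 := by
    rw [hL]; exact Nat.floor_le (sq_nonneg _)
  have hK0 : (0 : ℝ) ≤ (Kp l : ℝ) := Nat.cast_nonneg _
  have hL2 : 64 ≤ L ^ 2 := by nlinarith
  have hdl := hU
  have h34 : 1 ≤ l ^ (3 / 4 : ℝ) := Real.one_le_rpow (by linarith) (by norm_num)
  have hT1 : ∀ n ≤ 100, L ^ n ≤ T := fun n hn => hT ▸
    (pow_le_pow_right₀ hL1 hn).trans (le_mul_of_one_le_right (by positivity) h34)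
  have hT0 : 1 ≤ T := by simpa using hT1 0 (by norm_num)
  have hB0 : 0 ≤ Bp l := by rw [Bp, Zp, hLg]; positivity
  have hl4 : Real.log (4 * l) ≤ 2 * L := by
    rw [Real.log_mul (by norm_num) hl0.ne', ← hL]
    have : Real.log 4 ≤ L := hL ▸ Real.log_le_log (by norm_num) (by linarith)
    linarith
  have hl3 : Real.log (2 * l + C₀) ≤ 2 * L := by
    rw [show 2 * L = Real.log (l * l) by rw [Real.log_mul hl0.ne' hl0.ne', hL]; ring]
    exact Real.log_le_log (by linarith) (by nlinarith)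
  have hlK : Real.log ((Kp l : ℝ) + 3) ≤ 2 * L ^ 2 :=
    (Real.log_le_sub_one_of_pos (by linarith)).trans (by linarith)
  have hlK2 : Real.log (((Kp l : ℝ) + 2) ^ 2) ≤ 4 * L ^ 2 := by
    rw [Real.log_pow]; push_cast
    linarith [Real.log_le_sub_one_of_pos (show (0 : ℝ) < (Kp l : ℝ) + 2 by linarith)]
  have hl6 : Real.log (l + 6) ≤ 2 * L := by
    rw [show 2 * L = Real.log (l * l) by rw [Real.log_mul hl0.ne' hl0.ne', hL]; ring]
    exact Real.log_le_log (by linarith) (by nlinarith)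
  have hlog3 : Real.log 3 ≤ 2 := (Real.log_le_sub_one_of_pos (by norm_num)).trans (by norm_num)
  have hK1 : (Kp l : ℝ) + 1 ≤ 2 * L ^ 2 := by linarith
  have a1 : ((Kp l : ℝ) + 1) ^ 3 * Real.log (4 * l) ≤ 16 * T := by
    calc ((Kp l : ℝ) + 1) ^ 3 * Real.log (4 * l) ≤ (2 * L ^ 2) ^ 3 * (2 * L) :=
          mul_le_mul (pow_le_pow_left₀ (by linarith) hK1 3) hl4
            (Real.log_nonneg (by linarith)) (by positivity)
      _ = 16 * L ^ 7 := by ring
      _ ≤ 16 * T := by linarith [hT1 7 (by norm_num)]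
  have a2 : ((Kp l : ℝ) + 1) * Real.log ((Kp l : ℝ) + 3) *
      (2 * l ^ (3 / 4 : ℝ) + (Zp l + 1) + Bp l + 1) ≤ 24 * T := by
    have hbr : 2 * l ^ (3 / 4 : ℝ) + (Zp l + 1) + Bp l + 1 ≤ 6 * (L ^ 85 * l ^ (3 / 4 : ℝ)) := by
      have h85 : 1 ≤ L ^ 85 := one_le_pow₀ hL1
      have e80 : Zp l ≤ L ^ 85 := by rw [Zp, hLg]; exact pow_le_pow_right₀ hL1 (by norm_num)
      have e85 : Bp l = L ^ 85 := by rw [Bp, Zp, hLg, ← pow_add]
      have i1 : l ^ (3 / 4 : ℝ) ≤ L ^ 85 * l ^ (3 / 4 : ℝ) :=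
        le_mul_of_one_le_left (by linarith) h85
      have i2 : L ^ 85 ≤ L ^ 85 * l ^ (3 / 4 : ℝ) := le_mul_of_one_le_right (by linarith) h34
      linarith
    calc _ ≤ (2 * L ^ 2) * (2 * L ^ 2) * (6 * (L ^ 85 * l ^ (3 / 4 : ℝ))) :=
          mul_le_mul (mul_le_mul hK1 hlK (Real.log_nonneg (by linarith)) (by positivity)) hbr
            (by linarith [Real.rpow_nonneg hl0.le (3 / 4 : ℝ), hB0,
              show 0 ≤ Zp l by rw [Zp, hLg]; positivity]) (by positivity)
      _ = 24 * (L ^ 89 * l ^ (3 / 4 : ℝ)) := by ring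
      _ ≤ 24 * T := by
          rw [hT]
          exact mul_le_mul_of_nonneg_left (mul_le_mul_of_nonneg_right
            (pow_le_pow_right₀ hL1 (by norm_num)) (by linarith)) (by norm_num)
  have a3 : ((Kp l : ℝ) + 1) * Real.log (2 * l + C₀) ≤ 4 * T := by
    calc _ ≤ (2 * L ^ 2) * (2 * L) :=
          mul_le_mul hK1 hl3 (Real.log_nonneg (by linarith)) (by positivity)
      _ = 4 * L ^ 3 := by ring
      _ ≤ 4 * T := by linarith [hT1 3 (by norm_num)]
  have b1 := mul_le_mul_of_nonneg_left (add_le_add a1 a2) hC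
  have b2 : L ^ 2 ≤ T := hT1 2 (by norm_num)
  have b3 : L ≤ T := by simpa using hT1 1 (by norm_num)
  have b4 : C * (16 * T + 24 * T) + 18 * T ≤ G * T := by
    rw [hG]
    nlinarith [mul_nonneg hC (zero_le_one.trans hT0)]
  unfold coll
  linarith

lemma eventually_cond (C C₀ e₀ c ε : ℝ) (hC : 0 ≤ C) (hC₀ : 0 ≤ C₀) (hc : 0 < c) (hε : 0 < ε) :
    ∀ᶠ l : ℝ in atTop, Cond l C C₀ e₀ c ε := by
  have hL : Tendsto (fun l : ℝ => Real.log l) atTop atTop := Real.tendsto_log_atTop
  have hpoly : ∀ δ : ℝ, 0 < δ → ∀ᶠ l : ℝ in atTop, Real.log l ^ 100 ≤ δ * l ^ (1 / 100 : ℝ) := by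
    intro δ hδ
    filter_upwards [(isLittleO_log_rpow_rpow_atTop (100 : ℝ) (show (0 : ℝ) < 1 / 100 by norm_num)).bound
      hδ, eventually_ge_atTop (1 : ℝ)] with l h hl
    have e : Real.log l ^ (100 : ℝ) = Real.log l ^ (100 : ℕ) := by
      rw [← Real.rpow_natCast]; norm_num
    rw [Real.norm_eq_abs, Real.norm_eq_abs, e,
      abs_of_nonneg (pow_nonneg (Real.log_nonneg hl) _),
      abs_of_nonneg (Real.rpow_nonneg (by linarith) _)] at h
    exact h
  have hsqrt : Tendsto (fun l : ℝ => c * Real.sqrt (l - 2)) atTop atTop :=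
    (Real.tendsto_sqrt_atTop.comp (tendsto_atTop_add_const_right _ (-2) tendsto_id)).const_mul_atTop hc
  have h45 : Tendsto (fun l : ℝ => l ^ (4 / 5 : ℝ)) atTop atTop := tendsto_rpow_atTop (by norm_num)
  set G := 60 * (C + 1) with hG
  have hG0 : 0 < G := by positivity
  filter_upwards [eventually_ge_atTop (16 : ℝ), hL.eventually_ge_atTop 8,
    hpoly (1 / (4 * G)) (by positivity), eventually_ge_atTop (e₀ + 2), eventually_ge_atTop C₀,
    hsqrt.eventually_ge_atTop (Real.log (9 / ε)),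
    eventually_ge_atTop (Real.log (6 * (|Real.log (ε / 6)| + 3)) + 4),
    h45.eventually_ge_atTop (4 * (|Real.log (ε / 6)| + 10))]
    with l hl hL8 hp he hlC hs hbig h45l
  have hl0 : 0 < l := by linarith
  set L := Real.log l with hLdef
  have hLg : Lg l = L := rfl
  have hL1 : 1 ≤ L := by linarith
  have hdl : del l * l = l ^ (4 / 5 : ℝ) := by
    rw [del]
    conv_lhs => arg 2; rw [← Real.rpow_one l]
    rw [← Real.rpow_add hl0]
    norm_num
  set U := l ^ (4 / 5 : ℝ) with hU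
  have hUl : U ≤ l := by
    calc U ≤ l ^ (1 : ℝ) := Real.rpow_le_rpow_of_exponent_le (by linarith) (by norm_num)
      _ = l := Real.rpow_one l
  have hU10 : 40 ≤ U := by linarith [abs_nonneg (Real.log (ε / 6))]
  have hKp : (Kp l : ℝ) ≤ L ^ 2 := Nat.floor_le (sq_nonneg _)
  have hK0 : (0 : ℝ) ≤ (Kp l : ℝ) := Nat.cast_nonneg _
  have hL2 : 64 ≤ L ^ 2 := by nlinarith
  -- small powers of `L`
  have hp0 : 0 ≤ l ^ (1 / 100 : ℝ) := Real.rpow_nonneg hl0.le _
  have hp34 : l ^ (1 / 100 : ℝ) * l ^ (3 / 4 : ℝ) ≤ U := by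
    rw [← Real.rpow_add hl0]
    exact Real.rpow_le_rpow_of_exponent_le (by linarith) (by norm_num)
  have h34 : 1 ≤ l ^ (3 / 4 : ℝ) := Real.one_le_rpow (by linarith) (by norm_num)
  have hkey : G * (L ^ 100 * l ^ (3 / 4 : ℝ)) ≤ U / 4 := by
    have h1 := mul_le_mul_of_nonneg_right hp (zero_le_one.trans h34)
    calc G * (L ^ 100 * l ^ (3 / 4 : ℝ))
        ≤ G * (1 / (4 * G) * l ^ (1 / 100 : ℝ) * l ^ (3 / 4 : ℝ)) :=
          mul_le_mul_of_nonneg_left h1 hG0.le
      _ = (l ^ (1 / 100 : ℝ) * l ^ (3 / 4 : ℝ)) / 4 := by field_simp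
      _ ≤ U / 4 := by linarith
  set T := L ^ 100 * l ^ (3 / 4 : ℝ) with hT
  have hT1 : ∀ n ≤ 100, L ^ n ≤ T := fun n hn =>
    (pow_le_pow_right₀ hL1 hn).trans (le_mul_of_one_le_right (by positivity) h34)
  have hT0 : 1 ≤ T := by simpa using hT1 0 (by norm_num)
  have hGT : 60 * T ≤ G * T := mul_le_mul_of_nonneg_right (by linarith) (by linarith)
  have hTU : 240 * T ≤ U := by linarith
  have hZT : Zp l ≤ T := by rw [Zp, hLg]; exact hT1 80 (by norm_num)
  have hBT : Bp l ≤ T := by rw [Bp, Zp, hLg, ← pow_add]; exact hT1 85 (by norm_num)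
  have hB0 : 0 ≤ Bp l := by rw [Bp, Zp, hLg]; positivity
  refine ⟨hl, ?_, hB0, by linarith, by linarith, ?_, ?_, by linarith, ?_, ?_⟩
  · rw [Zp, hLg]
    calc (256 : ℝ) ≤ 8 ^ 80 := by norm_num
      _ ≤ L ^ 80 := pow_le_pow_left₀ (by norm_num) hL8 80
  · -- `log m`
    have h1 : 2 * ((Kp l : ℝ) + Bp l + 1) ≤ 6 * T := by linarith [hT1 2 (by norm_num)]
    have h2 : 6 * T * Real.exp ((1 - del l) * l) + 1 ≤ Real.exp (l - 1) / 6 := by
      have e : Real.exp ((1 - del l) * l) = Real.exp (l - 1) * Real.exp (1 - U) := by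
        rw [← Real.exp_add, sub_mul, one_mul, hdl]; congr 1; ring
      have e2 : 72 * T * Real.exp (1 - U) ≤ 1 := by
        calc 72 * T * Real.exp (1 - U) ≤ Real.exp (U - 1) * Real.exp (1 - U) := by
              refine mul_le_mul_of_nonneg_right ?_ (Real.exp_pos _).le
              linarith [Real.add_one_le_exp (U - 1)]
          _ = 1 := by rw [← Real.exp_add]; simp
      have e3 : 12 ≤ Real.exp (l - 1) := by linarith [Real.add_one_le_exp (l - 1)]
      rw [e]
      nlinarith [mul_le_mul_of_nonneg_left e2 (Real.exp_pos (l - 1)).le]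
    have h3 := mul_le_mul_of_nonneg_right h1 (Real.exp_pos ((1 - del l) * l)).le
    unfold Mb
    linarith
  · have : Real.exp (-(c * Real.sqrt (l - 2))) ≤ ε / 9 := by
      calc Real.exp (-(c * Real.sqrt (l - 2))) ≤ Real.exp (-(Real.log (9 / ε))) :=
            Real.exp_le_exp.mpr (by linarith)
        _ = ε / 9 := by rw [Real.exp_neg, Real.exp_log (by positivity), inv_div]
    linarith
  · -- the primes below `√y`
    have h1 : 6 * (|Real.log (ε / 6)| + 3) ≤ Real.exp (l - 4) := by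
      rw [← Real.exp_log (show (0 : ℝ) < 6 * (|Real.log (ε / 6)| + 3) by positivity)]
      exact Real.exp_le_exp.mpr (by linarith)
    have h2 : 20 * Real.exp (l - 4) ≤ Real.exp (l - 1) := by
      rw [show l - 1 = (l - 4) + 3 by ring, Real.exp_add, mul_comm]
      refine mul_le_mul_of_nonneg_left ?_ (Real.exp_pos _).le
      rw [show (3 : ℝ) = 1 + 1 + 1 by norm_num, Real.exp_add, Real.exp_add]
      have := Real.exp_one_gt_d9
      nlinarith [mul_le_mul this.le this.le (by norm_num) (Real.exp_pos 1).le]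
    have h3 : l + 1 ≤ Real.exp (l - 4) + 6 := by linarith [Real.add_one_le_exp (l - 4)]
    calc 2 * Real.exp (l + 1) * Real.exp (-(Real.exp (l - 1)) / 3)
        = 2 * Real.exp (l + 1 + -(Real.exp (l - 1)) / 3) := by rw [mul_assoc, ← Real.exp_add]
      _ ≤ 2 * Real.exp (Real.log (ε / 6)) := by
          refine mul_le_mul_of_nonneg_left (Real.exp_le_exp.mpr ?_) (by norm_num)
          linarith [neg_abs_le (Real.log (ε / 6))]
      _ = ε / 3 := by rw [Real.exp_log (by positivity)]; ring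
  · -- the collision exponent
    have a4 : coll l C C₀ ≤ -(U / 2) :=
      coll_neg hl hLdef hL8 hdl hU10 hC hC₀ hlC hT hG hkey
    calc 2 * Real.exp (coll l C C₀) ≤ 2 * Real.exp (Real.log (ε / 6)) := by
          refine mul_le_mul_of_nonneg_left (Real.exp_le_exp.mpr ?_) (by norm_num)
          linarith [neg_abs_le (Real.log (ε / 6))]
      _ = ε / 3 := by rw [Real.exp_log (by positivity)]; ring

/-! ### Representations -/

/-- The properties of a representation of `m`. -/
structure Rep (l : ℝ) (m : ℕ) (S : Finset ℕ) (b : ℕ) : Prop where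
  card : S.card ≤ Kp l
  normal : ∀ s ∈ S, Normal s
  low : ∀ s ∈ S, Zp l / 256 < X s
  high : ∀ s ∈ S, X s ≤ (1 - del l) * l
  hv : ∀ (n : ℕ) (q : Fin n → ℕ), StrictAnti q → (∀ i, q i ∈ S) →
    hvec (fun i => X (q i)) ≤ (1 - del l) * l
  bpos : 1 ≤ b
  ndvd : ∀ s ∈ S, ¬ s ∣ b
  bprimes : ∀ s : ℕ, s.Prime → s ∣ b → X s ≤ Zp l
  omega : (ArithmeticFunction.cardFactors b.totient : ℝ) ≤ Bp l
  eq : m = (∏ s ∈ S, (s - 1)) * b.totient

lemma exists_rep {l : ℝ} (hZ : 0 ≤ Zp l) {m : ℕ} (hm : InM l m) : ∃ S b, Rep l m S b := by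
  obtain ⟨k, hk, p, hanti, hp, htop, b, hb1, hbnd, hbp, hbΩ, hmeq⟩ := hm
  have h2 : ∀ i, 2 ≤ p i := fun i => (hp i).1.1.two_le
  refine ⟨Finset.univ.image p, b, ⟨?_, ?_, ?_, ?_, ?_, hb1, ?_, hbp, hbΩ, ?_⟩⟩
  · rw [Finset.card_image_of_injective _ hanti.injective, Finset.card_univ, Fintype.card_fin]
    exact hk
  · simp only [Finset.forall_mem_image]; exact fun i _ => (hp i).1
  · simp only [Finset.forall_mem_image]; exact fun i _ => (hp i).2
  · simp only [Finset.forall_mem_image]; exact fun i _ => htop.2 i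
  · intro n q hq hmem
    refine (hvec_sub hanti h2 (fun i => ?_) hq fun i => ?_).trans htop.1
    · linarith [(hp i).2]
    · obtain ⟨j, -, hj⟩ := Finset.mem_image.mp (hmem i)
      exact ⟨j, hj⟩
  · simp only [Finset.forall_mem_image]; exact fun i _ => hbnd i
  · rw [hmeq, Finset.prod_image fun i _ j _ h => hanti.injective h]

lemma mem_MF_inM {l : ℝ} {m : ℕ} (hm : m ∈ MF l) :
    InM l m ∧ (m : ℝ) ≤ Real.exp (Mb l) := by
  rw [MF, Finset.mem_filter, Finset.mem_range, Nat.lt_succ_iff] at hm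
  exact ⟨hm.2, (Nat.cast_le.mpr hm.1).trans (Nat.floor_le (Real.exp_nonneg _))⟩

lemma one_mem {l : ℝ} (hl : 1 ≤ l) (hB : 0 ≤ Bp l) : 1 ∈ MF l := by
  have hdel : del l ≤ 1 := Real.rpow_le_one_of_one_le_of_nonpos hl (by norm_num)
  rw [MF, Finset.mem_filter, Finset.mem_range]
  refine ⟨Nat.lt_succ_of_le (Nat.le_floor ?_), 0, Nat.zero_le _, ![], fun i => Fin.elim0 i,
    fun i => Fin.elim0 i, ⟨?_, fun i => Fin.elim0 i⟩, 1, le_rfl, fun i => Fin.elim0 i,
    fun s hs h => absurd (Nat.le_of_dvd one_pos h) (by have := hs.two_le; omega), ?_, ?_⟩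
  · rw [Nat.cast_one]
    exact Real.one_le_exp (mul_nonneg
      (mul_nonneg zero_le_two (by linarith [Nat.cast_nonneg (α := ℝ) (Kp l)])) (Real.exp_nonneg _))
  · simp only [hvec, Finset.univ_eq_empty, Finset.sum_empty]
    exact mul_nonneg (by linarith) (by linarith)
  · simpa using hB
  · simp

/-! ### Collisions -/

/-- The unordered data of a point of the collision count. -/
abbrev Code : Type := (Finset ℕ × Finset ℕ) × (ℕ × ℕ) × Finset ℕ

/-- Pairs of pairs `(m, p)` with equal value, coded after cancelling common primes. -/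
lemma pairs_le {l C C₀ e₀ c ε : ℝ} (H : Cond l C C₀ e₀ c ε) (hC : 0 ≤ C)
    (hcoll : ∀ (a b K Zb B e : ℕ) (y D : ℝ), 1 ≤ b → a ≤ K → b ≤ K → 16 ≤ y →
      ((collSet a b Zb B e y D).ncard : ℝ) ≤ y * Real.exp (-(e : ℝ) - D +
        C * ((K : ℝ) ^ 3 * Real.log ((e : ℝ) + Real.log (Real.log y) + K + 3) +
          (K : ℝ) * Real.log ((K : ℝ) + 2) * (T0 e + Zb + B + 1))))
    (hwin : (∑ s ∈ window (Zp l / 256) (l + 2), ((s : ℝ) - 1)⁻¹) + 1 ≤ 2 * l + C₀)
    {y : ℝ} (hy : 16 ≤ y) (hl : |Real.log (Real.log y) - l| ≤ 1)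
    (G : Finset (ℕ × ℕ))
    (hG : ∀ x ∈ G, x.1 ∈ MF l ∧ Normal x.2 ∧ Real.sqrt y < x.2 ∧ (((x.2 - 1) * x.1 : ℕ) : ℝ) ≤ y) :
    (((G ×ˢ G).filter fun w => (w.1.2 - 1) * w.1.1 = (w.2.2 - 1) * w.2.1 ∧ w.1.2 < w.2.2).card : ℝ)
      ≤ y / Real.log y * Real.exp (coll l C C₀) := by
  set Pr := (G ×ˢ G).filter fun w => (w.1.2 - 1) * w.1.1 = (w.2.2 - 1) * w.2.1 ∧ w.1.2 < w.2.2
    with hPr
  have hl16 := H.l16
  have hZ := H.Z256
  have hdl := H.dl
  have hy0 : 0 < y := by linarith
  have hlog : 0 < Real.log y := Real.log_pos (by linarith)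
  obtain ⟨hl1, hl2⟩ := abs_le.mp hl
  have hlog2 : Real.log 2 ≤ 1 := by linarith [Real.log_le_sub_one_of_pos (zero_lt_two' ℝ)]
  -- the large prime
  have hbig : ∀ x ∈ G, 2 ≤ x.2 ∧ l - 2 ≤ X x.2 ∧ X x.2 ≤ l + 2 := by
    intro x hx
    obtain ⟨hm, hn, hsq, hv⟩ := hG x hx
    obtain ⟨S, b, hR⟩ := exists_rep (by linarith) (mem_MF_inM hm).1
    have hm1 : 1 ≤ x.1 := by
      rw [hR.eq]
      exact Nat.one_le_iff_ne_zero.mpr (mul_ne_zero
        (Finset.prod_ne_zero_iff.mpr fun s hs => by have := (hR.normal s hs).1.two_le; omega)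
        (Nat.totient_pos.mpr hR.bpos).ne')
    have h2 := hn.1.two_le
    have hp1 : ((x.2 - 1 : ℕ) : ℝ) ≤ y :=
      le_trans (Nat.cast_le.mpr (Nat.le_mul_of_pos_right _ hm1)) hv
    rw [Nat.cast_sub (by omega)] at hp1
    push_cast at hp1
    have hsq0 : 0 < Real.sqrt y := Real.sqrt_pos.mpr hy0
    have hsl : Real.log (Real.sqrt y) = Real.log y / 2 := Real.log_sqrt hy0.le
    refine ⟨h2, ?_, ?_⟩
    · have h3 : Real.log y / 2 ≤ Real.log x.2 := hsl ▸ Real.log_le_log hsq0 hsq.le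
      have h4 := Real.log_le_log (by linarith) h3
      rw [Real.log_div hlog.ne' two_ne_zero] at h4
      unfold X
      linarith
    · have hx0 : (1 : ℝ) < x.2 := by exact_mod_cast h2
      have h3 : Real.log x.2 ≤ 2 * Real.log y := by
        rw [show (2 : ℝ) * Real.log y = Real.log (y * y) by rw [Real.log_mul hy0.ne' hy0.ne']; ring]
        exact Real.log_le_log (by linarith) (by nlinarith)
      have h4 := Real.log_le_log (Real.log_pos hx0) h3
      rw [Real.log_mul two_ne_zero hlog.ne'] at h4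
      unfold X
      linarith
  -- representations
  have hex : ∀ m : ℕ, ∃ (S : Finset ℕ) (b : ℕ), m ∈ MF l → Rep l m S b := fun m => by
    by_cases hm : m ∈ MF l
    · obtain ⟨S, b, h⟩ := exists_rep (by linarith) (mem_MF_inM hm).1
      exact ⟨S, b, fun _ => h⟩
    · exact ⟨∅, 0, fun h => absurd h hm⟩
  choose RS Rb hR using hex
  set S : ℕ × ℕ → Finset ℕ := fun x => insert x.2 (RS x.1) with hS
  set d : ℕ × ℕ → ℕ := fun x => (Rb x.1).totient with hd
  have hlt : ∀ x ∈ G, ∀ s ∈ RS x.1, s < x.2 := by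
    intro x hx s hs
    have h1 := (hR x.1 (hG x hx).1).high s hs
    by_contra hh
    have := X_mono (hbig x hx).1 (not_lt.mp hh)
    linarith [(hbig x hx).2.1]
  have hfacts : ∀ x ∈ G, x.2 ∉ RS x.1 ∧ (S x).card ≤ Kp l + 1 ∧
      (∀ s ∈ S x, Normal s ∧ Zp l / 256 < X s ∧ X s ≤ l + 2 ∧ s ≤ x.2) ∧
      (∏ s ∈ S x, (s - 1)) * d x = (x.2 - 1) * x.1 := by
    intro x hx
    have hr := hR x.1 (hG x hx).1
    have hnot : x.2 ∉ RS x.1 := fun h => lt_irrefl _ (hlt x hx _ h)
    refine ⟨hnot, ?_, ?_, ?_⟩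
    · exact (Finset.card_insert_le _ _).trans (Nat.succ_le_succ hr.card)
    · intro s hs
      rcases Finset.mem_insert.mp hs with rfl | hs
      · obtain ⟨_, h1, h2⟩ := hbig x hx
        exact ⟨(hG x hx).2.1, by linarith [H.Zl], h2, le_rfl⟩
      · exact ⟨hr.normal s hs, hr.low s hs, by linarith [hr.high s hs], (hlt x hx s hs).le⟩
    · simp only [hS, hd]
      rw [Finset.prod_insert hnot, mul_assoc, ← hr.eq]
  -- the keys
  set W := window (Zp l / 256) (l + 2) with hW
  have hmemW : ∀ x ∈ G, S x ⊆ W := by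
    intro x hx s hs
    obtain ⟨hn, hlo, hhi, -⟩ := (hfacts x hx).2.2.1 s hs
    rw [hW, window, Finset.mem_filter, Finset.mem_range]
    refine ⟨Nat.lt_succ_of_le (Nat.le_floor ?_), hn.1, hlo, hhi⟩
    have hs1 : (1 : ℝ) < s := by exact_mod_cast hn.1.one_lt
    rw [← Real.exp_log (by linarith : (0 : ℝ) < (s : ℝ)), Real.exp_le_exp,
      ← exp_X hn.1.two_le, Real.exp_le_exp]
    exact hhi
  set K := Kp l + 1 with hK
  set Ne := ⌈l⌉₊ + 4 with hNe
  set keys := (W.powerset.filter fun I => I.card ≤ K) ×ˢ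
    (Finset.range (K + 1) ×ˢ Finset.range (K + 1) ×ˢ Finset.range Ne) with hkeys
  set key : (ℕ × ℕ) × (ℕ × ℕ) → Finset ℕ × (ℕ × ℕ × ℕ) := fun w =>
    (S w.1 ∩ S w.2, ((S w.1 \ S w.2).card, (S w.2 \ S w.1).card, cell w.2.2)) with hkey
  have hmaps : ∀ w ∈ Pr, key w ∈ keys := by
    intro w hw
    rw [hPr, Finset.mem_filter, Finset.mem_product] at hw
    obtain ⟨⟨h1, h2⟩, -, -⟩ := hw
    have c1 := (hfacts _ h1).2.1
    have c2 := (hfacts _ h2).2.1
    simp only [hkeys, hkey, Finset.mem_product, Finset.mem_filter, Finset.mem_powerset,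
      Finset.mem_range]
    refine ⟨⟨Finset.inter_subset_left.trans (hmemW _ h1), ?_⟩, ?_, ?_, ?_⟩
    · exact (Finset.card_le_card Finset.inter_subset_left).trans c1
    · exact Nat.lt_succ_of_le ((Finset.card_le_card Finset.sdiff_subset).trans c1)
    · exact Nat.lt_succ_of_le ((Finset.card_le_card Finset.sdiff_subset).trans c2)
    · have h3 : cell w.2.2 ≤ ⌈l + 2⌉₊ := Nat.ceil_mono (hbig _ h2).2.2
      have h4 : ⌈l + 2⌉₊ = ⌈l⌉₊ + 2 := by
        have := Nat.ceil_add_natCast (show 0 ≤ l by linarith) 2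
        simpa using this
      omega
  -- one fibre
  set Zb := ⌈Zp l⌉₊ with hZb
  set B := ⌊Bp l⌋₊ with hB
  set D := del l * l - 2 with hD
  set E := C * ((K : ℝ) ^ 3 * Real.log (4 * l) +
      (K : ℝ) * Real.log ((K : ℝ) + 2) * (2 * l ^ (3 / 4 : ℝ) + (Zp l + 1) + Bp l + 1)) with hE
  have hfib : ∀ q ∈ keys, ((Pr.filter fun w => key w = q).card : ℝ) ≤
      y / Real.log y * Real.exp (3 - D + E) * ∏ s ∈ q.1, ((s : ℝ) - 1)⁻¹ := by
    rintro ⟨I, a, b, e⟩ hq
    simp only [hkeys, Finset.mem_product, Finset.mem_filter, Finset.mem_powerset,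
      Finset.mem_range] at hq
    obtain ⟨⟨hIW, hIK⟩, ha, hb, he⟩ := hq
    have hW2 : ∀ s ∈ I, s.Prime ∧ 0 < ((s : ℝ) - 1) := by
      intro s hs
      have h := hIW hs
      rw [hW, window, Finset.mem_filter] at h
      have : (1 : ℝ) < s := by exact_mod_cast h.2.1.one_lt
      exact ⟨h.2.1, by linarith⟩
    set Pt := ∏ s ∈ I, ((s : ℝ) - 1) with hPt
    have hPt0 : 0 < Pt := Finset.prod_pos fun s hs => (hW2 s hs).2
    have hinv : ∏ s ∈ I, ((s : ℝ) - 1)⁻¹ = Pt⁻¹ := Finset.prod_inv_distrib ..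
    rw [hinv]
    set F := Pr.filter fun w => key w = (I, a, b, e) with hF
    rcases F.eq_empty_or_nonempty with h0 | ⟨w₀, hw₀⟩
    · rw [h0]; simp; positivity
    set g : (ℕ × ℕ) × (ℕ × ℕ) → ((Fin a → ℕ) × (Fin b → ℕ)) × (ℕ × ℕ) := fun w =>
      ((dec (S w.1 \ S w.2) a, dec (S w.2 \ S w.1) b), (d w.1, d w.2)) with hg
    have main : ∀ w ∈ F, g w ∈ collSet a b Zb B e (y / Pt) D ∧ 1 ≤ b ∧ e = cell w.2.2 ∧
        16 ≤ y / Pt := by
      intro w hw
      rw [hF, Finset.mem_filter, hPr, Finset.mem_filter, Finset.mem_product] at hw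
      obtain ⟨⟨⟨h1, h2⟩, hval, hlt12⟩, hk⟩ := hw
      simp only [hkey, Prod.mk.injEq] at hk
      obtain ⟨hI, hca, hcb, hce⟩ := hk
      obtain ⟨-, -, f1, g1⟩ := hfacts _ h1
      obtain ⟨-, -, f2, g2⟩ := hfacts _ h2
      have hnot : w.2.2 ∉ S w.1 := fun h => by have := (f1 _ h).2.2.2; omega
      have hqQ : w.2.2 ∈ S w.2 \ S w.1 :=
        Finset.mem_sdiff.mpr ⟨Finset.mem_insert_self _ _, hnot⟩
      have hb1 : 1 ≤ b := hcb ▸ Finset.card_pos.mpr ⟨_, hqQ⟩
      set P := S w.1 \ S w.2 with hP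
      set Q := S w.2 \ S w.1 with hQ
      have split1 : ∏ s ∈ S w.1, (s - 1) = (∏ s ∈ P, (s - 1)) * ∏ s ∈ I, (s - 1) := by
        rw [← hI, hP, ← Finset.prod_union (Finset.disjoint_sdiff_inter _ _),
          Finset.sdiff_union_inter]
      have split2 : ∏ s ∈ S w.2, (s - 1) = (∏ s ∈ Q, (s - 1)) * ∏ s ∈ I, (s - 1) := by
        rw [← hI, hQ, Finset.inter_comm, ← Finset.prod_union (Finset.disjoint_sdiff_inter _ _),
          Finset.sdiff_union_inter]
      have hIpos : 0 < ∏ s ∈ I, (s - 1) :=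
        Finset.prod_pos fun s hs => Nat.sub_pos_of_lt (hW2 s hs).1.one_lt
      have hPte : ((∏ s ∈ I, (s - 1) : ℕ) : ℝ) = Pt := by
        rw [hPt, Nat.cast_prod]
        exact Finset.prod_congr rfl fun s hs => by
          rw [Nat.cast_sub (hW2 s hs).1.one_lt.le, Nat.cast_one]
      have heq : (∏ s ∈ P, (s - 1)) * d w.1 = (∏ s ∈ Q, (s - 1)) * d w.2 := by
        have h := g1.trans (hval.trans g2.symm)
        rw [split1, split2] at h
        exact Nat.eq_of_mul_eq_mul_left hIpos (by linarith)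
      have hle : (((∏ s ∈ Q, (s - 1)) * d w.2 : ℕ) : ℝ) ≤ y / Pt := by
        rw [le_div_iff₀ hPt0, ← hPte, ← Nat.cast_mul]
        refine le_trans (le_of_eq ?_) (hG _ h2).2.2.2
        rw [← g2, split2]
        push_cast
        ring
      have hr1 := hR w.1.1 (hG _ h1).1
      have hr2 := hR w.2.1 (hG _ h2).1
      have hcell : ∀ s : ℕ, Zp l / 256 < X s → 1 ≤ cell s := fun s hs =>
        Nat.ceil_pos.mpr (by linarith)
      have hsmall : ∀ x ∈ G, 1 ≤ d x ∧ ArithmeticFunction.cardFactors (d x) ≤ B ∧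
          ∀ s : ℕ, s.Prime → s ∣ d x → cell s ≤ Zb := by
        intro x hx
        have hr := hR x.1 (hG x hx).1
        refine ⟨Nat.totient_pos.mpr hr.bpos, Nat.le_floor hr.omega, fun s hs hsd => ?_⟩
        obtain ⟨t, ht, htb, hst⟩ := prime_dvd_totient (by have := hr.bpos; omega) hs hsd
        exact Nat.ceil_mono ((X_mono hs.two_le hst).trans (hr.bprimes t ht htb))
      refine ⟨?_, hb1, hce.symm, ?_⟩
      · simp only [hg, collSet, Set.mem_ofPred_eq]
        refine ⟨dec_anti hca, dec_anti hcb, ?_, ?_, ?_, ?_, (hsmall _ h1).1, (hsmall _ h2).1,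
          (hsmall _ h1).2.2, (hsmall _ h2).2.2, (hsmall _ h1).2.1, (hsmall _ h2).2.1, ?_, ?_⟩
        · intro i j h
          exact (Finset.mem_sdiff.mp (dec_mem hcb j)).2
            (h ▸ (Finset.mem_sdiff.mp (dec_mem hca i)).1)
        · intro i
          have := f1 _ (Finset.mem_sdiff.mp (dec_mem hca i)).1
          exact ⟨this.1, hcell _ this.2.1⟩
        · intro j
          have := f2 _ (Finset.mem_sdiff.mp (dec_mem hcb j)).1
          exact ⟨this.1, hcell _ this.2.1⟩
        · intro j hj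
          have htopel : dec Q b j = w.2.2 := by
            refine le_antisymm ((f2 _ (Finset.mem_sdiff.mp (dec_mem hcb j)).1).2.2.2) ?_
            obtain ⟨i, -, hi⟩ := Finset.mem_image.mp ((dec_image hcb).symm ▸ hqQ)
            rw [← hi]
            exact (dec_anti hcb).antitone (Fin.mk_le_mk.mpr (by omega))
          refine ⟨htopel ▸ hce, fun i => ?_, ?_⟩
          · rw [htopel]
            exact lt_of_le_of_lt (f1 _ (Finset.mem_sdiff.mp (dec_mem hca i)).1).2.2.2 hlt12
          obtain ⟨b', rfl⟩ : ∃ b', b = b' + 1 := ⟨b - 1, by omega⟩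
          have hj0 : j = 0 := Fin.ext hj
          subst hj0
          rw [Fin.sum_univ_succ]
          simp only [Fin.val_zero, lt_irrefl, if_false, zero_add, Fin.val_succ, Nat.succ_pos,
            if_true]
          have hmem : ∀ i : Fin b', dec Q (b' + 1) i.succ ∈ RS w.2.1 := by
            intro i
            have h' := (Finset.mem_sdiff.mp (dec_mem hcb i.succ)).1
            rcases Finset.mem_insert.mp h' with h'' | h''
            · have := (dec_anti hcb) (Fin.succ_pos i)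
              rw [htopel] at this
              omega
            · exact h''
          have hh := hr2.hv b' (fun i => dec Q (b' + 1) i.succ)
            (fun i j hij => dec_anti hcb (Fin.succ_lt_succ_iff.mpr hij)) hmem
          unfold hvec at hh
          rw [htopel]
          linarith [(hbig _ h2).2.1]
        · rw [dec_prod hca (fun s => s - 1), dec_prod hcb (fun s => s - 1)]
          exact heq
        · rw [dec_prod hcb (fun s => s - 1)]
          exact hle
      · refine le_trans ?_ hle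
        have h16 : w.2.2 - 1 ≤ (∏ s ∈ Q, (s - 1)) * d w.2 :=
          le_trans (Finset.single_le_prod' (f := fun s => s - 1) (fun s hs => Nat.sub_pos_of_lt
            (f2 s (Finset.mem_sdiff.mp hs).1).1.1.one_lt) hqQ)
            (Nat.le_mul_of_pos_right _ (hsmall _ h2).1)
        have hX := (hbig _ h2).2.1
        have h17 : (17 : ℝ) ≤ w.2.2 := by
          by_contra hcon
          rw [not_le] at hcon
          have hw2 : (1 : ℝ) < w.2.2 := by exact_mod_cast (hbig _ h2).1
          have e1 : Real.log w.2.2 ≤ 16 :=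
            (Real.log_le_sub_one_of_pos (by linarith)).trans (by linarith)
          have e2 : X w.2.2 ≤ Real.log 16 := Real.log_le_log (Real.log_pos hw2) e1
          have e3 : Real.log 16 ≤ 4 := by
            rw [show (16 : ℝ) = 2 ^ 4 by norm_num, Real.log_pow]
            push_cast
            linarith
          linarith
        have h18 : (16 : ℕ) ≤ w.2.2 - 1 := by
          have : (17 : ℕ) ≤ w.2.2 := by exact_mod_cast h17
          omega
        exact_mod_cast h18.trans h16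
    obtain ⟨-, hb1, he0, h16⟩ := main w₀ hw₀
    have hinj : Set.InjOn g (F : Set ((ℕ × ℕ) × (ℕ × ℕ))) := by
      intro u hu v hv huv
      rw [Finset.mem_coe, hF, Finset.mem_filter, hPr, Finset.mem_filter, Finset.mem_product]
        at hu hv
      simp only [hkey, Prod.mk.injEq] at hu hv
      obtain ⟨⟨⟨u1, u2⟩, uval, -⟩, uI, uca, ucb, -⟩ := hu
      obtain ⟨⟨⟨v1, v2⟩, vval, -⟩, vI, vca, vcb, -⟩ := hv
      simp only [hg, Prod.mk.injEq] at huv
      obtain ⟨⟨eP, eQ⟩, ed1, ed2⟩ := huv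
      have eS1 : S u.1 = S v.1 := by
        rw [← Finset.sdiff_union_inter (S u.1) (S u.2), uI,
          ← Finset.sdiff_union_inter (S v.1) (S v.2), vI, ← dec_image uca, ← dec_image vca, eP]
      have eS2 : S u.2 = S v.2 := by
        rw [← Finset.sdiff_union_inter (S u.2) (S u.1), Finset.inter_comm, uI,
          ← Finset.sdiff_union_inter (S v.2) (S v.1), Finset.inter_comm, vI, ← dec_image ucb,
          ← dec_image vcb, eQ]
      have det : ∀ x ∈ G, ∀ x' ∈ G, S x = S x' → d x = d x' → x = x' := by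
        intro x hx x' hx' hSS hdd
        have hp : x.2 = x'.2 := le_antisymm
          ((hfacts x' hx').2.2.1 _ (hSS ▸ Finset.mem_insert_self _ _)).2.2.2
          ((hfacts x hx).2.2.1 _ (hSS.symm ▸ Finset.mem_insert_self _ _)).2.2.2
        have hv1 := (hfacts x hx).2.2.2
        rw [hSS, hdd, (hfacts x' hx').2.2.2, hp] at hv1
        exact Prod.ext (Nat.eq_of_mul_eq_mul_left
          (Nat.sub_pos_of_lt (hbig x' hx').1) hv1).symm hp
      exact Prod.ext (det _ u1 _ v1 eS1 ed1) (det _ u2 _ v2 eS2 ed2)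
    have hcard : F.card ≤ (collSet a b Zb B e (y / Pt) D).ncard := by
      rw [← Set.ncard_coe_finset]
      exact Set.ncard_le_ncard_of_injOn g (fun w hw => (main w hw).1) hinj
        (collSet_finite ..)
    refine le_trans (Nat.cast_le.mpr hcard) ((hcoll a b K Zb B e (y / Pt) D hb1
      (Nat.lt_succ_iff.mp ha) (Nat.lt_succ_iff.mp hb) h16).trans ?_)
    -- estimate the exponent
    have hw2mem : w₀.2 ∈ G := by
      rw [hF, Finset.mem_filter, hPr, Finset.mem_filter, Finset.mem_product] at hw₀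
      exact hw₀.1.1.2
    have hXe : l - 2 ≤ (e : ℝ) := by
      rw [he0]; exact (hbig _ hw2mem).2.1.trans (X_le_cell _)
    have hee : (e : ℝ) ≤ l + 3 := by
      rw [he0]
      refine (cell_le_X_add_one (Nat.ceil_pos.mpr ?_)).trans ?_
      · linarith [(hbig _ hw2mem).2.1]
      · linarith [(hbig _ hw2mem).2.2]
    have hPt1 : 1 ≤ Pt := Finset.one_le_prod fun s hs => by
      have : (2 : ℝ) ≤ s := by exact_mod_cast (hW2 s hs).1.two_le
      linarith
    have hlly : Real.log (Real.log (y / Pt)) ≤ l + 1 := by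
      have h1 : Real.log (y / Pt) ≤ Real.log y :=
        Real.log_le_log (by positivity) (div_le_self hy0.le hPt1)
      linarith [Real.log_le_log (Real.log_pos (by linarith)) h1]
    have hlly0 : 0 ≤ Real.log (Real.log (y / Pt)) := by
      refine Real.log_nonneg ((Real.le_log_iff_exp_le (by linarith)).mpr ?_)
      linarith [Real.exp_one_lt_d9]
    have hK1 : (K : ℝ) ≤ l := by
      have h1 : (Kp l : ℝ) ≤ Lg l ^ 2 := Nat.floor_le (sq_nonneg _)
      have h2 : Lg l ^ 2 ≤ Zp l := by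
        have hLg1 : 1 ≤ Lg l := by
          unfold Lg
          rw [Real.le_log_iff_exp_le (by linarith)]
          linarith [Real.exp_one_lt_d9]
        rw [Zp]
        exact pow_le_pow_right₀ hLg1 (by norm_num)
      rw [hK]; push_cast
      linarith [H.Zl]
    have hK0 : (0 : ℝ) ≤ (K : ℝ) := Nat.cast_nonneg K
    have hbr : (K : ℝ) ^ 3 * Real.log ((e : ℝ) + Real.log (Real.log (y / Pt)) + K + 3) +
        (K : ℝ) * Real.log ((K : ℝ) + 2) * (T0 e + Zb + B + 1) ≤
        (K : ℝ) ^ 3 * Real.log (4 * l) +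
        (K : ℝ) * Real.log ((K : ℝ) + 2) * (2 * l ^ (3 / 4 : ℝ) + (Zp l + 1) + Bp l + 1) := by
      refine add_le_add (mul_le_mul_of_nonneg_left (Real.log_le_log ?_ ?_) (by positivity))
        (mul_le_mul_of_nonneg_left ?_ (mul_nonneg hK0 (Real.log_nonneg (by linarith))))
      · linarith
      · linarith
      · have t1 : T0 e ≤ 2 * l ^ (3 / 4 : ℝ) := by
          unfold T0
          calc (e : ℝ) ^ (3 / 4 : ℝ) ≤ (2 * l) ^ (3 / 4 : ℝ) :=
                Real.rpow_le_rpow (Nat.cast_nonneg e) (by linarith) (by norm_num)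
            _ = (2 : ℝ) ^ (3 / 4 : ℝ) * l ^ (3 / 4 : ℝ) := Real.mul_rpow (by norm_num) (by linarith)
            _ ≤ 2 * l ^ (3 / 4 : ℝ) := mul_le_mul_of_nonneg_right
                (Real.rpow_le_self_of_one_le (by norm_num) (by norm_num))
                (Real.rpow_nonneg (by linarith) _)
        have t2 : (Zb : ℝ) ≤ Zp l + 1 := (Nat.ceil_lt_add_one (by linarith)).le
        have t3 : (B : ℝ) ≤ Bp l := Nat.floor_le H.ZB
        linarith
    have hyl : Real.log y ≤ Real.exp (l + 1) := by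
      rw [← Real.exp_log hlog]
      exact Real.exp_le_exp.mpr (by linarith)
    have hexp : Real.exp (-(e : ℝ) - D + C * ((K : ℝ) ^ 3 *
        Real.log ((e : ℝ) + Real.log (Real.log (y / Pt)) + K + 3) +
        (K : ℝ) * Real.log ((K : ℝ) + 2) * (T0 e + Zb + B + 1)))
        ≤ Real.exp (-(l + 1)) * Real.exp (3 - D + E) := by
      rw [← Real.exp_add, Real.exp_le_exp, hE]
      have := mul_le_mul_of_nonneg_left hbr hC
      linarith
    have hinvlog : Real.exp (-(l + 1)) ≤ (Real.log y)⁻¹ := by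
      rw [Real.exp_neg]
      exact inv_anti₀ hlog hyl
    calc y / Pt * _ ≤ y / Pt * ((Real.log y)⁻¹ * Real.exp (3 - D + E)) :=
          mul_le_mul_of_nonneg_left (hexp.trans
            (mul_le_mul_of_nonneg_right hinvlog (Real.exp_pos _).le)) (by positivity)
      _ = _ := by ring
  -- add up the fibres
  rw [Finset.card_eq_sum_card_fiberwise hmaps, Nat.cast_sum]
  refine (Finset.sum_le_sum hfib).trans ?_
  rw [← Finset.mul_sum]
  have hw0 : ∀ s ∈ W, 0 ≤ ((s : ℝ) - 1)⁻¹ := fun s hs => by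
    rw [hW, window, Finset.mem_filter] at hs
    have : (1 : ℝ) ≤ s := by exact_mod_cast hs.2.1.one_lt.le
    exact inv_nonneg.mpr (by linarith)
  have hsum : ∑ q ∈ keys, ∏ s ∈ q.1, ((s : ℝ) - 1)⁻¹ ≤
      3 * (2 * l + C₀) ^ K * (((K : ℝ) + 1) ^ 2 * (l + 6)) := by
    rw [hkeys, Finset.sum_product]
    simp only [Finset.sum_const, Finset.card_product, Finset.card_range, nsmul_eq_mul]
    rw [← Finset.mul_sum]
    push_cast
    have hne : (Ne : ℝ) ≤ l + 6 := by
      rw [hNe]; push_cast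
      linarith [Nat.ceil_lt_add_one (show 0 ≤ l by linarith)]
    have hs0 : 0 ≤ ∑ s ∈ W, ((s : ℝ) - 1)⁻¹ := Finset.sum_nonneg hw0
    have h3 := sum_small_subsets W _ hw0 K (S := ∑ s ∈ W, ((s : ℝ) - 1)⁻¹) le_rfl
    have h4 : ((∑ s ∈ W, ((s : ℝ) - 1)⁻¹) + 1) ^ K ≤ (2 * l + C₀) ^ K :=
      pow_le_pow_left₀ (by linarith) hwin K
    have h5 : 0 ≤ ((K : ℝ) + 1) * (((K : ℝ) + 1) * (Ne : ℝ)) := by positivity
    calc ((K : ℝ) + 1) * (((K : ℝ) + 1) * (Ne : ℝ)) * _
        ≤ ((K : ℝ) + 1) * (((K : ℝ) + 1) * (Ne : ℝ)) * (3 * (2 * l + C₀) ^ K) :=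
          mul_le_mul_of_nonneg_left (h3.trans (by linarith)) h5
      _ ≤ ((K : ℝ) + 1) * (((K : ℝ) + 1) * (l + 6)) * (3 * (2 * l + C₀) ^ K) := by
          have h7 : 0 ≤ 2 * l + C₀ := by linarith
          gcongr
      _ = _ := by ring
  refine (mul_le_mul_of_nonneg_left hsum (by positivity)).trans (le_of_eq ?_)
  rw [mul_assoc]
  congr 1
  have hpos : 0 < 2 * l + C₀ := by
    linarith [Finset.sum_nonneg hw0]
  have e1 : coll l C C₀ = (3 - D + E) +
      (Real.log 3 + (K : ℝ) * Real.log (2 * l + C₀) + Real.log (((K : ℝ) + 1) ^ 2) +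
        Real.log (l + 6)) := by
    unfold coll
    rw [hE, hD, hK]
    push_cast
    ring_nf
  rw [e1, Real.exp_add (3 - D + E), Real.exp_add (_ + _ + _), Real.exp_add (_ + _),
    Real.exp_add (Real.log 3),
    Real.exp_log (by norm_num : (0 : ℝ) < 3),
    Real.exp_log (by positivity : (0 : ℝ) < ((K : ℝ) + 1) ^ 2),
    Real.exp_log (by linarith : (0 : ℝ) < l + 6), Real.exp_nat_mul, Real.exp_log hpos]
  ring

/-- The estimate for one `l` and `y`. -/
theorem lower_aux {l C C₀ e₀ c ε : ℝ} (H : Cond l C C₀ e₀ c ε) (hC : 0 ≤ C) (hε : 0 < ε)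
    (hc : 0 < c)
    (hab : ∀ P : ℝ, 16 ≤ P → e₀ ≤ Real.log (Real.log P) →
      (((Finset.range (⌊P⌋₊ + 1)).filter fun p : ℕ => p.Prime ∧ ¬Normal p).card : ℝ)
        ≤ P / Real.log P * Real.exp (-(c * Real.sqrt (Real.log (Real.log P)))))
    (hcoll : ∀ (a b K Zb B e : ℕ) (y D : ℝ), 1 ≤ b → a ≤ K → b ≤ K → 16 ≤ y →
      ((collSet a b Zb B e y D).ncard : ℝ) ≤ y * Real.exp (-(e : ℝ) - D +
        C * ((K : ℝ) ^ 3 * Real.log ((e : ℝ) + Real.log (Real.log y) + K + 3) +
          (K : ℝ) * Real.log ((K : ℝ) + 2) * (T0 e + Zb + B + 1))))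
    (hwin : (∑ s ∈ window (Zp l / 256) (l + 2), ((s : ℝ) - 1)⁻¹) + 1 ≤ 2 * l + C₀)
    {y : ℝ} (hy : 16 ≤ y) (hl : |Real.log (Real.log y) - l| ≤ 1) :
    (∑ m ∈ MF l, (Nat.primeCounting ⌊y / m + 1⌋₊ : ℝ))
      ≤ (V y : ℝ) + ε * (y / Real.log y) * A l := by
  have hl16 := H.l16
  have hy0 : 0 < y := by linarith
  obtain ⟨hl1, hl2⟩ := abs_le.mp hl
  have hlogpos : 0 < Real.log y := Real.log_pos (by linarith)
  have hlylo : Real.exp (l - 1) ≤ Real.log y := by
    rw [← Real.exp_log hlogpos]; exact Real.exp_le_exp.mpr (by linarith)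
  have hlyhi : Real.log y ≤ Real.exp (l + 1) := by
    rw [← Real.exp_log hlogpos]; exact Real.exp_le_exp.mpr (by linarith)
  have hlog14 : 14 ≤ Real.log y := by linarith [Real.add_one_le_exp (l - 1)]
  have hA : 1 ≤ A l := by
    have h := Finset.single_le_sum (f := fun m : ℕ => (m : ℝ)⁻¹) (fun m _ => by positivity)
      (one_mem (l := l) (by linarith) H.ZB)
    simpa [A] using h
  have hZ : 0 ≤ Zp l := by linarith [H.Z256]
  have hm1 : ∀ m ∈ MF l, 1 ≤ m := by
    intro m hm
    obtain ⟨S, b, hR⟩ := exists_rep hZ (mem_MF_inM hm).1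
    rw [hR.eq]
    exact Nat.one_le_iff_ne_zero.mpr (mul_ne_zero
      (Finset.prod_ne_zero_iff.mpr fun s hs => by have := (hR.normal s hs).1.two_le; omega)
      (Nat.totient_pos.mpr hR.bpos).ne')
  set Pm : ℕ → Finset ℕ := fun m => (Finset.range (⌊y / m + 1⌋₊ + 1)).filter Nat.Prime with hPm
  set good : ℕ → Prop := fun p => Normal p ∧ Real.sqrt y < p with hgood
  set G := ((MF l).sigma fun m => (Pm m).filter good).map
    (Equiv.sigmaEquivProd ℕ ℕ).toEmbedding with hGdef
  have hGmem : ∀ x ∈ G, x.1 ∈ MF l ∧ x.2 ∈ (Pm x.1).filter good := by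
    rintro ⟨m, p⟩ hx
    rw [hGdef, Finset.mem_map] at hx
    obtain ⟨⟨m', p'⟩, hs, he⟩ := hx
    rw [Finset.mem_sigma] at hs
    simp only [Equiv.toEmbedding_apply, Equiv.sigmaEquivProd_apply, Prod.mk.injEq] at he
    obtain ⟨rfl, rfl⟩ := he
    exact hs
  have hGval : ∀ x ∈ G, (((x.2 - 1) * x.1 : ℕ) : ℝ) ≤ y := by
    intro x hx
    obtain ⟨hm, hp⟩ := hGmem x hx
    rw [Finset.mem_filter, hPm, Finset.mem_filter, Finset.mem_range, Nat.lt_succ_iff] at hp
    have h0 : (0 : ℝ) < x.1 := by exact_mod_cast hm1 _ hm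
    have h1 : (x.2 : ℝ) ≤ y / x.1 + 1 :=
      (Nat.cast_le.mpr hp.1.1).trans (Nat.floor_le (by positivity))
    rw [Nat.cast_mul, Nat.cast_sub hp.1.2.one_lt.le, Nat.cast_one]
    exact (le_div_iff₀ h0).mp (by linarith)
  have hG : ∀ x ∈ G, x.1 ∈ MF l ∧ Normal x.2 ∧ Real.sqrt y < x.2 ∧
      (((x.2 - 1) * x.1 : ℕ) : ℝ) ≤ y := fun x hx => by
    obtain ⟨hm, hp⟩ := hGmem x hx
    rw [Finset.mem_filter] at hp
    exact ⟨hm, hp.2.1, hp.2.2, hGval x hx⟩
  set Pr := (G ×ˢ G).filter fun w => (w.1.2 - 1) * w.1.1 = (w.2.2 - 1) * w.2.1 ∧ w.1.2 < w.2.2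
    with hPr
  -- values
  set val : ℕ × ℕ → ℕ := fun x => (x.2 - 1) * x.1 with hval
  have hV : (G.image val).card ≤ V y := by
    rw [V, ← Set.ncard_coe_finset]
    refine Set.ncard_le_ncard ?_ ((Set.finite_Iic ⌊y⌋₊).subset fun v hv => Nat.le_floor hv.1)
    intro v hv
    rw [Finset.mem_coe, Finset.mem_image] at hv
    obtain ⟨x, hx, rfl⟩ := hv
    obtain ⟨hm, hn, hsq, hv⟩ := hG x hx
    refine ⟨hv, ?_⟩
    obtain ⟨S, b, hR⟩ := exists_rep hZ (mem_MF_inM hm).1
    have hXp : Zp l < X x.2 ∧ (1 - del l) * l < X x.2 := by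
      have hsq0 : 0 < Real.sqrt y := Real.sqrt_pos.mpr hy0
      have h3 := Real.log_le_log hsq0 hsq.le
      rw [Real.log_sqrt hy0.le] at h3
      have h4 := Real.log_le_log (by linarith) h3
      rw [Real.log_div hlogpos.ne' two_ne_zero] at h4
      have hlog2 : Real.log 2 ≤ 1 := by linarith [Real.log_le_sub_one_of_pos (zero_lt_two' ℝ)]
      constructor <;> (unfold X; linarith [H.Zl, H.dl])
    have hnS : x.2 ∉ S := fun h => by linarith [hR.high _ h, hXp.2]
    refine ⟨(∏ s ∈ insert x.2 S, s) * b, Nat.one_le_iff_ne_zero.mpr (mul_ne_zero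
      (Finset.prod_ne_zero_iff.mpr fun s hs => ?_) (by have := hR.bpos; omega)), ?_⟩
    · rcases Finset.mem_insert.mp hs with rfl | h
      · exact hn.1.ne_zero
      · exact (hR.normal s h).1.ne_zero
    · rw [totient_prod _ _ (fun s hs => ?_) (fun s hs => ?_), Finset.prod_insert hnS, mul_assoc,
        ← hR.eq]
      · rcases Finset.mem_insert.mp hs with rfl | h
        · exact hn.1
        · exact (hR.normal s h).1
      · rcases Finset.mem_insert.mp hs with rfl | h
        · exact fun hd => by linarith [hR.bprimes _ hn.1 hd, hXp.1]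
        · exact hR.ndvd s h
  -- injectivity up to pairs
  have hinj : G.card ≤ (G.image val).card + 2 * Pr.card := by
    set Dup := G.filter fun x => x ∈ Pr.image Prod.fst ∨ x ∈ Pr.image Prod.snd with hDup
    have h1 : Dup.card ≤ 2 * Pr.card := by
      calc Dup.card ≤ (Pr.image Prod.fst ∪ Pr.image Prod.snd).card := Finset.card_le_card
            fun x hx => Finset.mem_union.mpr (Finset.mem_filter.mp hx).2
        _ ≤ (Pr.image Prod.fst).card + (Pr.image Prod.snd).card := Finset.card_union_le _ _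
        _ ≤ _ := by rw [two_mul]; exact add_le_add Finset.card_image_le Finset.card_image_le
    have h2 : (G \ Dup).card ≤ (G.image val).card := by
      refine Finset.card_le_card_of_injOn val (fun x hx => Finset.mem_image_of_mem _
        (Finset.mem_sdiff.mp hx).1) ?_
      intro x hx x' hx' he
      rw [Finset.mem_coe, Finset.mem_sdiff, hDup, Finset.mem_filter] at hx hx'
      rcases lt_trichotomy x.2 x'.2 with h | h | h
      · exact absurd ⟨hx.1, Or.inl (Finset.mem_image.mpr ⟨(x, x'),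
          Finset.mem_filter.mpr ⟨Finset.mk_mem_product hx.1 hx'.1, he, h⟩, rfl⟩)⟩ hx.2
      · refine Prod.ext ?_ h
        simp only [hval] at he
        rw [h] at he
        exact Nat.eq_of_mul_eq_mul_left (Nat.sub_pos_of_lt (hG x' hx'.1).2.1.1.one_lt) he
      · exact absurd ⟨hx.1, Or.inr (Finset.mem_image.mpr ⟨(x', x),
          Finset.mem_filter.mpr ⟨Finset.mk_mem_product hx'.1 hx.1, he.symm, h⟩, rfl⟩)⟩ hx.2
    have h3 : G.card ≤ Dup.card + (G \ Dup).card := by
      rw [← Finset.card_sdiff_add_card_eq_card (Finset.filter_subset _ _ : Dup ⊆ G)]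
      exact (add_comm _ _).le
    omega
  -- the bad primes
  have hbad : ∀ m ∈ MF l, (((Pm m).filter fun p => ¬ good p).card : ℝ) ≤
      2 * Real.sqrt y + 3 * Real.exp (-(c * Real.sqrt (l - 2))) * (y / Real.log y) * (m : ℝ)⁻¹ := by
    intro m hm
    have hm0 : (0 : ℝ) < m := by exact_mod_cast hm1 m hm
    set P := y / m + 1 with hP
    have hlogm : Real.log m ≤ Real.log y / 6 := by
      rw [Real.log_le_iff_le_exp hm0]
      exact ((mem_MF_inM hm).2).trans (Real.exp_le_exp.mpr (by linarith [H.Mb_le]))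
    have hlogP : 2 / 3 * Real.log y ≤ Real.log P := by
      have h1 : Real.log (y / m) ≤ Real.log P := Real.log_le_log (by positivity) (by linarith)
      rw [Real.log_div hy0.ne' hm0.ne'] at h1
      linarith
    have hP16 : 16 ≤ P := by
      by_contra hcon
      rw [not_le] at hcon
      have : Real.log P ≤ Real.log 16 := Real.log_le_log (by positivity) hcon.le
      have h16 : Real.log 16 ≤ 4 := by
        rw [show (16 : ℝ) = 2 ^ 4 by norm_num, Real.log_pow]
        push_cast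
        linarith [Real.log_le_sub_one_of_pos (zero_lt_two' ℝ)]
      linarith
    have hym : (1 : ℝ) ≤ y / m := by linarith
    have hll : l - 2 ≤ Real.log (Real.log P) := by
      have h1 := Real.log_le_log (by linarith) hlogP
      rw [Real.log_mul (by norm_num) hlogpos.ne'] at h1
      have h2 := Real.one_sub_inv_le_log_of_pos (show (0 : ℝ) < 2 / 3 by norm_num)
      norm_num at h2
      linarith
    have hab' := hab P hP16 (H.e0.trans hll)
    have hsub : ((Pm m).filter fun p => ¬ good p) ⊆ (Finset.range (⌊Real.sqrt y⌋₊ + 1)) ∪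
        (Finset.range (⌊P⌋₊ + 1)).filter fun p : ℕ => p.Prime ∧ ¬Normal p := by
      intro p hp
      rw [Finset.mem_filter, hPm, Finset.mem_filter] at hp
      rw [Finset.mem_union]
      by_cases hn : Normal p
      · left
        rw [Finset.mem_range, Nat.lt_succ_iff]
        exact Nat.le_floor (not_lt.mp fun h => hp.2 ⟨hn, h⟩)
      · exact Or.inr (Finset.mem_filter.mpr ⟨hp.1.1, hp.1.2, hn⟩)
    have hcard := (Nat.cast_le (α := ℝ)).mpr ((Finset.card_le_card hsub).trans (Finset.card_union_le _ _))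
    push_cast [Finset.card_range] at hcard
    have hsq1 : 1 ≤ Real.sqrt y := Real.one_le_sqrt.mpr (by linarith)
    have h3 : (⌊Real.sqrt y⌋₊ : ℝ) + 1 ≤ 2 * Real.sqrt y := by
      linarith [Nat.floor_le (Real.sqrt_nonneg y)]
    have h4 : P / Real.log P * Real.exp (-(c * Real.sqrt (Real.log (Real.log P)))) ≤
        3 * Real.exp (-(c * Real.sqrt (l - 2))) * (y / Real.log y) * (m : ℝ)⁻¹ := by
      calc P / Real.log P * Real.exp (-(c * Real.sqrt (Real.log (Real.log P))))
          ≤ (2 * (y / m)) / (2 / 3 * Real.log y) * Real.exp (-(c * Real.sqrt (l - 2))) := by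
            refine mul_le_mul (div_le_div₀ (by positivity) (by linarith) (by positivity) hlogP)
              (Real.exp_le_exp.mpr (neg_le_neg (mul_le_mul_of_nonneg_left
                (Real.sqrt_le_sqrt hll) hc.le))) (Real.exp_pos _).le (by positivity)
        _ = _ := by field_simp
    linarith
  -- put together
  have hsplit : ∀ m : ℕ, (Nat.primeCounting ⌊y / m + 1⌋₊ : ℝ) =
      (((Pm m).filter good).card : ℝ) + (((Pm m).filter fun p => ¬ good p).card : ℝ) := fun m => by
    rw [primeCounting_card, ← Nat.cast_add, Finset.card_filter_add_card_filter_not]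
  have hGcard : (∑ m ∈ MF l, (((Pm m).filter good).card : ℝ)) = G.card := by
    rw [hGdef, Finset.card_map, Finset.card_sigma, Nat.cast_sum]
  have hMFcard : ((MF l).card : ℝ) ≤ Real.exp (Mb l) + 1 := by
    have h1 : MF l ⊆ Finset.range (⌊Real.exp (Mb l)⌋₊ + 1) := Finset.filter_subset _ _
    have h2 := (Nat.cast_le (α := ℝ)).mpr (Finset.card_le_card h1)
    rw [Finset.card_range, Nat.cast_add, Nat.cast_one] at h2
    linarith [Nat.floor_le (Real.exp_nonneg (Mb l))]
  have hyL : 0 < y / Real.log y := div_pos hy0 hlogpos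
  have hsqrt : ((MF l).card : ℝ) * (2 * Real.sqrt y) ≤ ε / 3 * (y / Real.log y) := by
    have e1 : Real.exp (Mb l) + 1 ≤ Real.exp (Real.log y / 6) := by
      have h1 : Real.exp (Mb l) + 1 ≤ Real.exp (Mb l + 1) := by
        rw [Real.exp_add]
        have := Real.one_le_exp (show 0 ≤ Mb l by
          unfold Mb
          exact mul_nonneg (mul_nonneg zero_le_two
            (add_nonneg (add_nonneg (Nat.cast_nonneg _) H.ZB) zero_le_one)) (Real.exp_nonneg _))
        nlinarith [Real.exp_one_gt_d9, this]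
      exact h1.trans (Real.exp_le_exp.mpr (by linarith [H.Mb_le]))
    have e2 : Real.sqrt y = Real.exp (Real.log y / 2) := by
      rw [← Real.log_sqrt hy0.le, Real.exp_log (Real.sqrt_pos.mpr hy0)]
    calc ((MF l).card : ℝ) * (2 * Real.sqrt y)
        ≤ Real.exp (Real.log y / 6) * (2 * Real.exp (Real.log y / 2)) :=
          e2 ▸ mul_le_mul_of_nonneg_right (hMFcard.trans e1) (by positivity)
      _ = y / Real.log y * (2 * Real.log y * Real.exp (-(Real.log y) / 3)) := by
          have e3 : Real.exp (Real.log y / 6) * Real.exp (Real.log y / 2) =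
              y * Real.exp (-(Real.log y) / 3) := by
            rw [← Real.exp_add, show Real.log y / 6 + Real.log y / 2 =
              Real.log y + -(Real.log y) / 3 by ring, Real.exp_add, Real.exp_log hy0]
          rw [neg_div] at e3
          rw [neg_div]
          field_simp
          linarith [e3]
      _ ≤ y / Real.log y * (2 * Real.exp (l + 1) * Real.exp (-(Real.exp (l - 1)) / 3)) := by
          refine mul_le_mul_of_nonneg_left (mul_le_mul (by linarith)
            (Real.exp_le_exp.mpr (by linarith)) (Real.exp_pos _).le (by positivity)) hyL.le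
      _ ≤ y / Real.log y * (ε / 3) := mul_le_mul_of_nonneg_left H.small hyL.le
      _ = _ := mul_comm _ _
  have hpairs : 2 * (Pr.card : ℝ) ≤ ε / 3 * (y / Real.log y) := by
    have h := pairs_le H hC hcoll hwin hy hl G hG
    rw [← hPr] at h
    calc 2 * (Pr.card : ℝ) ≤ y / Real.log y * (2 * Real.exp (coll l C C₀)) := by linarith
      _ ≤ y / Real.log y * (ε / 3) := mul_le_mul_of_nonneg_left H.coll_le hyL.le
      _ = _ := mul_comm _ _
  rw [Finset.sum_congr rfl fun m _ => hsplit m, Finset.sum_add_distrib, hGcard]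
  have hbadsum : (∑ m ∈ MF l, (((Pm m).filter fun p => ¬ good p).card : ℝ)) ≤
      ε / 3 * (y / Real.log y) + ε / 3 * (y / Real.log y) * A l := by
    refine (Finset.sum_le_sum hbad).trans ?_
    rw [Finset.sum_add_distrib, Finset.sum_const, nsmul_eq_mul, ← Finset.mul_sum]
    refine add_le_add hsqrt ?_
    exact mul_le_mul_of_nonneg_right (mul_le_mul_of_nonneg_right H.ab hyL.le)
      (zero_le_one.trans hA)
  have hGle : (G.card : ℝ) ≤ (V y : ℝ) + 2 * (Pr.card : ℝ) := by
    have h : G.card ≤ V y + 2 * Pr.card := hinj.trans (Nat.add_le_add_right hV _)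
    exact_mod_cast h
  have h9 : ε / 3 * (y / Real.log y) ≤ ε / 3 * (y / Real.log y) * A l :=
    le_mul_of_one_le_right (by positivity) hA
  linarith

/-- Module Lower. -/
theorem lower_of (hColl : CollisionTarget) (hAb : AbnormalTarget) (hW : WindowTarget) :
    LowerTarget := by
  obtain ⟨C, hC⟩ := hColl
  obtain ⟨c, e₀, hc, hab, -⟩ := hAb
  obtain ⟨Cw, hCw⟩ := hW
  intro ε hε
  filter_upwards [eventually_cond (max C 0) (max Cw 0) e₀ c ε (le_max_right _ _)
    (le_max_right _ _) hc hε] with l H y hy hl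
  refine lower_aux H (le_max_right _ _) hε hc hab (fun a b K Zb B e y' D hb ha hbK hy' => ?_) ?_ hy hl
  · refine (hC a b K Zb B e y' D hb ha hbK hy').trans (mul_le_mul_of_nonneg_left
      (Real.exp_le_exp.mpr (add_le_add le_rfl (mul_le_mul_of_nonneg_right (le_max_left _ _) ?_)))
      (by linarith))
    have hK0 : (0 : ℝ) ≤ (K : ℝ) := Nat.cast_nonneg K
    have h1 : 0 ≤ Real.log (Real.log y') := by
      refine Real.log_nonneg ((Real.le_log_iff_exp_le (by linarith)).mpr ?_)
      linarith [Real.exp_one_lt_d9]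
    have h2 : 0 ≤ Real.log ((e : ℝ) + Real.log (Real.log y') + K + 3) :=
      Real.log_nonneg (by linarith [Nat.cast_nonneg (α := ℝ) e])
    have h3 : 0 ≤ Real.log ((K : ℝ) + 2) := Real.log_nonneg (by linarith)
    have h4 : 0 ≤ T0 e := Real.rpow_nonneg (Nat.cast_nonneg e) _
    positivity
  · have hZ := H.Z256
    have hl16 := H.l16
    have h := (abs_le.mp (hCw (Zp l / 256) (l + 2) (by linarith) (by linarith [H.Zl]))).2
    linarith [le_max_left Cw 0]

end

end Vale.Agent.P031.Lower
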