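import Vale.Agent.P031.Basic
import Vale.Agent.P031.Targets
import Mathlib.Analysis.Complex.Exponential
import Mathlib.Analysis.PSeries

/-!
# P031 Q2, module Normal: almost all primes are normal, and Rankin's count of smooth numbers
-/

namespace Vale.Agent.P031

open Finset

noncomputable section

lemma list_rpow_le_pow {L : List ℕ} {s q : ℝ} (hq : 0 ≤ q)
    (h : ∀ x ∈ L, (x : ℝ) ^ s ≤ q) : ((L.prod : ℕ) : ℝ) ^ s ≤ q ^ L.length := by
  induction L with
  | nil => simp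
  | cons x L ih =>
    rw [List.prod_cons, List.length_cons, pow_succ', Nat.cast_mul,
      Real.mul_rpow (Nat.cast_nonneg _) (Nat.cast_nonneg _)]
    exact mul_le_mul (h x (by simp)) (ih fun y hy => h y (by simp [hy]))
      (Real.rpow_nonneg (Nat.cast_nonneg _) _) hq

lemma wt_const (q : ℝ) (n : ℕ) : wt (fun _ => q) n = q ^ n.primeFactorsList.length := by
  simp [wt, List.prod_replicate]

lemma cell_le_of_le {s : ℕ} {P : ℝ} (hs : 2 ≤ s) (h : (s : ℝ) ≤ P) :
    cell s ≤ ⌈Real.log (Real.log P)⌉₊ :=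
  Nat.ceil_mono (Real.log_le_log (log_pos_of_two_le hs)
    (Real.log_le_log (by exact_mod_cast (by omega : 0 < s)) h))

/-- Rankin's bound for the number of smooth integers up to `P`. -/
theorem smooth_count (hE : EulerTarget) : ∃ C : ℝ, 0 ≤ C ∧ ∀ (P u : ℝ) (S : Finset ℕ), 16 ≤ P →
    1 ≤ u → u ≤ 4 * Real.log P →
    (∀ n ∈ S, 1 ≤ n ∧ (n : ℝ) ≤ P ∧ ∀ r : ℕ, r.Prime → r ∣ n → (r : ℝ) ≤ P ^ (1 / u)) →
    (S.card : ℝ) ≤ C * P * Real.exp (-u / 4) * Real.log P ^ 2 := by
  obtain ⟨C, -, h⟩ := hE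
  refine ⟨Real.exp (2 + 16 * |C|), (Real.exp_pos _).le, fun P u S hP hu huL hS => ?_⟩
  set L := Real.log P with hL
  have hP0 : 0 < P := by linarith
  have hLpos : 0 < L := Real.log_pos (by linarith)
  have hu0 : 0 < u := by linarith
  have hLge : 1 ≤ L := (Real.le_log_iff_exp_le hP0).2 (by linarith [Real.exp_one_lt_d9])
  set q := Real.exp (1 / 4) with hq
  have hq1 : 1 ≤ q := Real.one_le_exp (by norm_num)
  have hq2 : q ≤ 3 / 2 := by
    have := Real.exp_bound' (x := (1 / 4 : ℝ)) (by norm_num) (by norm_num) (n := 3) (by norm_num)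
    norm_num [Finset.sum_range_succ, Nat.factorial] at this
    linarith
  set σ := u / (4 * L) with hσ
  have hσ1 : σ ≤ 1 := (div_le_one (by positivity)).2 huL
  have hσ0 : 0 ≤ σ := by positivity
  set E := ⌈Real.log L⌉₊ with hE'
  have hfac : ∀ n ∈ S, 1 ≤ n ∧ ∀ s : ℕ, s.Prime → s ∣ n → cell s ≤ E := fun n hn =>
    ⟨(hS n hn).1, fun s hs hd => cell_le_of_le hs.two_le
      (le_trans (by exact_mod_cast Nat.le_of_dvd (hS n hn).1 hd) (hS n hn).2.1)⟩
  have key := h E (fun _ => q) 2 0 S (fun _ => le_trans zero_le_one hq1)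
    (fun _ _ => by linarith) (by simp)
    (fun s hs _ => by
      have : (2 : ℝ) ≤ s := by exact_mod_cast hs.two_le
      linarith) hfac
  have hsum : ∑ n ∈ S, wt (fun _ => q) n / n ≤ Real.exp (2 + 16 * |C|) * L ^ 2 := by
    refine key.trans ?_
    rw [sum_const, Nat.card_Icc, nsmul_eq_mul]
    have hlog0 : 0 ≤ Real.log L := Real.log_nonneg hLge
    have hE1 : (E : ℝ) ≤ Real.log L + 1 := (Nat.ceil_lt_add_one hlog0).le
    have : L ^ 2 = Real.exp (2 * Real.log L) := by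
      rw [two_mul, Real.exp_add, Real.exp_log hLpos]; ring
    rw [this, ← Real.exp_add]
    apply Real.exp_le_exp.2
    simp only [add_tsub_cancel_right]
    have hEq : (E : ℝ) * q ≤ (E : ℝ) * 2 := mul_le_mul_of_nonneg_left (by linarith) (Nat.cast_nonneg _)
    have hCC : C * (1 + 2 + 0) ^ 2 ≤ 16 * |C| := by nlinarith [le_abs_self C, abs_nonneg C]
    linarith
  have hterm : ∀ n ∈ S, (1 : ℝ) ≤ P * Real.exp (-u / 4) * (wt (fun _ => q) n / n) := by
    intro n hn
    obtain ⟨h1, h2, h3⟩ := hS n hn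
    have hn0 : (0 : ℝ) < n := by exact_mod_cast h1
    have hns : (n : ℝ) ^ σ ≤ wt (fun _ => q) n := by
      rw [wt_const]
      conv_lhs => rw [← Nat.prod_primeFactorsList (by omega : n ≠ 0)]
      refine list_rpow_le_pow (le_trans zero_le_one hq1) fun r hr => ?_
      have hr' := Nat.prime_of_mem_primeFactorsList hr
      calc (r : ℝ) ^ σ ≤ (P ^ (1 / u)) ^ σ :=
            Real.rpow_le_rpow (Nat.cast_nonneg _) (h3 r hr' (Nat.dvd_of_mem_primeFactorsList hr)) hσ0
        _ = q := by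
            rw [← Real.rpow_mul hP0.le, Real.rpow_def_of_pos hP0, hq]
            congr 1
            rw [hσ, ← hL]; field_simp
    have hPn : (1 : ℝ) ≤ (P / n) ^ (1 - σ) :=
      Real.one_le_rpow ((one_le_div hn0).2 h2) (by linarith)
    have he : (P / n) ^ (1 - σ) = P * Real.exp (-u / 4) * ((n : ℝ) ^ σ / n) := by
      rw [Real.div_rpow hP0.le hn0.le, Real.rpow_sub hP0, Real.rpow_sub hn0, Real.rpow_one,
        Real.rpow_one, neg_div, Real.exp_neg]
      have : P ^ σ = Real.exp (u / 4) := by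
        rw [Real.rpow_def_of_pos hP0]; congr 1
        rw [hσ, ← hL]; field_simp
      rw [this]
      field_simp
    rw [he] at hPn
    exact hPn.trans (mul_le_mul_of_nonneg_left (div_le_div_of_nonneg_right hns hn0.le)
      (mul_nonneg hP0.le (Real.exp_pos _).le))
  calc (S.card : ℝ) = ∑ n ∈ S, (1 : ℝ) := by simp
    _ ≤ ∑ n ∈ S, P * Real.exp (-u / 4) * (wt (fun _ => q) n / n) := sum_le_sum hterm
    _ = P * Real.exp (-u / 4) * ∑ n ∈ S, wt (fun _ => q) n / n := by rw [mul_sum]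
    _ ≤ P * Real.exp (-u / 4) * (Real.exp (2 + 16 * |C|) * L ^ 2) :=
        mul_le_mul_of_nonneg_left hsum (mul_nonneg hP0.le (Real.exp_pos _).le)
    _ = _ := by ring

/-- The weight `q` on the cells at most `t`, and `1` above. -/
def zq (t : ℕ) (q : ℝ) (c : ℕ) : ℝ := if c ≤ t then q else 1

lemma wt_zq (t : ℕ) (q : ℝ) (n : ℕ) : wt (zq t q) n = q ^ omegaUpTo t n := by
  unfold wt omegaUpTo
  induction n.primeFactorsList with
  | nil => simp
  | cons x L ih =>
    by_cases hx : cell x ≤ t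
    · simp [zq, hx, ih, pow_succ'] at ih ⊢
    · simp [zq, hx, ih] at ih ⊢

lemma omegaUpTo_mul {t a r : ℕ} (ha : a ≠ 0) (hr : r.Prime) :
    omegaUpTo t (a * r) = omegaUpTo t a + if cell r ≤ t then 1 else 0 := by
  unfold omegaUpTo
  rw [((Nat.perm_primeFactorsList_mul ha hr.ne_zero).filter _).length_eq, List.filter_append,
    List.length_append, Nat.primeFactorsList_prime hr]
  by_cases h : cell r ≤ t <;> simp [h]

/-- A prime power weight moves away from its mean with probability `exp (- T lam + t lam ^ 2)`. -/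
lemma tail_sum (hE : EulerTarget) : ∃ C : ℝ, ∀ (E t : ℕ) (lam T : ℝ) (S : Finset ℕ),
    t ≤ E → 0 ≤ lam → lam ≤ 1 / 4 → 1 ≤ T →
    (∀ a ∈ S, 1 ≤ a ∧ (∀ s : ℕ, s.Prime → s ∣ a → cell s ≤ E) ∧
      T - 1 ≤ |(omegaUpTo t a : ℝ) - t|) →
    ∑ a ∈ S, (a : ℝ)⁻¹
      ≤ 2 * Real.exp (E + C - (T - 1) * (lam - lam ^ 2) + 2 * t * lam ^ 2) := by
  obtain ⟨C, hC0, h⟩ := hE
  refine ⟨16 * C, fun E t lam T S htE hl0 hl hT hS => ?_⟩
  classical
  set G := (T - 1) * (lam - lam ^ 2) with hG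
  have main : ∀ q : ℝ, 1 - lam ≤ q → q ≤ 1 + lam → ∀ S' : Finset ℕ, S' ⊆ S →
      (∀ a ∈ S', (t : ℝ) * Real.log q + G ≤ omegaUpTo t a * Real.log q) →
      ∑ a ∈ S', (a : ℝ)⁻¹ ≤ Real.exp (E + 16 * C - G + 2 * t * lam ^ 2) := by
    intro q hq1 hq2 S' hsub hω
    have hq0 : 0 < q := by linarith
    have habs : |q - 1| ≤ lam := abs_le.2 ⟨by linarith, by linarith⟩
    have key := h E (zq t q) 2 1 S'
      (fun c => by unfold zq; split_ifs <;> linarith)
      (fun c _ => by unfold zq; split_ifs <;> linarith)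
      (by
        calc ∑ c ∈ Finset.range E, |zq t q (c + 1) - zq t q c|
            ≤ ∑ c ∈ Finset.range E, (if c = t then lam else 0) := by
              refine sum_le_sum fun c _ => ?_
              unfold zq
              split_ifs with h1 h2 h3 h4 <;> try omega
              all_goals first | simp | (rw [abs_sub_comm]; exact habs)
          _ ≤ 1 := by rw [Finset.sum_ite_eq']; split_ifs <;> linarith)
      (fun s hs _ => by
        have : (2 : ℝ) ≤ s := by exact_mod_cast hs.two_le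
        unfold zq; split_ifs <;> linarith)
      (fun a ha => ⟨(hS a (hsub ha)).1, (hS a (hsub ha)).2.1⟩)
    have hz : ∑ c ∈ Finset.Icc 1 E, zq t q c = E + (q - 1) * t := by
      have : ∀ c, zq t q c = 1 + (q - 1) * (if c ≤ t then (1 : ℝ) else 0) := fun c => by
        unfold zq; split_ifs <;> ring
      simp only [this, sum_add_distrib, ← mul_sum, Finset.sum_boole]
      have hfil : (Finset.Icc 1 E).filter (fun c => c ≤ t) = Finset.Icc 1 t := by
        ext c; simp; omega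
      simp [hfil]
    rw [hz] at key
    have hlog : q - 1 - Real.log q ≤ 2 * lam ^ 2 := by
      have h1 := Real.one_sub_inv_le_log_of_pos hq0
      have h2 : q - 1 - (1 - q⁻¹) = (q - 1) ^ 2 / q := by field_simp
      have h3 : (q - 1) ^ 2 / q ≤ 2 * lam ^ 2 := by
        rw [div_le_iff₀ hq0]
        have hsq : (q - 1) ^ 2 ≤ lam ^ 2 := sq_le_sq' (by linarith) (by linarith)
        have hmul : lam ^ 2 * 1 ≤ lam ^ 2 * (2 * q) :=
          mul_le_mul_of_nonneg_left (by linarith) (sq_nonneg _)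
        linarith
      linarith
    have hpt : ∀ a ∈ S', (a : ℝ)⁻¹ ≤ Real.exp (-((t : ℝ) * Real.log q + G)) * (wt (zq t q) a / a) := by
      intro a ha
      rw [wt_zq]
      have hw : Real.exp ((t : ℝ) * Real.log q + G) ≤ q ^ omegaUpTo t a := by
        rw [← Real.exp_log (pow_pos hq0 (omegaUpTo t a)), Real.log_pow]
        exact Real.exp_le_exp.2 (hω a ha)
      have h1 : (1 : ℝ) ≤ Real.exp (-((t : ℝ) * Real.log q + G)) * q ^ omegaUpTo t a := by
        have := mul_le_mul_of_nonneg_left hw (Real.exp_pos (-((t : ℝ) * Real.log q + G))).le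
        rwa [← Real.exp_add, neg_add_cancel, Real.exp_zero] at this
      rw [← mul_div_assoc, inv_eq_one_div]
      exact div_le_div_of_nonneg_right h1 (Nat.cast_nonneg _)
    calc ∑ a ∈ S', (a : ℝ)⁻¹
        ≤ Real.exp (-((t : ℝ) * Real.log q + G)) * ∑ a ∈ S', wt (zq t q) a / a := by
          rw [mul_sum]; exact sum_le_sum hpt
      _ ≤ Real.exp (-((t : ℝ) * Real.log q + G)) *
            Real.exp ((E : ℝ) + (q - 1) * t + C * (1 + 2 + 1) ^ 2) :=
          mul_le_mul_of_nonneg_left key (Real.exp_pos _).le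
      _ ≤ _ := by
          rw [← Real.exp_add]
          apply Real.exp_le_exp.2
          have := mul_le_mul_of_nonneg_left hlog (Nat.cast_nonneg t (α := ℝ))
          nlinarith
  have hup : ∀ a ∈ S.filter (fun a => (t : ℝ) + (T - 1) ≤ omegaUpTo t a),
      (t : ℝ) * Real.log (1 + lam) + G ≤ omegaUpTo t a * Real.log (1 + lam) := by
    intro a ha
    have h1 := (Finset.mem_filter.1 ha).2
    have h2 := Real.one_sub_inv_le_log_of_pos (show (0 : ℝ) < 1 + lam by linarith)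
    have h3 : lam - lam ^ 2 ≤ 1 - (1 + lam)⁻¹ := by
      rw [show 1 - (1 + lam)⁻¹ = lam / (1 + lam) by field_simp; ring, le_div_iff₀ (by linarith)]
      linarith [pow_nonneg hl0 3]
    have h4 : 0 ≤ lam - lam ^ 2 := by nlinarith
    have h5 := mul_le_mul (show T - 1 ≤ (omegaUpTo t a : ℝ) - t by linarith) (h3.trans h2) h4
      (by linarith)
    rw [hG]; linarith
  have hdown : ∀ a ∈ S.filter (fun a => ¬((t : ℝ) + (T - 1) ≤ omegaUpTo t a)),
      (t : ℝ) * Real.log (1 - lam) + G ≤ omegaUpTo t a * Real.log (1 - lam) := by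
    intro a ha
    obtain ⟨h0, h1⟩ := Finset.mem_filter.1 ha
    have hlt : T - 1 ≤ (t : ℝ) - omegaUpTo t a := by
      rcases le_abs.1 (hS a h0).2.2 with h | h <;> linarith
    have h2 := Real.log_le_sub_one_of_pos (show (0 : ℝ) < 1 - lam by linarith)
    have h3 : lam - lam ^ 2 ≤ -Real.log (1 - lam) := by linarith [sq_nonneg lam]
    have h4 : 0 ≤ lam - lam ^ 2 := by nlinarith
    have h5 := mul_le_mul hlt h3 h4 (by linarith)
    rw [hG]; linarith
  calc ∑ a ∈ S, (a : ℝ)⁻¹ = _ := (Finset.sum_filter_add_sum_filter_not S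
        (fun a => (t : ℝ) + (T - 1) ≤ omegaUpTo t a) _).symm
    _ ≤ _ := by
        rw [two_mul]
        exact add_le_add (main _ (by linarith) le_rfl _ (Finset.filter_subset _ _) hup)
          (main _ le_rfl (by linarith) _ (Finset.filter_subset _ _) hdown)

/-- Powers lose against `exp (d √l)`. -/
lemma poly_le_exp_sqrt (K d : ℝ) (m : ℕ) (hK : 0 ≤ K) (hd : 0 < d) :
    ∃ l₀ : ℝ, ∀ l : ℝ, l₀ ≤ l → K * (l + 2) ^ m ≤ Real.exp (d * Real.sqrt l) := by
  set n := 2 * m + 1 with hn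
  set M := K * 2 ^ m * (n.factorial : ℝ) / d ^ n with hM
  refine ⟨M ^ 2 + 2, fun l hl => ?_⟩
  have hl0 : 0 ≤ l := by nlinarith [sq_nonneg M]
  set y := Real.sqrt l with hy
  have hy0 : 0 ≤ y := Real.sqrt_nonneg _
  have hy2 : y ^ 2 = l := Real.sq_sqrt hl0
  have hMy : M ≤ y := Real.le_sqrt_of_sq_le (by linarith)
  have h1 : (l + 2) ^ m ≤ 2 ^ m * y ^ (2 * m) := by
    rw [pow_mul, hy2, ← mul_pow]
    exact pow_le_pow_left₀ (by linarith) (by nlinarith [sq_nonneg M]) m
  have h2 := Real.pow_div_factorial_le_exp (d * y) (by positivity) n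
  refine le_trans ?_ h2
  rw [le_div_iff₀ (by positivity), mul_pow]
  calc K * (l + 2) ^ m * (n.factorial : ℝ) ≤ K * (2 ^ m * y ^ (2 * m)) * n.factorial := by
        gcongr
    _ = d ^ n * (M * y ^ (2 * m)) := by rw [hM]; field_simp
    _ ≤ d ^ n * (y * y ^ (2 * m)) := by gcongr
    _ = d ^ n * y ^ n := by rw [hn]; ring

lemma dev_exponent {l : ℝ} (hl81 : 81 ≤ l) :
    (1 / 64) * Real.sqrt l ≤ ((l - 1) ^ (3 / 4 : ℝ) - 1) *
      ((l + 1) ^ (-(1 / 4 : ℝ)) / 4 - ((l + 1) ^ (-(1 / 4 : ℝ)) / 4) ^ 2) -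
      2 * (l + 1) * ((l + 1) ^ (-(1 / 4 : ℝ)) / 4) ^ 2 := by
  set lam := (l + 1) ^ (-(1 / 4 : ℝ)) / 4 with hlam
  set T := (l - 1) ^ (3 / 4 : ℝ) with hT
  set y := (l + 1) ^ (1 / 4 : ℝ) with hy
  have hl1 : 0 < l + 1 := by linarith
  have hy0 : 0 < y := by positivity
  have hy4 : y ^ 4 = l + 1 := by
    rw [hy, ← Real.rpow_natCast, ← Real.rpow_mul hl1.le]; norm_num
  have hy3 : (3 : ℝ) ≤ y := by
    by_contra hc
    have := pow_le_pow_left₀ hy0.le (not_le.1 hc).le 4
    norm_num at this; linarith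
  have hly : lam = y⁻¹ / 4 := by rw [hlam, hy, Real.rpow_neg hl1.le]
  have hTy : 3 / 4 * y ^ 3 ≤ T - 1 := by
    have e3 : (l + 1) ^ (3 / 4 : ℝ) = y ^ 3 := by
      rw [hy, ← Real.rpow_natCast, ← Real.rpow_mul hl1.le]; norm_num
    have h5 : (4 / 5 : ℝ) * y ^ 3 ≤ T := by
      calc (4 / 5 : ℝ) * y ^ 3 ≤ (4 / 5 : ℝ) ^ (3 / 4 : ℝ) * (l + 1) ^ (3 / 4 : ℝ) := by
            rw [e3]
            refine mul_le_mul_of_nonneg_right ?_ (by positivity)
            calc (4 / 5 : ℝ) = (4 / 5 : ℝ) ^ (1 : ℝ) := (Real.rpow_one _).symm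
              _ ≤ _ := Real.rpow_le_rpow_of_exponent_ge (by norm_num) (by norm_num) (by norm_num)
        _ = ((4 / 5) * (l + 1)) ^ (3 / 4 : ℝ) := (Real.mul_rpow (by norm_num) hl1.le).symm
        _ ≤ T := Real.rpow_le_rpow (by positivity) (by linarith) (by norm_num)
    have := pow_le_pow_left₀ (by norm_num) hy3 3
    linarith
  have h34 : lam * (3 / 4) ≤ lam - lam ^ 2 := by
    have h0 : 0 ≤ lam := by positivity
    have h1 : y⁻¹ ≤ 1 := inv_le_one_of_one_le₀ (by linarith)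
    have h2 : lam * lam ≤ lam * (1 / 4) := mul_le_mul_of_nonneg_left (by linarith) h0
    rw [pow_two]; linarith
  have hsl : Real.sqrt l ≤ y ^ 2 := by
    rw [Real.sqrt_le_iff]; exact ⟨by positivity, by nlinarith⟩
  have h6 := mul_le_mul hTy h34 (by positivity) (le_trans (by positivity) hTy)
  have h7 : 3 / 4 * y ^ 3 * (lam * (3 / 4)) = 9 / 64 * y ^ 2 := by
    rw [hly]; field_simp; ring
  have h8 : 2 * (l + 1) * lam ^ 2 = 8 / 64 * y ^ 2 := by
    rw [hly, ← hy4]; field_simp; ring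
  linarith

/-- The sieve bound for one cofactor. -/
lemma per_cofactor {C : ℕ} {P : ℝ} {a : ℕ}
    (hsieve : ∀ (R Y : ℝ) (as : Finset ℕ), 16 ≤ R → R ≤ Y → as.card ≤ 2 →
      (∀ a ∈ as, 1 ≤ a ∧ (a : ℝ) ≤ Y) →
      (((Finset.range (⌊R⌋₊ + 1)).filter fun r : ℕ => r.Prime ∧ ∀ a ∈ as, (a * r + 1).Prime).card : ℝ)
        ≤ (C : ℝ) * R * Real.log (Real.log Y) ^ C / Real.log R ^ (1 + as.card))
    (hP : 16 ≤ P) (hl81 : 81 ≤ Real.log (Real.log P))
    (hLbig : 6 * (Real.log (Real.log P) + 2) ^ 2 ≤ Real.log P) (ha1 : 1 ≤ a) (haP : a ≤ ⌊P⌋₊)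
    (hlogR : Real.log P / (2 * (Real.log (Real.log P) + 2) ^ 2) ≤ Real.log (P / a)) :
    ((((Finset.range (⌊P / a⌋₊ + 1)).filter
        fun r : ℕ => r.Prime ∧ ∀ a' ∈ ({a} : Finset ℕ), (a' * r + 1).Prime).image
          fun r => a * r + 1).card : ℝ) ≤
      4 * C * P * Real.log (Real.log P) ^ C * (Real.log (Real.log P) + 2) ^ 4 / Real.log P ^ 2
        * (a : ℝ)⁻¹ := by
  set L := Real.log P with hL
  set l := Real.log L with hl'
  have hP0 : 0 < P := by linarith
  have hL0 : 0 < L := Real.log_pos (by linarith)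
  have ha1' : (1 : ℝ) ≤ a := by exact_mod_cast ha1
  have haP' : (a : ℝ) ≤ P := le_trans (by exact_mod_cast haP) (Nat.floor_le hP0.le)
  have h3 : 3 ≤ Real.log (P / a) := by
    refine le_trans ?_ hlogR
    rw [le_div_iff₀ (by positivity)]
    linarith
  have hR16 : 16 ≤ P / a := by
    refine le_trans ?_ (((Real.le_log_iff_exp_le (by positivity)).1 h3))
    have : Real.exp 3 = Real.exp 1 * Real.exp 1 * Real.exp 1 := by
      rw [← Real.exp_add, ← Real.exp_add]; norm_num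
    rw [this]
    nlinarith [Real.exp_one_gt_d9]
  have h := hsieve (P / a) P {a} hR16 (div_le_self hP0.le ha1') (by simp)
    (fun x hx => by rw [Finset.mem_singleton.1 hx]; exact ⟨ha1, haP'⟩)
  refine (Nat.cast_le.2 Finset.card_image_le).trans (h.trans ?_)
  rw [Finset.card_singleton, ← hL, ← hl']
  calc (C : ℝ) * (P / a) * l ^ C / Real.log (P / a) ^ (1 + 1)
      ≤ (C : ℝ) * (P / a) * l ^ C / (L / (2 * (l + 2) ^ 2)) ^ (1 + 1) := by gcongr
    _ = _ := by rw [div_pow, div_div_eq_mul_div]; ring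

/-- A large abnormal prime is `a * r + 1` with a deviating cofactor `a`. -/
lemma abnormal_split {P : ℝ} {p : ℕ} (hP : 16 ≤ P) (hl81 : 81 ≤ Real.log (Real.log P))
    (hpp : p.Prime) (hn : ¬Normal p) (hple : (p : ℝ) ≤ P) (hlog : Real.log P / 2 ≤ Real.log p)
    (hce : Real.log (Real.log P) - 1 ≤ cell p) (hcE : cell p ≤ ⌈Real.log (Real.log P)⌉₊)
    (hns' : ¬∀ r : ℕ, r.Prime → r ∣ p - 1 →
      (r : ℝ) ≤ P ^ (1 / (Real.log (Real.log P) - 1) ^ 2)) :
    ∃ t ≤ ⌈Real.log (Real.log P)⌉₊, ∃ a r : ℕ, (1 ≤ a ∧ a ≤ ⌊P⌋₊) ∧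
      (∀ s : ℕ, s.Prime → s ∣ a → cell s ≤ ⌈Real.log (Real.log P)⌉₊) ∧
      (Real.log (Real.log P) - 1) ^ (3 / 4 : ℝ) - 1 ≤ |(omegaUpTo t a : ℝ) - t| ∧
      Real.log P / (2 * (Real.log (Real.log P) + 2) ^ 2) ≤ Real.log (P / a) ∧
      r.Prime ∧ (r : ℝ) ≤ P / a ∧ a * r + 1 = p := by
  set L := Real.log P with hL
  set l := Real.log L with hl'
  set E := ⌈l⌉₊ with hE
  set T := (l - 1) ^ (3 / 4 : ℝ) with hT
  set u := (l - 1) ^ 2 with hu
  have hP0 : 0 < P := by linarith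
  have hL0 : 0 < L := Real.log_pos (by linarith)
  have hE1 : (E : ℝ) ≤ l + 1 := (Nat.ceil_lt_add_one (by linarith)).le
  push Not at hns'
  obtain ⟨r, hr, hrd, hrbig⟩ := hns'
  have hp2 := hpp.two_le
  have hcell0 : 0 < (cell p : ℝ) := by linarith
  have hbig : (p : ℝ) ^ (1 / (cell p : ℝ) ^ 2) ≤ r := by
    refine le_trans ?_ hrbig.le
    refine le_trans (Real.rpow_le_rpow (Nat.cast_nonneg _) hple (by positivity)) ?_
    refine Real.rpow_le_rpow_of_exponent_le (by linarith) ?_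
    exact one_div_le_one_div_of_le (by rw [hu]; nlinarith)
      (by rw [hu]; exact pow_le_pow_left₀ (by linarith) hce 2)
  have hdev : ∃ t ≤ cell p, T0 (cell p) < |(omegaUpTo t (p - 1) : ℝ) - t| := by
    by_contra hcon
    push Not at hcon
    exact hn ⟨hpp, hcon, r, hr, hrd, hbig⟩
  obtain ⟨t, ht, hdev⟩ := hdev
  obtain ⟨a, ha⟩ := hrd
  have ha0 : a ≠ 0 := by
    rintro rfl; simp at ha; omega
  have hapos : (0 : ℝ) < a := by exact_mod_cast Nat.pos_of_ne_zero ha0
  have har : ((a * r : ℕ) : ℝ) ≤ P := by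
    rw [mul_comm a r, ← ha]
    exact le_trans (by exact_mod_cast Nat.sub_le p 1) hple
  have hR : (r : ℝ) ≤ P / a := by
    rw [le_div_iff₀ hapos]; push_cast at har; linarith
  refine ⟨t, by omega, a, r, ⟨Nat.pos_of_ne_zero ha0, Nat.le_floor (le_trans ?_ har)⟩,
    fun s hs hd => ?_, ?_, ?_, hr, hR, by rw [mul_comm, ← ha]; omega⟩
  · exact_mod_cast Nat.le_mul_of_pos_right a hr.pos
  · refine cell_le_of_le hs.two_le (le_trans ?_ har)
    exact_mod_cast (Nat.le_of_dvd (Nat.pos_of_ne_zero ha0) hd).trans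
      (Nat.le_mul_of_pos_right a hr.pos)
  · have hom : omegaUpTo t (p - 1) = omegaUpTo t a + if cell r ≤ t then 1 else 0 := by
      rw [ha, mul_comm r a, omegaUpTo_mul ha0 hr]
    have hT0 : T ≤ T0 (cell p) := Real.rpow_le_rpow (by linarith) hce (by norm_num)
    rw [hom] at hdev
    push_cast at hdev
    have h01 : |(if cell r ≤ t then (1 : ℝ) else 0)| ≤ 1 := by split_ifs <;> norm_num
    have h4 := abs_add_le ((omegaUpTo t a : ℝ) - t) (if cell r ≤ t then (1 : ℝ) else 0)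
    rw [show ((omegaUpTo t a : ℝ) - t) + (if cell r ≤ t then (1 : ℝ) else 0) =
      (omegaUpTo t a : ℝ) + (if cell r ≤ t then (1 : ℝ) else 0) - t by ring] at h4
    linarith
  · have h1 : L / (2 * (l + 2) ^ 2) ≤ Real.log r := by
      have h2 := Real.log_le_log (by positivity) hbig
      rw [Real.log_rpow (by positivity)] at h2
      refine le_trans ?_ h2
      have hc2 : (cell p : ℝ) ^ 2 ≤ (l + 2) ^ 2 := by
        refine pow_le_pow_left₀ hcell0.le ?_ 2
        linarith [(Nat.cast_le (α := ℝ)).2 hcE]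
      calc L / (2 * (l + 2) ^ 2) = 1 / (l + 2) ^ 2 * (L / 2) := by field_simp
        _ ≤ 1 / (cell p : ℝ) ^ 2 * Real.log p := by
            gcongr
    exact h1.trans (Real.log_le_log (by exact_mod_cast hr.pos) hR)

open Classical in
/-- Abnormal primes with a large prime factor of `p - 1`. -/
lemma dev_count {C : ℕ} {C₂ P : ℝ} (B₃ : Finset ℕ)
    (hsieve : ∀ (R Y : ℝ) (as : Finset ℕ), 16 ≤ R → R ≤ Y → as.card ≤ 2 →
      (∀ a ∈ as, 1 ≤ a ∧ (a : ℝ) ≤ Y) →
      (((Finset.range (⌊R⌋₊ + 1)).filter fun r : ℕ => r.Prime ∧ ∀ a ∈ as, (a * r + 1).Prime).card : ℝ)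
        ≤ (C : ℝ) * R * Real.log (Real.log Y) ^ C / Real.log R ^ (1 + as.card))
    (htail : ∀ (E t : ℕ) (lam T : ℝ) (S : Finset ℕ),
      t ≤ E → 0 ≤ lam → lam ≤ 1 / 4 → 1 ≤ T →
      (∀ a ∈ S, 1 ≤ a ∧ (∀ s : ℕ, s.Prime → s ∣ a → cell s ≤ E) ∧
        T - 1 ≤ |(omegaUpTo t a : ℝ) - t|) →
      ∑ a ∈ S, (a : ℝ)⁻¹
        ≤ 2 * Real.exp (E + C₂ - (T - 1) * (lam - lam ^ 2) + 2 * t * lam ^ 2))
    (hP : 16 ≤ P) (hl81 : 81 ≤ Real.log (Real.log P))
    (hLbig : 6 * (Real.log (Real.log P) + 2) ^ 3 ≤ Real.log P)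
    (hB₃mem : ∀ p ∈ B₃, p.Prime ∧ ¬Normal p ∧ (p : ℝ) ≤ P ∧ Real.log P / 2 ≤ Real.log p ∧
      Real.log (Real.log P) - 1 ≤ cell p ∧ cell p ≤ ⌈Real.log (Real.log P)⌉₊ ∧
      ¬∀ r : ℕ, r.Prime → r ∣ p - 1 → (r : ℝ) ≤ P ^ (1 / (Real.log (Real.log P) - 1) ^ 2)) :
    (B₃.card : ℝ) ≤ P / Real.log P * (8 * C * Real.exp (1 + C₂) *
      (Real.log (Real.log P) + 2) ^ (C + 5) *
        Real.exp (-((1 / 64) * Real.sqrt (Real.log (Real.log P))))) := by
  set L := Real.log P with hL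
  set l := Real.log L with hl'
  set ε := Real.exp (-((1 / 64) * Real.sqrt l)) with hε
  set E := ⌈l⌉₊ with hE
  set lam := (l + 1) ^ (-(1 / 4 : ℝ)) / 4 with hlam
  set T := (l - 1) ^ (3 / 4 : ℝ) with hT
  have hP0 : 0 < P := by linarith
  have hL0 : 0 < L := Real.log_pos (by linarith)
  have hLexp : L = Real.exp l := (Real.exp_log hL0).symm
  have hl2 : (l + 2) ^ 2 ≤ (l + 2) ^ 3 := pow_le_pow_right₀ (by linarith) (by norm_num)
  have hE1 : (E : ℝ) ≤ l + 1 := (Nat.ceil_lt_add_one (by linarith)).le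
  have hlam0 : 0 ≤ lam := by positivity
  have hlam1 : lam ≤ 1 / 4 := by
    have := Real.rpow_le_one_of_one_le_of_nonpos (show (1 : ℝ) ≤ l + 1 by linarith)
      (show -(1 / 4 : ℝ) ≤ 0 by norm_num)
    rw [hlam]; linarith
  set F : ℕ → Finset ℕ := fun t => (Finset.Icc 1 ⌊P⌋₊).filter fun a =>
    (∀ s : ℕ, s.Prime → s ∣ a → cell s ≤ E) ∧
      T - 1 ≤ |(omegaUpTo t a : ℝ) - t| ∧ L / (2 * (l + 2) ^ 2) ≤ Real.log (P / a) with hF
  set U : ℕ → Finset ℕ := fun a => ((Finset.range (⌊P / a⌋₊ + 1)).filter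
    fun r : ℕ => r.Prime ∧ ∀ a' ∈ ({a} : Finset ℕ), (a' * r + 1).Prime).image
      fun r => a * r + 1 with hU
  have hcover : B₃ ⊆ (Finset.range (E + 1)).biUnion fun t => (F t).biUnion U := by
    intro p hp
    obtain ⟨hpp, hn, hple, hlog, hce, hcE, hns⟩ := hB₃mem p hp
    obtain ⟨t, ht, a, r, h1, h2, h3, h4, hr, hR, hpe⟩ :=
      abnormal_split hP hl81 hpp hn hple hlog hce hcE hns
    simp only [Finset.mem_biUnion, Finset.mem_range, Nat.lt_succ_iff]
    refine ⟨t, ht, a, by simp only [hF, mem_filter, mem_Icc]; exact ⟨h1, h2, h3, h4⟩, ?_⟩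
    simp only [hU, mem_image, mem_filter, mem_range, Nat.lt_succ_iff]
    refine ⟨r, ⟨Nat.le_floor hR, hr, fun a' ha' => ?_⟩, hpe⟩
    rw [Finset.mem_singleton.1 ha', hpe]; exact hpp
  have hUa : ∀ t, ∀ a ∈ F t, ((U a).card : ℝ) ≤
      4 * C * P * l ^ C * (l + 2) ^ 4 / L ^ 2 * (a : ℝ)⁻¹ := fun t a ha => by
    simp only [hF, mem_filter, mem_Icc] at ha
    exact per_cofactor hsieve hP hl81 (by linarith) ha.1.1 ha.1.2 ha.2.2.2
  have hlamT := dev_exponent hl81
  rw [← hT, ← hlam] at hlamT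
  have hT1 : 1 ≤ T := Real.one_le_rpow (by linarith) (by norm_num)
  have h1 : (B₃.card : ℝ) ≤ ∑ t ∈ Finset.range (E + 1), ∑ a ∈ F t, ((U a).card : ℝ) := by
    calc (B₃.card : ℝ)
        ≤ (((Finset.range (E + 1)).biUnion fun t => (F t).biUnion U).card : ℝ) := by
          exact_mod_cast card_le_card hcover
      _ ≤ _ := by
          refine le_trans (Nat.cast_le.2 (card_biUnion_le.trans
            (sum_le_sum fun t _ => card_biUnion_le))) ?_
          push_cast; exact le_rfl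
  refine h1.trans ?_
  set Q := 4 * (C : ℝ) * P * l ^ C * (l + 2) ^ 4 / L ^ 2 with hQ
  have hQ0 : 0 ≤ Q := by positivity
  have h2 : ∀ t ∈ Finset.range (E + 1), ∑ a ∈ F t, ((U a).card : ℝ) ≤
      Q * (2 * (L * Real.exp (1 + C₂) * ε)) := by
    intro t ht
    have htE : t ≤ E := Nat.lt_succ_iff.1 (Finset.mem_range.1 ht)
    refine (sum_le_sum (hUa t)).trans ?_
    rw [← mul_sum]
    refine mul_le_mul_of_nonneg_left ?_ hQ0
    refine (htail E t lam T (F t) htE hlam0 hlam1 hT1 (fun a ha => ?_)).trans ?_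
    · simp only [hF, mem_filter, mem_Icc] at ha
      exact ⟨ha.1.1, ha.2.1, ha.2.2.1⟩
    · rw [hLexp, hε, ← Real.exp_add, ← Real.exp_add]
      have ht2 : (t : ℝ) ≤ l + 1 := le_trans (Nat.cast_le.2 htE) hE1
      have h9 : 2 * (t : ℝ) * lam ^ 2 ≤ 2 * (l + 1) * lam ^ 2 :=
        mul_le_mul_of_nonneg_right (by linarith) (sq_nonneg _)
      refine mul_le_mul_of_nonneg_left (Real.exp_le_exp.2 ?_) (by norm_num)
      linarith
  refine (sum_le_sum h2).trans ?_
  rw [sum_const, card_range, nsmul_eq_mul]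
  calc ((E + 1 : ℕ) : ℝ) * (Q * (2 * (L * Real.exp (1 + C₂) * ε)))
      ≤ (l + 2) * (Q * (2 * (L * Real.exp (1 + C₂) * ε))) := by
        refine mul_le_mul_of_nonneg_right ?_ (by positivity)
        push_cast; linarith
    _ = P / L * (8 * C * Real.exp (1 + C₂) * (l ^ C * (l + 2) ^ 5) * ε) := by
        rw [hQ]; field_simp; ring
    _ ≤ _ := by
        rw [pow_add]
        gcongr
        linarith

open Classical in
lemma abnormal_count (hEu : EulerTarget) (hSv : SieveTarget) : ∃ e₀ : ℝ,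
    ∀ P : ℝ, 16 ≤ P → e₀ ≤ Real.log (Real.log P) →
      (((Finset.range (⌊P⌋₊ + 1)).filter fun p : ℕ => p.Prime ∧ ¬Normal p).card : ℝ)
        ≤ P / Real.log P * Real.exp (-((1 / 128) * Real.sqrt (Real.log (Real.log P)))) := by
  obtain ⟨C₁, hC₁, hsm⟩ := smooth_count hEu
  obtain ⟨C₂, htail⟩ := tail_sum hEu
  obtain ⟨C, hsieve⟩ := hSv
  set K := 2 + C₁ + 8 * C * Real.exp (1 + C₂) with hK
  have hKpos : 0 ≤ K := by positivity
  obtain ⟨l₀, hl₀⟩ := poly_le_exp_sqrt K (1 / 128) (C + 5) hKpos (by norm_num)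
  refine ⟨max l₀ 81, fun P hP hl => ?_⟩
  set L := Real.log P with hL
  set l := Real.log L with hl'
  have hl81 : 81 ≤ l := le_trans (le_max_right _ _) hl
  have hP0 : 0 < P := by linarith
  have hL0 : 0 < L := Real.log_pos (by linarith)
  have hLexp : L = Real.exp l := (Real.exp_log hL0).symm
  have hLbig : 6 * (l + 2) ^ 3 ≤ L := by
    rw [hLexp]
    have h := Real.pow_div_factorial_le_exp l (by linarith) 5
    have hf : ((Nat.factorial 5 : ℕ) : ℝ) = 120 := by norm_num [Nat.factorial]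
    rw [hf, div_le_iff₀ (by norm_num)] at h
    have h1 : (l + 2) ^ 3 ≤ (2 * l) ^ 3 := pow_le_pow_left₀ (by linarith) (by linarith) 3
    have h2 : 81 ^ 2 * l ^ 3 ≤ l ^ 2 * l ^ 3 :=
      mul_le_mul_of_nonneg_right (pow_le_pow_left₀ (by norm_num) hl81 2) (by positivity)
    nlinarith
  have hl2 : (l + 2) ^ 2 ≤ (l + 2) ^ 3 := pow_le_pow_right₀ (by linarith) (by norm_num)
  set E := ⌈l⌉₊ with hE
  have hE1 : (E : ℝ) ≤ l + 1 := (Nat.ceil_lt_add_one (by linarith)).le
  set u := (l - 1) ^ 2 with hu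
  set lam := (l + 1) ^ (-(1 / 4 : ℝ)) / 4 with hlam
  set T := (l - 1) ^ (3 / 4 : ℝ) with hT
  set B := (Finset.range (⌊P⌋₊ + 1)).filter fun p : ℕ => p.Prime ∧ ¬Normal p with hB
  set B₁ := B.filter fun p : ℕ => (p : ℝ) ≤ Real.sqrt P with hB₁
  set B₂ := (B \ B₁).filter fun p : ℕ =>
    ∀ r : ℕ, r.Prime → r ∣ p - 1 → (r : ℝ) ≤ P ^ (1 / u) with hB₂
  set B₃ := (B \ B₁) \ B₂ with hB₃
  have hsplit : B.card ≤ B₁.card + B₂.card + B₃.card := by
    have h1 : B ⊆ B₁ ∪ B₂ ∪ B₃ := by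
      intro p hp
      by_cases h : p ∈ B₁
      · simp [h]
      by_cases h' : p ∈ B₂
      · simp [h']
      simp [hB₃, hp, h, h']
    exact (card_le_card h1).trans ((card_union_le _ _).trans
      (Nat.add_le_add_right (card_union_le _ _) _))
  -- facts about the large members
  have hmem : ∀ p ∈ B \ B₁, p.Prime ∧ ¬Normal p ∧ (p : ℝ) ≤ P ∧ Real.sqrt P < p ∧
      L / 2 ≤ Real.log p ∧ l - 1 ≤ cell p ∧ cell p ≤ E := by
    intro p hp
    simp only [hB₁, hB, mem_sdiff, mem_filter, mem_range, not_and, not_le] at hp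
    obtain ⟨⟨hr, hpp, hn⟩, h2⟩ := hp
    have h3 : Real.sqrt P < p := h2 ⟨hr, hpp, hn⟩
    have hple : (p : ℝ) ≤ P := le_trans (by exact_mod_cast Nat.lt_succ_iff.1 hr)
      (Nat.floor_le hP0.le)
    have hlog : L / 2 ≤ Real.log p := by
      have := Real.log_le_log (Real.sqrt_pos.2 hP0) h3.le
      rwa [Real.log_sqrt hP0.le] at this
    refine ⟨hpp, hn, hple, h3, hlog, ?_, cell_le_of_le hpp.two_le hple⟩
    refine le_trans ?_ (X_le_cell p)
    have h4 := Real.log_le_log (by positivity) hlog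
    rw [Real.log_div hL0.ne' two_ne_zero] at h4
    unfold X
    linarith [Real.log_two_lt_d9]
  set ε := Real.exp (-((1 / 64) * Real.sqrt l)) with hε
  have hsq : Real.sqrt l ≤ l := by
    rw [Real.sqrt_le_iff]; exact ⟨by linarith, by nlinarith⟩
  -- small primes
  have hb1 : (B₁.card : ℝ) ≤ P / L * (2 * ε) := by
    have hsub : B₁ ⊆ Finset.range (⌊Real.sqrt P⌋₊ + 1) := fun p hp => by
      simp only [mem_range, Nat.lt_succ_iff]
      exact Nat.le_floor (Finset.mem_filter.1 hp).2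
    have h1 : (B₁.card : ℝ) ≤ Real.sqrt P + 1 := by
      calc (B₁.card : ℝ) ≤ ((Finset.range (⌊Real.sqrt P⌋₊ + 1)).card : ℝ) := by
            exact_mod_cast card_le_card hsub
        _ ≤ _ := by
            rw [card_range, Nat.cast_add, Nat.cast_one]
            linarith [Nat.floor_le (Real.sqrt_nonneg P)]
    have h2 : Real.sqrt P ≤ P / L * ε := by
      have e1 : Real.sqrt P = Real.exp (L / 2) := by
        rw [Real.sqrt_eq_rpow, Real.rpow_def_of_pos hP0, ← hL]; congr 1; ring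
      have e2 : P / L * ε = Real.exp (L - l - (1 / 64) * Real.sqrt l) := by
        rw [Real.exp_sub, Real.exp_sub, hL, Real.exp_log hP0, ← hL, ← hLexp, hε, Real.exp_neg]
        field_simp
      rw [e1, e2]
      apply Real.exp_le_exp.2
      nlinarith
    have h3 : 1 ≤ Real.sqrt P := Real.one_le_sqrt.2 (by linarith)
    linarith
  -- smooth case
  have hb2 : (B₂.card : ℝ) ≤ P / L * (C₁ * ε) := by
    have hcard : (B₂.image fun p => p - 1).card = B₂.card := by
      refine Finset.card_image_of_injOn fun p hp q hq h => ?_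
      have h1 := (hmem p (Finset.mem_filter.1 hp).1).1.two_le
      have h2 := (hmem q (Finset.mem_filter.1 hq).1).1.two_le
      have h' : p - 1 = q - 1 := h
      omega
    have h := hsm P u (B₂.image fun p => p - 1) hP (by rw [hu]; nlinarith)
      (by rw [hu, ← hL]; nlinarith) (by
        intro n hn
        obtain ⟨p, hp, rfl⟩ := Finset.mem_image.1 hn
        obtain ⟨hp', hs⟩ := Finset.mem_filter.1 hp
        obtain ⟨hpp, -, hple, -, -, -, -⟩ := hmem p hp'
        exact ⟨by have := hpp.two_le; omega,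
          le_trans (by exact_mod_cast Nat.sub_le p 1) hple, hs⟩)
    rw [hcard] at h
    refine h.trans ?_
    have e : C₁ * P * Real.exp (-u / 4) * L ^ 2 = P / L * (C₁ * Real.exp (3 * l - u / 4)) := by
      rw [show 3 * l - u / 4 = l + l + l + (-u / 4) by ring, Real.exp_add, Real.exp_add,
        Real.exp_add, ← hLexp]
      field_simp
    rw [← hL, e]
    refine mul_le_mul_of_nonneg_left (mul_le_mul_of_nonneg_left ?_ hC₁) (by positivity)
    rw [hε]
    apply Real.exp_le_exp.2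
    rw [hu]
    nlinarith
  have hb3 := dev_count B₃ hsieve htail hP hl81 hLbig (fun p hp => by
    obtain ⟨hp', hns⟩ := Finset.mem_sdiff.1 hp
    obtain ⟨hpp, hn, hple, -, hlog, hce, hcE⟩ := hmem p hp'
    exact ⟨hpp, hn, hple, hlog, hce, hcE, fun h => hns (Finset.mem_filter.2 ⟨hp', h⟩)⟩)
  have hfin : 2 * ε + C₁ * ε + 8 * C * Real.exp (1 + C₂) * (l + 2) ^ (C + 5) * ε ≤
      Real.exp (-((1 / 128) * Real.sqrt l)) := by
    have hp1 : (1 : ℝ) ≤ (l + 2) ^ (C + 5) := one_le_pow₀ (by linarith)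
    have h := hl₀ l (le_trans (le_max_left _ _) hl)
    calc 2 * ε + C₁ * ε + 8 * C * Real.exp (1 + C₂) * (l + 2) ^ (C + 5) * ε
        ≤ K * (l + 2) ^ (C + 5) * ε := by
          rw [← add_mul, ← add_mul]
          refine mul_le_mul_of_nonneg_right ?_ (Real.exp_pos _).le
          rw [hK]
          have := mul_le_mul_of_nonneg_left hp1 (show 0 ≤ 2 + C₁ by linarith)
          linarith
      _ ≤ Real.exp ((1 / 128) * Real.sqrt l) * ε :=
          mul_le_mul_of_nonneg_right h (Real.exp_pos _).le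
      _ = _ := by rw [hε, ← Real.exp_add]; congr 1; ring
  calc (B.card : ℝ) ≤ (B₁.card : ℝ) + B₂.card + B₃.card := by exact_mod_cast hsplit
    _ ≤ P / L * (2 * ε + C₁ * ε + 8 * C * Real.exp (1 + C₂) * (l + 2) ^ (C + 5) * ε) := by
        linarith
    _ ≤ _ := mul_le_mul_of_nonneg_left hfin (by positivity)

lemma summable_exp_sqrt {d : ℝ} (hd : 0 < d) :
    Summable fun j : ℕ => Real.exp (-(d * Real.sqrt j)) := by
  refine Summable.of_norm_bounded_eventually_nat
    ((Real.summable_one_div_nat_pow.2 (by norm_num : 1 < 2)).mul_left (24 / d ^ 4)) ?_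
  filter_upwards [Filter.eventually_ge_atTop 1] with j hj
  have hj' : (0 : ℝ) < j := by exact_mod_cast hj
  have hy : Real.sqrt j ^ 4 = (j : ℝ) ^ 2 := by
    rw [show (4 : ℕ) = 2 * 2 by norm_num, pow_mul, Real.sq_sqrt hj'.le]
  rw [Real.norm_eq_abs, abs_of_pos (Real.exp_pos _), Real.exp_neg]
  have h := Real.pow_div_factorial_le_exp (d * Real.sqrt j) (by positivity) 4
  rw [mul_pow, hy] at h
  norm_num [Nat.factorial] at h
  refine (inv_anti₀ (by positivity) h).trans (le_of_eq ?_)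
  field_simp

/-- Almost all primes are normal. -/
theorem abnormal (hEu : EulerTarget) (hSv : SieveTarget) : AbnormalTarget := by
  classical
  obtain ⟨e₀, hcnt⟩ := abnormal_count hEu hSv
  set d : ℝ := 1 / 256 with hd
  have hd0 : (0 : ℝ) < d := by norm_num [hd]
  set S := ∑' j : ℕ, Real.exp (-(d * Real.sqrt j)) with hS
  have hsum := summable_exp_sqrt hd0
  have hS0 : 0 ≤ S := tsum_nonneg fun j => (Real.exp_pos _).le
  obtain ⟨a₀, ha₀⟩ := poly_le_exp_sqrt (18 * S * Real.exp 1) (d / 2) 0 (by positivity) (by linarith)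
  refine ⟨d / 2, max (max e₀ a₀) 0 + 10, by linarith, fun P hP hl => ?_, fun a b ha => ?_⟩
  · have h0 := Real.sqrt_nonneg (Real.log (Real.log P))
    refine (hcnt P hP (by linarith [le_max_left e₀ a₀, le_max_left (max e₀ a₀) 0])).trans ?_
    refine mul_le_mul_of_nonneg_left (Real.exp_le_exp.2 ?_)
      (div_nonneg (by linarith) (Real.log_nonneg (by linarith)))
    rw [hd]; linarith
  have hae : e₀ + 10 ≤ a := by linarith [le_max_left e₀ a₀, le_max_left (max e₀ a₀) 0]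
  have haa : a₀ ≤ a := by linarith [le_max_right e₀ a₀, le_max_left (max e₀ a₀) 0]
  have ha10 : 10 ≤ a := by linarith [le_max_right (max e₀ a₀) 0]
  set W := (window a b).filter fun p => ¬Normal p with hW
  have hite : (∑ p ∈ window a b, if Normal p then 0 else ((p : ℝ) - 1)⁻¹) =
      ∑ p ∈ W, ((p : ℝ) - 1)⁻¹ := by
    rw [hW, Finset.sum_filter]
    exact sum_congr rfl fun p _ => by split_ifs <;> rfl
  rw [hite]
  have hmem : ∀ p ∈ W, p.Prime ∧ ¬Normal p ∧ a < X p ∧ Real.exp a < Real.log p := by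
    intro p hp
    obtain ⟨hp1, hp2⟩ := Finset.mem_filter.1 hp
    obtain ⟨-, hpp, hX, -⟩ := Finset.mem_filter.1 hp1
    refine ⟨hpp, hp2, hX, ?_⟩
    rw [← exp_X hpp.two_le]
    exact Real.exp_lt_exp.2 hX
  set g : ℕ → ℕ := fun p => ⌊Real.log p⌋₊ with hg
  set I := W.image g with hI
  have hk : ∀ k ∈ I, a ≤ Real.log ((k : ℝ) + 1) := by
    intro k hk
    obtain ⟨p, hp, rfl⟩ := Finset.mem_image.1 hk
    rw [Real.le_log_iff_exp_le (by positivity)]
    exact le_trans (hmem p hp).2.2.2.le (Nat.lt_floor_add_one _).le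
  have hper : ∀ k ∈ I, ∑ p ∈ W.filter (fun p => g p = k), ((p : ℝ) - 1)⁻¹ ≤
      6 / ((k : ℝ) + 1) * Real.exp (-((1 / 128) * Real.sqrt (Real.log ((k : ℝ) + 1)))) := by
    intro k hk'
    have hka := hk k hk'
    set P := Real.exp ((k : ℝ) + 1) with hPdef
    have hlogP : Real.log P = (k : ℝ) + 1 := Real.log_exp _
    have hk10 : (9 : ℝ) ≤ k := by
      have h1 := (Real.le_log_iff_exp_le (by positivity)).1 hka
      linarith [Real.add_one_le_exp a]
    have hP16 : (16 : ℝ) ≤ P := by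
      have h1 := Real.quadratic_le_exp_of_nonneg (show (0 : ℝ) ≤ (k : ℝ) + 1 by linarith)
      nlinarith
    have hc := hcnt P hP16 (by rw [hlogP]; linarith)
    rw [hlogP] at hc
    have hsub : W.filter (fun p => g p = k) ⊆
        (Finset.range (⌊P⌋₊ + 1)).filter (fun p : ℕ => p.Prime ∧ ¬Normal p) := by
      intro p hp
      obtain ⟨hp1, hp2⟩ := Finset.mem_filter.1 hp
      obtain ⟨hpp, hn, -, -⟩ := hmem p hp1
      simp only [mem_filter, mem_range, Nat.lt_succ_iff]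
      refine ⟨Nat.le_floor ?_, hpp, hn⟩
      rw [hPdef, ← Real.exp_log (by exact_mod_cast hpp.pos : (0 : ℝ) < p), ← hp2]
      exact Real.exp_le_exp.2 (Nat.lt_floor_add_one _).le
    have hterm : ∀ p ∈ W.filter (fun p => g p = k), ((p : ℝ) - 1)⁻¹ ≤ 2 * Real.exp (-(k : ℝ)) := by
      intro p hp
      obtain ⟨hp1, hp2⟩ := Finset.mem_filter.1 hp
      obtain ⟨hpp, -, -, -⟩ := hmem p hp1
      have hp2' : (2 : ℝ) ≤ p := by exact_mod_cast hpp.two_le
      have hek : Real.exp k ≤ p := by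
        rw [← hp2, hg]
        refine le_trans (Real.exp_le_exp.2 (Nat.floor_le (Real.log_nonneg (by linarith)))) ?_
        rw [Real.exp_log (by linarith)]
      rw [Real.exp_neg]
      calc ((p : ℝ) - 1)⁻¹ ≤ (Real.exp k / 2)⁻¹ := inv_anti₀ (by positivity) (by linarith)
        _ = _ := by field_simp
    calc ∑ p ∈ W.filter (fun p => g p = k), ((p : ℝ) - 1)⁻¹
        ≤ (W.filter (fun p => g p = k)).card • (2 * Real.exp (-(k : ℝ))) :=
          sum_le_card_nsmul _ _ _ hterm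
      _ ≤ P / ((k : ℝ) + 1) * Real.exp (-((1 / 128) * Real.sqrt (Real.log ((k : ℝ) + 1)))) *
            (2 * Real.exp (-(k : ℝ))) := by
          rw [nsmul_eq_mul]
          exact mul_le_mul_of_nonneg_right (le_trans (by exact_mod_cast card_le_card hsub) hc)
            (by positivity)
      _ = 2 * Real.exp 1 / ((k : ℝ) + 1) *
            Real.exp (-((1 / 128) * Real.sqrt (Real.log ((k : ℝ) + 1)))) := by
          rw [hPdef, Real.exp_add, Real.exp_neg (k : ℝ)]
          field_simp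
      _ ≤ _ := by
          gcongr
          linarith [Real.exp_one_lt_d9]
  have h1 : ∑ p ∈ W, ((p : ℝ) - 1)⁻¹ ≤
      ∑ k ∈ I, 6 / ((k : ℝ) + 1) * Real.exp (-((1 / 128) * Real.sqrt (Real.log ((k : ℝ) + 1)))) := by
    rw [← sum_fiberwise_of_maps_to (fun p hp => Finset.mem_image_of_mem g hp)]
    exact sum_le_sum hper
  refine h1.trans ?_
  set g' : ℕ → ℕ := fun k => ⌊Real.log ((k : ℝ) + 1)⌋₊ with hg'
  have hper' : ∀ j ∈ I.image g', ∑ k ∈ I.filter (fun k => g' k = j),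
      6 / ((k : ℝ) + 1) * Real.exp (-((1 / 128) * Real.sqrt (Real.log ((k : ℝ) + 1)))) ≤
      18 * Real.exp (-(d * Real.sqrt (a - 1))) * Real.exp (-(d * Real.sqrt j)) := by
    intro j hj
    obtain ⟨k₀, hk₀, rfl⟩ := Finset.mem_image.1 hj
    set j := g' k₀ with hjdef
    have hja : a - 1 ≤ j := by
      have := Nat.lt_floor_add_one (Real.log ((k₀ : ℝ) + 1))
      rw [hjdef, hg']; linarith [hk k₀ hk₀]
    have hk2 : ∀ k ∈ I.filter (fun k => g' k = j),
        Real.exp j ≤ (k : ℝ) + 1 ∧ (k : ℝ) + 1 < Real.exp ((j : ℝ) + 1) ∧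
          (j : ℝ) ≤ Real.log ((k : ℝ) + 1) := by
      intro k hk'
      obtain ⟨hk1, hk2⟩ := Finset.mem_filter.1 hk'
      have hl : (j : ℝ) ≤ Real.log ((k : ℝ) + 1) := by
        rw [← hk2]; exact Nat.floor_le (Real.log_nonneg (by simp))
      refine ⟨(Real.le_log_iff_exp_le (by positivity)).1 hl, ?_, hl⟩
      rw [← Real.log_lt_iff_lt_exp (by positivity), ← hk2]
      exact Nat.lt_floor_add_one _
    have hcard : ((I.filter (fun k => g' k = j)).card : ℝ) ≤ Real.exp ((j : ℝ) + 1) := by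
      have hs : I.filter (fun k => g' k = j) ⊆ Finset.range ⌊Real.exp ((j : ℝ) + 1)⌋₊ :=
        fun k hk' => by
          rw [mem_range, ← Nat.add_one_le_iff]
          exact Nat.le_floor (by push_cast; exact (hk2 k hk').2.1.le)
      calc ((I.filter (fun k => g' k = j)).card : ℝ)
          ≤ ((Finset.range ⌊Real.exp ((j : ℝ) + 1)⌋₊).card : ℝ) := by exact_mod_cast card_le_card hs
        _ ≤ _ := by rw [card_range]; exact Nat.floor_le (Real.exp_pos _).le
    have hterm : ∀ k ∈ I.filter (fun k => g' k = j),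
        6 / ((k : ℝ) + 1) * Real.exp (-((1 / 128) * Real.sqrt (Real.log ((k : ℝ) + 1)))) ≤
          6 / Real.exp j * Real.exp (-((1 / 128) * Real.sqrt j)) := by
      intro k hk'
      obtain ⟨e1, -, e3⟩ := hk2 k hk'
      gcongr
    refine (sum_le_card_nsmul _ _ _ hterm).trans ?_
    rw [nsmul_eq_mul]
    calc ((I.filter (fun k => g' k = j)).card : ℝ) *
          (6 / Real.exp j * Real.exp (-((1 / 128) * Real.sqrt j)))
        ≤ Real.exp ((j : ℝ) + 1) * (6 / Real.exp j * Real.exp (-((1 / 128) * Real.sqrt j))) :=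
          mul_le_mul_of_nonneg_right hcard (by positivity)
      _ = 6 * Real.exp 1 * Real.exp (-((1 / 128) * Real.sqrt j)) := by
          rw [Real.exp_add]; field_simp
      _ ≤ 18 * (Real.exp (-(d * Real.sqrt (a - 1))) * Real.exp (-(d * Real.sqrt j))) := by
          rw [← Real.exp_add]
          refine mul_le_mul (by linarith [Real.exp_one_lt_d9]) (Real.exp_le_exp.2 ?_)
            (Real.exp_pos _).le (by norm_num)
          have := Real.sqrt_le_sqrt hja
          rw [hd]; linarith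
      _ = _ := by ring
  rw [← sum_fiberwise_of_maps_to (fun k hk' => Finset.mem_image_of_mem g' hk')]
  refine (sum_le_sum hper').trans ?_
  rw [← mul_sum]
  calc 18 * Real.exp (-(d * Real.sqrt (a - 1))) * ∑ j ∈ I.image g', Real.exp (-(d * Real.sqrt j))
      ≤ 18 * Real.exp (-(d * Real.sqrt (a - 1))) * S := by
        exact mul_le_mul_of_nonneg_left (hsum.sum_le_tsum _ fun j _ => (Real.exp_pos _).le)
          (by positivity)
    _ ≤ 18 * Real.exp (1 - d * Real.sqrt a) * S := by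
        refine mul_le_mul_of_nonneg_right (mul_le_mul_of_nonneg_left (Real.exp_le_exp.2 ?_)
          (by norm_num)) hS0
        have h2 : Real.sqrt a ≤ Real.sqrt (a - 1) + 1 := by
          rw [Real.sqrt_le_iff]
          refine ⟨by positivity, ?_⟩
          nlinarith [Real.sq_sqrt (show (0 : ℝ) ≤ a - 1 by linarith), Real.sqrt_nonneg (a - 1)]
        have : d * Real.sqrt a ≤ d * (Real.sqrt (a - 1) + 1) :=
          mul_le_mul_of_nonneg_left h2 hd0.le
        rw [hd] at *; linarith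
    _ = 18 * S * Real.exp 1 * (a + 2) ^ 0 * Real.exp (-(d * Real.sqrt a)) := by
        rw [sub_eq_add_neg, Real.exp_add, pow_zero]; ring
    _ ≤ Real.exp (d / 2 * Real.sqrt a) * Real.exp (-(d * Real.sqrt a)) :=
        mul_le_mul_of_nonneg_right (ha₀ a haa) (Real.exp_pos _).le
    _ = _ := by rw [← Real.exp_add]; congr 1; ring

end

end Vale.Agent.P031
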