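import Mathlib

/-!
The prime number theorem, from the nonvanishing of the zeta function on the line `re s = 1`,
Chebyshev's bound and a Wiener–Ikehara argument with the Fejér kernel.
-/

open MeasureTheory Filter Topology Set
open scoped FourierTransform ArithmeticFunction.vonMangoldt

noncomputable section

namespace Vale.Agent.P031

namespace PNT

/-! ### The kernel -/

/-- Fourier transform of the tent function. -/
def ker (v : ℝ) : ℝ := ∫ t in (0 : ℝ)..1, 2 * (1 - t) * Real.cos (v * t)

lemma ker_continuous : Continuous ker :=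
  intervalIntegral.continuous_parametric_intervalIntegral_of_continuous'
    (f := fun v t => 2 * (1 - t) * Real.cos (v * t)) (by fun_prop) 0 1

lemma ker_zero : ker 0 = 1 := by
  have h : ∀ t ∈ uIcc (0 : ℝ) 1, HasDerivAt (fun t : ℝ => 2 * t - t * t) (2 * (1 - t)) t := by
    intro t _
    have h1 := ((hasDerivAt_id t).const_mul (2 : ℝ)).sub ((hasDerivAt_id t).mul (hasDerivAt_id t))
    simp only [id_eq] at h1
    refine h1.congr_deriv ?_
    ring
  have := intervalIntegral.integral_eq_sub_of_hasDerivAt h (by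
    apply Continuous.intervalIntegrable
    fun_prop)
  simp only [ker, zero_mul, Real.cos_zero, mul_one]
  rw [this]
  norm_num

lemma ker_eq {v : ℝ} (hv : v ≠ 0) : ker v = 2 * (1 - Real.cos v) / v ^ 2 := by
  have h : ∀ t ∈ uIcc (0 : ℝ) 1,
      HasDerivAt (fun t : ℝ => 2 * (1 - t) * Real.sin (v * t) / v - 2 * Real.cos (v * t) / v ^ 2)
        (2 * (1 - t) * Real.cos (v * t)) t := by
    intro t _
    have hvt : HasDerivAt (fun t : ℝ => v * t) v t := by
      simpa using (hasDerivAt_id t).const_mul v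
    have h1 : HasDerivAt (fun t : ℝ => 2 * (1 - t)) (-2) t := by
      simpa using ((hasDerivAt_id t).const_sub 1).const_mul 2
    have h2 := ((h1.mul hvt.sin).div_const v).sub ((hvt.cos.const_mul 2).div_const (v ^ 2))
    refine h2.congr_deriv ?_
    field_simp
    ring
  have := intervalIntegral.integral_eq_sub_of_hasDerivAt h (by
    apply Continuous.intervalIntegrable
    fun_prop)
  rw [ker, this]
  simp only [mul_one, sub_self, mul_zero, Real.sin_zero, zero_mul, zero_div, Real.cos_zero]
  ring

lemma ker_nonneg (v : ℝ) : 0 ≤ ker v := by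
  rcases eq_or_ne v 0 with rfl | hv
  · rw [ker_zero]; norm_num
  · rw [ker_eq hv]
    have := Real.cos_le_one v
    positivity

lemma ker_le_two (v : ℝ) : ker v ≤ 2 := by
  have h := intervalIntegral.norm_integral_le_of_norm_le_const (a := (0 : ℝ)) (b := 1) (C := 2)
    (f := fun t => 2 * (1 - t) * Real.cos (v * t)) ?_
  · rw [Real.norm_eq_abs] at h
    have := le_abs_self (∫ t in (0 : ℝ)..1, 2 * (1 - t) * Real.cos (v * t))
    norm_num at h
    simp only [ker]
    linarith
  · intro t ht
    rw [uIoc_of_le (by norm_num : (0 : ℝ) ≤ 1)] at ht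
    rw [Real.norm_eq_abs, abs_mul, abs_mul]
    have h2 : |1 - t| ≤ 1 := by rw [abs_le]; constructor <;> linarith [ht.1, ht.2]
    calc |(2 : ℝ)| * |1 - t| * |Real.cos (v * t)| ≤ |(2 : ℝ)| * 1 * 1 := by
          gcongr
          exact Real.abs_cos_le_one _
      _ = 2 := by norm_num

lemma ker_le (v : ℝ) : ker v ≤ 8 * (1 + v ^ 2)⁻¹ := by
  rw [← div_eq_mul_inv, le_div_iff₀ (by positivity)]
  have h2 := ker_le_two v
  have h0 := ker_nonneg v
  rcases eq_or_ne v 0 with rfl | hv
  · nlinarith
  have hv2 : 0 < v ^ 2 := by positivity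
  have h4 : ker v * v ^ 2 ≤ 4 := by
    rw [ker_eq hv, div_mul_cancel₀ _ hv2.ne']
    linarith [Real.neg_one_le_cos v]
  nlinarith

lemma ker_integrable : Integrable ker := by
  refine Integrable.mono' (integrable_inv_one_add_sq.const_mul 8) ker_continuous.aestronglyMeasurable
    (ae_of_all _ fun v => ?_)
  rw [Real.norm_eq_abs, abs_of_nonneg (ker_nonneg v)]
  exact ker_le v

lemma ker_integral_pos : 0 < ∫ v, ker v :=
  integral_pos_of_integrable_nonneg_nonzero (x := 0) ker_continuous ker_integrable
    ker_nonneg (by simp [ker_zero])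

/-- The tent function. -/
def tent (t : ℝ) : ℝ := 1 - |t|

lemma tent_continuous : Continuous tent := by
  unfold tent
  fun_prop

lemma abs_tent_le {t : ℝ} (ht : t ∈ uIoc (-1 : ℝ) 1) : |tent t| ≤ 1 := by
  rw [uIoc_of_le (by norm_num : (-1 : ℝ) ≤ 1)] at ht
  have : |t| ≤ 1 := abs_le.2 ⟨ht.1.le, ht.2⟩
  rw [tent, abs_le]
  constructor <;> linarith [abs_nonneg t]

lemma tent_fourier (v : ℝ) :
    (∫ t in (-1 : ℝ)..1, (tent t : ℂ) * Complex.exp (Complex.I * (v * t : ℝ))) = (ker v : ℂ) := by
  have hc : Continuous fun t : ℝ =>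
      (tent t : ℂ) * Complex.exp (Complex.I * (v * t : ℝ)) := by
    have := tent_continuous
    fun_prop
  rw [← intervalIntegral.integral_add_adjacent_intervals (b := 0) (hc.intervalIntegrable _ _)
    (hc.intervalIntegrable _ _)]
  have hflip := intervalIntegral.integral_comp_neg (a := (0 : ℝ)) (b := 1)
    (fun t : ℝ => (tent t : ℂ) * Complex.exp (Complex.I * (v * t : ℝ)))
  rw [neg_zero] at hflip
  have hc2 : Continuous fun t : ℝ =>
      (tent (-t) : ℂ) * Complex.exp (Complex.I * (v * -t : ℝ)) := hc.comp continuous_neg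
  rw [← hflip, ← intervalIntegral.integral_add (hc2.intervalIntegrable _ _)
    (hc.intervalIntegrable _ _)]
  rw [ker, ← intervalIntegral.integral_ofReal]
  refine intervalIntegral.integral_congr fun t ht => ?_
  rw [uIcc_of_le (by norm_num : (0 : ℝ) ≤ 1)] at ht
  have h1 : tent t = 1 - t := by rw [tent, abs_of_nonneg ht.1]
  have h2 : tent (-t) = 1 - t := by rw [tent, abs_neg, abs_of_nonneg ht.1]
  simp only [h1, h2]
  push_cast
  rw [Complex.cos]
  ring_nf

/-! ### The normalised Chebyshev function -/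

/-- `ψ(e^u) e^(-u)` for positive `u`. -/
def aFun (u : ℝ) : ℝ := Chebyshev.psi (Real.exp u) * Real.exp (-u)

/-- Chebyshev's constant. -/
def bCst : ℝ := Real.log 4 + 4

lemma bCst_pos : 0 < bCst := by
  have : 0 < Real.log 4 := Real.log_pos (by norm_num)
  unfold bCst
  linarith

lemma aFun_nonneg (u : ℝ) : 0 ≤ aFun u :=
  mul_nonneg (Chebyshev.psi_nonneg _) (Real.exp_pos _).le

lemma aFun_le (u : ℝ) : aFun u ≤ bCst := by
  have h := Chebyshev.psi_le_const_mul_self (Real.exp_pos u).le
  rw [aFun, Real.exp_neg, ← div_eq_mul_inv, div_le_iff₀ (Real.exp_pos u)]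
  exact h

lemma aFun_of_nonpos {u : ℝ} (hu : u ≤ 0) : aFun u = 0 := by
  rw [aFun, Chebyshev.psi_eq_zero_of_le_one (Real.exp_le_one_iff.2 hu), zero_mul]

lemma aFun_measurable : Measurable aFun :=
  (Chebyshev.psi_mono.measurable.comp Real.measurable_exp).mul (by fun_prop)

lemma aFun_shift {u u' : ℝ} (h : u ≤ u') : aFun u * Real.exp (u - u') ≤ aFun u' := by
  have h1 : aFun u * Real.exp (u - u') = Chebyshev.psi (Real.exp u) * Real.exp (-u') := by
    rw [aFun, mul_assoc, ← Real.exp_add]
    congr 2
    ring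
  rw [h1, aFun]
  exact mul_le_mul_of_nonneg_right (Chebyshev.psi_mono (Real.exp_le_exp.2 h)) (Real.exp_pos _).le

/-! ### The Laplace transform -/

/-- The zeta part: `-ζ'/ζ(s) - 1/(s-1)`, continuous on `re s ≥ 1`. -/
def aux (s : ℂ) : ℂ := ArithmeticFunction.vonMangoldt.LFunctionResidueClassAux (1 : ZMod 1) s

/-- The boundary function of the Tauberian argument. -/
def bdry (s : ℂ) : ℂ := aux s / s - 1 / s

lemma bdry_continuousOn : ContinuousOn bdry {s | 1 ≤ s.re} := by
  have h := ArithmeticFunction.vonMangoldt.continuousOn_LFunctionResidueClassAux (1 : ZMod 1)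
  have hne : ∀ s ∈ {s : ℂ | 1 ≤ s.re}, s ≠ 0 := by
    intro s hs h0
    rw [h0] at hs
    norm_num at hs
  exact (h.div continuousOn_id hne).sub (continuousOn_const.div continuousOn_id hne)

lemma aux_eq {s : ℂ} (hs : 1 < s.re) :
    aux s = LSeries (fun n => (Λ n : ℂ)) s - 1 / (s - 1) := by
  have h := ArithmeticFunction.vonMangoldt.eqOn_LFunctionResidueClassAux
    (a := (1 : ZMod 1)) isUnit_one hs
  rw [aux, h]
  have h1 : ∀ n : ℕ, ArithmeticFunction.vonMangoldt.residueClass (1 : ZMod 1) n = Λ n := by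
    intro n
    have hmem : n ∈ {m : ℕ | (m : ZMod 1) = 1} := Subsingleton.elim _ _
    exact Set.indicator_of_mem hmem _
  simp [h1]

lemma sum_Icc_vonMangoldt (t : ℝ) :
    ∑ k ∈ Finset.Icc 1 ⌊t⌋₊, (Λ k : ℂ) = (Chebyshev.psi t : ℂ) := by
  rw [Chebyshev.psi]
  push_cast
  refine Finset.sum_congr ?_ fun _ _ => rfl
  ext k
  simp [Finset.mem_Icc, Finset.mem_Ioc, Nat.lt_iff_add_one_le]

lemma lseries_eq {s : ℂ} (hs : 1 < s.re) :
    LSeries (fun n => (Λ n : ℂ)) s =
      s * ∫ u in Ioi (0 : ℝ), (aFun u : ℂ) * Complex.exp (-(s - 1) * u) := by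
  have hO : (fun n : ℕ => ∑ k ∈ Finset.Icc 1 n, Λ k) =O[atTop] fun n : ℕ => (n : ℝ) ^ (1 : ℝ) := by
    refine Asymptotics.isBigO_of_le' (c := bCst) _ fun n => ?_
    rw [Real.rpow_one, Real.norm_eq_abs, Real.norm_eq_abs,
      abs_of_nonneg (Finset.sum_nonneg fun k _ => ArithmeticFunction.vonMangoldt_nonneg),
      Nat.abs_cast]
    have h := Chebyshev.psi_le_const_mul_self (x := (n : ℝ)) (Nat.cast_nonneg n)
    rw [Chebyshev.psi, Nat.floor_natCast] at h
    refine le_trans (le_of_eq ?_) h
    refine Finset.sum_congr ?_ fun _ _ => rfl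
    ext k
    simp [Finset.mem_Icc, Finset.mem_Ioc, Nat.lt_iff_add_one_le]
  rw [LSeries_eq_mul_integral_of_nonneg _ zero_le_one hs hO
    fun n => ArithmeticFunction.vonMangoldt_nonneg]
  congr 1
  rw [← Real.exp_zero, ← Real.image_exp_Ioi,
    integral_image_eq_integral_abs_deriv_smul measurableSet_Ioi
      (fun x _ => (Real.hasDerivAt_exp x).hasDerivWithinAt) Real.exp_injective.injOn]
  refine setIntegral_congr_fun measurableSet_Ioi fun u _ => ?_
  have hne : ((Real.exp u : ℝ) : ℂ) ≠ 0 := by
    exact_mod_cast (Real.exp_pos u).ne'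
  have hexp : Complex.exp (u : ℂ) * (Complex.exp (u : ℂ)) ^ (-(s + 1)) =
      Complex.exp (-(u : ℂ)) * Complex.exp (-(s - 1) * u) := by
    rw [← Complex.ofReal_exp, Complex.cpow_def_of_ne_zero hne,
      ← Complex.ofReal_log (Real.exp_pos u).le, Real.log_exp, Complex.ofReal_exp,
      ← Complex.exp_add, ← Complex.exp_add]
    congr 1
    ring
  rw [sum_Icc_vonMangoldt, abs_of_pos (Real.exp_pos u), Complex.real_smul, aFun]
  push_cast
  calc Complex.exp (u : ℂ) * ((Chebyshev.psi (Real.exp u) : ℂ) *
        Complex.exp (u : ℂ) ^ (-(s + 1)))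
      = (Chebyshev.psi (Real.exp u) : ℂ) *
        (Complex.exp (u : ℂ) * Complex.exp (u : ℂ) ^ (-(s + 1))) := by ring
    _ = _ := by rw [hexp]; ring

lemma integrableOn_aFun_sub_one {w : ℂ} (hw : 0 < w.re) :
    IntegrableOn (fun u : ℝ => ((aFun u : ℂ) - 1) * Complex.exp (-w * u)) (Ioi 0) := by
  refine (integrableOn_exp_mul_complex_Ioi (a := -w) (by simpa using hw) 0).bdd_mul
    (c := bCst + 1) ?_ (ae_of_all _ fun u => ?_)
  · exact ((Complex.measurable_ofReal.comp aFun_measurable).sub measurable_const).aestronglyMeasurable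
  · calc ‖(aFun u : ℂ) - 1‖ ≤ ‖(aFun u : ℂ)‖ + ‖(1 : ℂ)‖ := norm_sub_le _ _
      _ ≤ bCst + 1 := by
        rw [Complex.norm_real, Real.norm_eq_abs, abs_of_nonneg (aFun_nonneg u), norm_one]
        linarith [aFun_le u]

lemma bdry_eq {w : ℂ} (hw : 0 < w.re) :
    bdry (1 + w) = ∫ u in Ioi (0 : ℝ), ((aFun u : ℂ) - 1) * Complex.exp (-w * u) := by
  have hs : 1 < (1 + w).re := by simpa using hw
  have hne : (1 + w : ℂ) ≠ 0 := by
    intro h
    have := congrArg Complex.re h
    simp at this
    linarith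
  have hw0 : w ≠ 0 := by
    intro h
    simp [h] at hw
  have hL := lseries_eq hs
  rw [add_sub_cancel_left] at hL
  have hexp := integrableOn_exp_mul_complex_Ioi (a := -w) (by simpa using hw) 0
  have hint := integral_exp_mul_complex_Ioi (a := -w) (by simpa using hw) 0
  have hsplit : (∫ u in Ioi (0 : ℝ), (aFun u : ℂ) * Complex.exp (-w * u)) =
      (∫ u in Ioi (0 : ℝ), ((aFun u : ℂ) - 1) * Complex.exp (-w * u)) +
        ∫ u in Ioi (0 : ℝ), Complex.exp (-w * u) := by
    rw [← integral_add (integrableOn_aFun_sub_one hw) hexp]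
    congr 1
    funext u
    ring
  rw [hint] at hsplit
  rw [bdry, aux_eq hs, hL, hsplit, add_sub_cancel_left]
  simp only [Complex.ofReal_zero, mul_zero, Complex.exp_zero]
  field_simp
  ring

/-! ### The smoothed identity -/

lemma smoothed_identity {lam ε y : ℝ} (hε : 0 < ε) :
    (∫ t in (-1 : ℝ)..1, (tent t : ℂ) * Complex.exp (Complex.I * (lam * y * t : ℝ)) *
      bdry (1 + ((ε : ℂ) + (lam * t : ℝ) * Complex.I))) =
    ((∫ u in Ioi (0 : ℝ), (aFun u - 1) * Real.exp (-ε * u) * ker (lam * (y - u)) : ℝ) : ℂ) := by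
  set F : ℝ → ℝ → ℂ := fun t u => (tent t : ℂ) * Complex.exp (Complex.I * (lam * y * t : ℝ)) *
    (((aFun u : ℂ) - 1) * Complex.exp (-((ε : ℂ) + (lam * t : ℝ) * Complex.I) * u)) with hF
  have h1 : (∫ t in (-1 : ℝ)..1, (tent t : ℂ) * Complex.exp (Complex.I * (lam * y * t : ℝ)) *
      bdry (1 + ((ε : ℂ) + (lam * t : ℝ) * Complex.I))) =
      ∫ t in (-1 : ℝ)..1, ∫ u in Ioi (0 : ℝ), F t u := by
    refine intervalIntegral.integral_congr fun t _ => ?_
    rw [bdry_eq (by simpa using hε), ← integral_const_mul]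
  have hdom : Integrable (fun p : ℝ × ℝ => (1 : ℝ) * ((bCst + 1) * Real.exp (-ε * p.2)))
      ((volume.restrict (uIoc (-1 : ℝ) 1)).prod (volume.restrict (Ioi (0 : ℝ)))) := by
    have hfin : IsFiniteMeasure (volume.restrict (uIoc (-1 : ℝ) 1)) :=
      ⟨by rw [Measure.restrict_apply_univ]; exact measure_Ioc_lt_top⟩
    exact (integrable_const (1 : ℝ)).mul_prod
      ((integrableOn_exp_mul_Ioi (a := -ε) (by linarith) 0).const_mul (bCst + 1))
  have hint : Integrable (Function.uncurry F)
      ((volume.restrict (uIoc (-1 : ℝ) 1)).prod (volume.restrict (Ioi (0 : ℝ)))) := by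
    refine hdom.mono' ?_ ?_
    · refine Measurable.aestronglyMeasurable ?_
      have := aFun_measurable
      have := tent_continuous.measurable
      simp only [hF, Function.uncurry_def]
      fun_prop
    · rw [Measure.prod_restrict, ae_restrict_iff' (measurableSet_uIoc.prod measurableSet_Ioi)]
      refine ae_of_all _ fun p hp => ?_
      simp only [hF, Function.uncurry_def, norm_mul, Complex.norm_real, Complex.norm_exp,
        Real.norm_eq_abs]
      have ha : ‖(aFun p.2 : ℂ) - 1‖ ≤ bCst + 1 := by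
        calc ‖(aFun p.2 : ℂ) - 1‖ ≤ ‖(aFun p.2 : ℂ)‖ + ‖(1 : ℂ)‖ := norm_sub_le _ _
          _ ≤ bCst + 1 := by
            rw [Complex.norm_real, Real.norm_eq_abs, abs_of_nonneg (aFun_nonneg _), norm_one]
            linarith [aFun_le p.2]
      simp only [Complex.mul_re, Complex.I_re, Complex.I_im, Complex.ofReal_re, Complex.ofReal_im,
        zero_mul, mul_zero, sub_zero, Real.exp_zero, mul_one, Complex.neg_re, Complex.neg_im,
        Complex.add_re, Complex.add_im, Complex.mul_im, add_zero, zero_add]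
      refine mul_le_mul (abs_tent_le hp.1) (mul_le_mul_of_nonneg_right ha (Real.exp_pos _).le)
        (by positivity) zero_le_one
  rw [h1, intervalIntegral_integral_swap hint, ← integral_complex_ofReal]
  refine setIntegral_congr_fun measurableSet_Ioi fun u _ => ?_
  have h2 : ∀ t : ℝ, F t u = (((aFun u : ℂ) - 1) * Complex.exp (-(ε : ℂ) * u)) *
      ((tent t : ℂ) * Complex.exp (Complex.I * (lam * (y - u) * t : ℝ))) := by
    intro t
    simp only [hF]
    rw [show -((ε : ℂ) + (lam * t : ℝ) * Complex.I) * u =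
      -(ε : ℂ) * u + -((lam * t : ℝ) * Complex.I * u) by ring, Complex.exp_add]
    rw [show Complex.I * ((lam * (y - u) * t : ℝ) : ℂ) = Complex.I * (lam * y * t : ℝ) +
      -((lam * t : ℝ) * Complex.I * u) by push_cast; ring, Complex.exp_add]
    ring
  simp only [h2, intervalIntegral.integral_const_mul, tent_fourier]
  push_cast
  ring

/-- The smoothed mean of `aFun`, in the scale `lam`. -/
def mean (lam y : ℝ) : ℝ := ∫ v, aFun (y - v / lam) * ker v

lemma integrable_mean (lam y : ℝ) : Integrable fun v => aFun (y - v / lam) * ker v :=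
  ker_integrable.bdd_mul (c := bCst)
    (aFun_measurable.comp (by fun_prop)).aestronglyMeasurable
    (ae_of_all _ fun v => by
      rw [Real.norm_eq_abs, abs_of_nonneg (aFun_nonneg _)]
      exact aFun_le _)

lemma tendsto_sub_one {lam : ℝ} (hl : 0 < lam) :
    Tendsto (fun y => ∫ u in Ioi (0 : ℝ), (aFun u - 1) * ker (lam * (y - u))) atTop (𝓝 0) := by
  set K : Set ℂ := Icc (1 : ℝ) 2 ×ℂ Icc (-lam) lam with hK
  have hKc : IsCompact K := isCompact_Icc.reProdIm isCompact_Icc
  have hKs : K ⊆ {s : ℂ | 1 ≤ s.re} := fun s hs => (Complex.mem_reProdIm.1 hs).1.1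
  obtain ⟨M, hM⟩ := hKc.exists_bound_of_continuousOn (bdry_continuousOn.mono hKs)
  have hmem : ∀ ε : ℝ, ε ∈ Icc (0 : ℝ) 1 → ∀ t ∈ Icc (-1 : ℝ) 1,
      (1 + ((ε : ℂ) + (lam * t : ℝ) * Complex.I)) ∈ K := by
    intro ε hε t ht
    rw [hK, Complex.mem_reProdIm]
    simp only [Complex.add_re, Complex.one_re, Complex.ofReal_re, Complex.mul_re, Complex.I_re,
      Complex.ofReal_im, Complex.I_im, mul_zero, mul_one, sub_self, add_zero, Complex.add_im,
      Complex.one_im, Complex.mul_im, zero_add, mem_Icc]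
    refine ⟨⟨by linarith [hε.1], by linarith [hε.2]⟩, ?_, ?_⟩ <;> nlinarith [ht.1, ht.2]
  have hcont0 : ∀ ε : ℝ, ε ∈ Icc (0 : ℝ) 1 → ContinuousOn
      (fun t : ℝ => bdry (1 + ((ε : ℂ) + (lam * t : ℝ) * Complex.I))) (Icc (-1 : ℝ) 1) := by
    intro ε hε
    exact bdry_continuousOn.comp (by fun_prop : Continuous fun t : ℝ =>
      (1 : ℂ) + ((ε : ℂ) + (lam * t : ℝ) * Complex.I)).continuousOn
      fun t ht => hKs (hmem ε hε t ht)
  have hkey : ∀ y : ℝ, (∫ t in (-1 : ℝ)..1, (tent t : ℂ) *
      Complex.exp (Complex.I * (lam * y * t : ℝ)) * bdry (1 + ((lam * t : ℝ) : ℂ) * Complex.I)) =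
      ((∫ u in Ioi (0 : ℝ), (aFun u - 1) * ker (lam * (y - u)) : ℝ) : ℂ) := by
    intro y
    have hev : ∀ᶠ ε in 𝓝[>] (0 : ℝ), ε ∈ Ioc (0 : ℝ) 1 :=
      mem_of_superset (Ioo_mem_nhdsGT zero_lt_one) Ioo_subset_Ioc_self
    have hleft : Tendsto (fun ε : ℝ => ∫ t in (-1 : ℝ)..1, (tent t : ℂ) *
        Complex.exp (Complex.I * (lam * y * t : ℝ)) *
        bdry (1 + ((ε : ℂ) + (lam * t : ℝ) * Complex.I))) (𝓝[>] (0 : ℝ))
        (𝓝 (∫ t in (-1 : ℝ)..1, (tent t : ℂ) *
          Complex.exp (Complex.I * (lam * y * t : ℝ)) *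
          bdry (1 + ((lam * t : ℝ) : ℂ) * Complex.I))) := by
      refine intervalIntegral.tendsto_integral_filter_of_dominated_convergence (fun _ => 1 * M)
        ?_ ?_ intervalIntegrable_const ?_
      · filter_upwards [hev] with ε hε
        refine ContinuousOn.aestronglyMeasurable ?_ measurableSet_uIoc
        refine ContinuousOn.mono ?_ (uIoc_subset_uIcc.trans (uIcc_of_le (by norm_num)).subset)
        refine ContinuousOn.mul ?_ (hcont0 ε ⟨hε.1.le, hε.2⟩)
        have := tent_continuous
        exact (by fun_prop : Continuous fun t : ℝ => (tent t : ℂ) *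
          Complex.exp (Complex.I * (lam * y * t : ℝ))).continuousOn
      · filter_upwards [hev] with ε hε
        refine ae_of_all _ fun t ht => ?_
        have ht' : t ∈ Icc (-1 : ℝ) 1 := by
          have := uIoc_subset_uIcc ht
          rwa [uIcc_of_le (by norm_num : (-1 : ℝ) ≤ 1)] at this
        rw [norm_mul, norm_mul, Complex.norm_exp_I_mul_ofReal, mul_one, Complex.norm_real,
          Real.norm_eq_abs]
        exact mul_le_mul (abs_tent_le ht) (hM _ (hmem ε ⟨hε.1.le, hε.2⟩ t ht')) (norm_nonneg _)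
          zero_le_one
      · refine ae_of_all _ fun t ht => ?_
        have ht' : t ∈ Icc (-1 : ℝ) 1 := by
          have := uIoc_subset_uIcc ht
          rwa [uIcc_of_le (by norm_num : (-1 : ℝ) ≤ 1)] at this
        refine Tendsto.const_mul _ ?_
        have h0 := bdry_continuousOn (1 + ((lam * t : ℝ) : ℂ) * Complex.I)
          (by simp)
        refine h0.tendsto.comp (tendsto_nhdsWithin_iff.2 ⟨?_, ?_⟩)
        · have : Tendsto (fun ε : ℝ => (1 : ℂ) + ((ε : ℂ) + (lam * t : ℝ) * Complex.I))
              (𝓝[>] (0 : ℝ)) (𝓝 (1 + (((0 : ℝ) : ℂ) + (lam * t : ℝ) * Complex.I))) :=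
            ((by fun_prop : Continuous fun ε : ℝ =>
              (1 : ℂ) + ((ε : ℂ) + (lam * t : ℝ) * Complex.I)).tendsto 0).mono_left
              nhdsWithin_le_nhds
          simpa using this
        · filter_upwards [hev] with ε hε
          exact hKs (hmem ε ⟨hε.1.le, hε.2⟩ t ht')
    have hbd : Integrable (fun u => (bCst + 1) * (8 * (1 + (lam * (y - u)) ^ 2)⁻¹))
        (volume.restrict (Ioi (0 : ℝ))) :=
      (((integrable_inv_one_add_sq.comp_mul_left' hl.ne').comp_sub_left y).const_mul
        8).const_mul (bCst + 1) |>.integrableOn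
    have hright : Tendsto (fun ε : ℝ =>
        ∫ u in Ioi (0 : ℝ), (aFun u - 1) * Real.exp (-ε * u) * ker (lam * (y - u))) (𝓝[>] (0 : ℝ))
        (𝓝 (∫ u in Ioi (0 : ℝ), (aFun u - 1) * ker (lam * (y - u)))) := by
      refine tendsto_integral_filter_of_dominated_convergence _ ?_ ?_ hbd ?_
      · refine Eventually.of_forall fun ε => Measurable.aestronglyMeasurable ?_
        have := aFun_measurable
        have := ker_continuous.measurable
        fun_prop
      · filter_upwards [hev] with ε hε
        rw [ae_restrict_iff' measurableSet_Ioi]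
        refine ae_of_all _ fun u hu => ?_
        rw [Real.norm_eq_abs, abs_mul, abs_mul, abs_of_nonneg (ker_nonneg _),
          abs_of_pos (Real.exp_pos _)]
        have ha : |aFun u - 1| ≤ bCst + 1 := by
          rw [abs_le]
          constructor <;> linarith [aFun_nonneg u, aFun_le u, bCst_pos]
        have he : Real.exp (-ε * u) ≤ 1 := Real.exp_le_one_iff.2 (by
          have := mul_pos hε.1 (mem_Ioi.1 hu)
          linarith)
        calc |aFun u - 1| * Real.exp (-ε * u) * ker (lam * (y - u))
            ≤ (bCst + 1) * 1 * (8 * (1 + (lam * (y - u)) ^ 2)⁻¹) :=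
              mul_le_mul (mul_le_mul ha he (Real.exp_pos _).le (by linarith [bCst_pos]))
                (ker_le _) (ker_nonneg _) (by linarith [bCst_pos])
          _ = _ := by rw [mul_one]
      · refine ae_of_all _ fun u => ?_
        have h : Tendsto (fun ε : ℝ => (aFun u - 1) * Real.exp (-ε * u) * ker (lam * (y - u)))
            (𝓝[>] (0 : ℝ)) (𝓝 ((aFun u - 1) * Real.exp (-0 * u) * ker (lam * (y - u)))) :=
          ((by fun_prop : Continuous fun ε : ℝ =>
            (aFun u - 1) * Real.exp (-ε * u) * ker (lam * (y - u))).tendsto 0).mono_left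
            nhdsWithin_le_nhds
        simpa using h
    refine tendsto_nhds_unique hleft ?_
    refine ((Complex.continuous_ofReal.tendsto _).comp hright).congr' ?_
    filter_upwards [self_mem_nhdsWithin] with ε hε
    exact (smoothed_identity (mem_Ioi.1 hε)).symm
  have hrl : Tendsto (fun y : ℝ => ∫ v : ℝ, 𝐞 (-(v * (-(lam * y) / (2 * Real.pi)))) •
      (Ioc (-1 : ℝ) 1).indicator
        (fun t : ℝ => (tent t : ℂ) * bdry (1 + ((lam * t : ℝ) : ℂ) * Complex.I)) v)
      atTop (𝓝 0) := by
    refine (Real.tendsto_integral_exp_smul_cocompact _).comp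
      (Tendsto.mono_right ?_ atBot_le_cocompact)
    exact (tendsto_neg_atTop_atBot.comp (tendsto_id.const_mul_atTop hl)).atBot_div_const
      (by positivity)
  have hcast : Tendsto (fun y : ℝ =>
      ((∫ u in Ioi (0 : ℝ), (aFun u - 1) * ker (lam * (y - u)) : ℝ) : ℂ)) atTop (𝓝 0) := by
    refine hrl.congr fun y => ?_
    rw [← hkey y, intervalIntegral.integral_of_le (by norm_num : (-1 : ℝ) ≤ 1),
      ← integral_indicator measurableSet_Ioc]
    refine integral_congr_ae (ae_of_all _ fun v => ?_)
    by_cases hv : v ∈ Ioc (-1 : ℝ) 1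
    · simp only [Set.indicator_of_mem hv, Circle.smul_def, Real.fourierChar_apply, smul_eq_mul]
      rw [show ((2 * Real.pi * -(v * (-(lam * y) / (2 * Real.pi))) : ℝ) : ℂ) * Complex.I =
        Complex.I * (lam * y * v : ℝ) by
          rw [show 2 * Real.pi * -(v * (-(lam * y) / (2 * Real.pi))) = lam * y * v by
            field_simp]
          ring]
      ring
    · simp [Set.indicator_of_notMem hv]
  simpa [Function.comp_def] using (Complex.continuous_re.tendsto 0).comp hcast

lemma mean_tendsto {lam : ℝ} (hl : 0 < lam) :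
    Tendsto (mean lam) atTop (𝓝 (∫ v, ker v)) := by
  have hstep : ∀ y, lam * (∫ u in Ioi (0 : ℝ), (aFun u - 1) * ker (lam * (y - u))) =
      mean lam y - ∫ v in Iio (lam * y), ker v := by
    intro y
    set g : ℝ → ℝ := fun u => (Ioi (0 : ℝ)).indicator (fun u => (aFun u - 1) * ker (lam * (y - u))) u
      with hg
    rw [← integral_indicator measurableSet_Ioi]
    have h1 : lam * ∫ u, g u = ∫ v, g (y - v / lam) := by
      rw [Measure.integral_comp_div (fun w => g (y - w)) lam,
        integral_sub_left_eq_self g volume y, abs_of_pos hl, smul_eq_mul]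
    rw [h1, mean, ← integral_indicator measurableSet_Iio,
      ← integral_sub (integrable_mean lam y) (ker_integrable.indicator measurableSet_Iio)]
    refine integral_congr_ae (ae_of_all _ fun v => ?_)
    have hv : lam * (y - (y - v / lam)) = v := by field_simp; ring
    by_cases h : v < lam * y
    · have h2 : y - v / lam ∈ Ioi (0 : ℝ) := by
        rw [mem_Ioi, sub_pos, div_lt_iff₀ hl]; linarith
      simp only [hg, Set.indicator_of_mem h2, Set.indicator_of_mem (mem_Iio.2 h), hv]
      ring
    · have h2 : y - v / lam ∉ Ioi (0 : ℝ) := by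
        rw [mem_Ioi, sub_pos, div_lt_iff₀ hl]; linarith
      simp only [hg, Set.indicator_of_notMem h2, Set.indicator_of_notMem
        (show v ∉ Iio (lam * y) from h), aFun_of_nonpos (not_lt.1 h2)]
      ring
  have hI : Tendsto (fun y => ∫ v in Iio (lam * y), ker v) atTop (𝓝 (∫ v, ker v)) := by
    have hcov : AECover volume atTop fun y : ℝ => Iio (lam * y) :=
      aecover_Iio (tendsto_id.const_mul_atTop hl)
    exact hcov.integral_tendsto_of_countably_generated ker_integrable
  have h := ((tendsto_sub_one hl).const_mul lam).add hI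
  rw [mul_zero, zero_add] at h
  refine h.congr fun y => ?_
  rw [hstep]
  ring

/-- `aFun` tends to one. -/
lemma aFun_tendsto : Tendsto aFun atTop (𝓝 1) := by
  set J := ∫ v, ker v with hJ
  have hJ0 : 0 < J := ker_integral_pos
  set JR : ℝ → ℝ := fun R => ∫ v in (-R)..R, ker v with hJR
  have hJRt : Tendsto JR atTop (𝓝 J) :=
    intervalIntegral_tendsto_integral ker_integrable tendsto_neg_atTop_atBot tendsto_id
  have hexp : ∀ k : ℝ, Tendsto (fun R : ℝ => Real.exp (k / R)) atTop (𝓝 1) := by
    intro k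
    simpa [Function.comp_def] using
      (Real.continuous_exp.tendsto 0).comp (tendsto_const_nhds (x := k) |>.div_atTop tendsto_id)
  have hrange : ∀ {R v : ℝ}, 0 < R → v ∈ Ioc (-R) R → |v / R ^ 2| ≤ 1 / R := by
    intro R v hR hv
    rw [abs_div, abs_of_pos (by positivity : 0 < R ^ 2), div_le_div_iff₀ (by positivity) hR]
    have : |v| ≤ R := abs_le.2 ⟨hv.1.le, hv.2⟩
    nlinarith
  have hlow : ∀ {R : ℝ}, 0 < R → ∀ y,
      aFun (y - 1 / R) * Real.exp (-(2 / R)) * JR R ≤ mean (R ^ 2) y := by
    intro R hR y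
    simp only [hJR]
    rw [intervalIntegral.integral_of_le (by linarith), ← integral_const_mul]
    refine le_trans ?_ (setIntegral_le_integral (s := Ioc (-R) R) (integrable_mean _ _)
      (ae_of_all _ fun v => mul_nonneg (aFun_nonneg _) (ker_nonneg v)))
    refine setIntegral_mono_on (ker_integrable.const_mul _).integrableOn
      (integrable_mean _ _).integrableOn measurableSet_Ioc fun v hv => ?_
    refine mul_le_mul_of_nonneg_right ?_ (ker_nonneg v)
    obtain ⟨h1, h2⟩ := abs_le.1 (hrange hR hv)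
    refine le_trans (mul_le_mul_of_nonneg_left (Real.exp_le_exp.2 ?_) (aFun_nonneg _))
      (aFun_shift (by linarith : y - 1 / R ≤ y - v / R ^ 2))
    rw [show (2 : ℝ) / R = 2 * (1 / R) by ring]
    linarith
  have hupp : ∀ {R : ℝ}, 0 < R → ∀ y,
      mean (R ^ 2) y ≤ aFun (y + 1 / R) * Real.exp (2 / R) * J + bCst * (J - JR R) := by
    intro R hR y
    simp only [hJR]
    rw [intervalIntegral.integral_of_le (by linarith), mean,
      ← integral_add_compl measurableSet_Ioc (integrable_mean _ _) (s := Ioc (-R) R)]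
    have hc : J - ∫ v in Ioc (-R) R, ker v = ∫ v in (Ioc (-R) R)ᶜ, ker v := by
      rw [hJ, ← integral_add_compl measurableSet_Ioc ker_integrable (s := Ioc (-R) R)]
      ring
    rw [hc]
    refine add_le_add ?_ ?_
    · rw [hJ, ← integral_const_mul]
      refine le_trans ?_ (setIntegral_le_integral (s := Ioc (-R) R) (ker_integrable.const_mul _)
        (ae_of_all _ fun v => mul_nonneg (mul_nonneg (aFun_nonneg _) (Real.exp_pos _).le)
          (ker_nonneg v)))
      refine setIntegral_mono_on (integrable_mean _ _).integrableOn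
        (ker_integrable.const_mul _).integrableOn measurableSet_Ioc fun v hv => ?_
      refine mul_le_mul_of_nonneg_right ?_ (ker_nonneg v)
      obtain ⟨h1, h2⟩ := abs_le.1 (hrange hR hv)
      have h3 := aFun_shift (by linarith : y - v / R ^ 2 ≤ y + 1 / R)
      calc aFun (y - v / R ^ 2) = aFun (y - v / R ^ 2) *
            Real.exp ((y - v / R ^ 2) - (y + 1 / R)) *
            Real.exp ((y + 1 / R) - (y - v / R ^ 2)) := by
            rw [mul_assoc, ← Real.exp_add]
            ring_nf
            rw [Real.exp_zero, mul_one]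
        _ ≤ aFun (y + 1 / R) * Real.exp (2 / R) := by
            refine mul_le_mul h3 (Real.exp_le_exp.2 ?_) (Real.exp_pos _).le (aFun_nonneg _)
            rw [show (2 : ℝ) / R = 2 * (1 / R) by ring]
            linarith
    · rw [← integral_const_mul]
      refine setIntegral_mono_on (integrable_mean _ _).integrableOn
        (ker_integrable.const_mul _).integrableOn measurableSet_Ioc.compl fun v _ => ?_
      exact mul_le_mul_of_nonneg_right (aFun_le _) (ker_nonneg v)
  rw [tendsto_order]
  refine ⟨fun c hc => ?_, fun c hc => ?_⟩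
  · have hlim : Tendsto (fun R : ℝ => c * Real.exp (2 / R) * J + bCst * (J - JR R)) atTop
        (𝓝 (c * 1 * J + bCst * (J - J))) :=
      (((hexp 2).const_mul c).mul_const J).add ((hJRt.const_sub J).const_mul bCst)
    have hlt : c * 1 * J + bCst * (J - J) < J := by
      rw [sub_self, mul_zero, add_zero, mul_one]
      nlinarith
    obtain ⟨R, hRlt, hR⟩ := ((hlim.eventually_lt_const hlt).and (eventually_gt_atTop 0)).exists
    have hev := (mean_tendsto (lam := R ^ 2) (by positivity)).eventually_const_lt hRlt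
    have hev2 := (tendsto_atTop_add_const_right atTop (-(1 / R)) tendsto_id).eventually hev
    filter_upwards [hev2] with u hu
    simp only [id_eq] at hu
    have h := hupp hR (u + -(1 / R))
    rw [neg_add_cancel_right] at h
    have hp : c * (Real.exp (2 / R) * J) < aFun u * (Real.exp (2 / R) * J) := by linarith
    exact lt_of_mul_lt_mul_right hp (by positivity)
  · have hlim : Tendsto (fun R : ℝ => c * Real.exp (-(2 / R)) * JR R) atTop (𝓝 (c * 1 * J)) := by
      refine (Tendsto.const_mul c ?_).mul hJRt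
      simpa [neg_div] using hexp (-2)
    have hlt : J < c * 1 * J := by nlinarith
    obtain ⟨R, hRlt, hR⟩ := ((hlim.eventually_const_lt hlt).and (eventually_gt_atTop 0)).exists
    have hev := (mean_tendsto (lam := R ^ 2) (by positivity)).eventually_lt_const hRlt
    have hev2 := (tendsto_atTop_add_const_right atTop (1 / R) tendsto_id).eventually hev
    filter_upwards [hev2] with u hu
    simp only [id_eq] at hu
    have h := hlow hR (u + 1 / R)
    rw [add_sub_cancel_right] at h
    have hJRnn : 0 ≤ JR R := intervalIntegral.integral_nonneg (by linarith) fun v _ => ker_nonneg v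
    have hp : aFun u * (Real.exp (-(2 / R)) * JR R) < c * (Real.exp (-(2 / R)) * JR R) := by
      linarith
    exact lt_of_mul_lt_mul_right hp (by positivity)

end PNT

open PNT in
/-- The prime number theorem in the form `ψ(x) ∼ x`. -/
theorem psi_tendsto : Tendsto (fun x : ℝ => Chebyshev.psi x / x) atTop (𝓝 1) := by
  refine (aFun_tendsto.comp Real.tendsto_log_atTop).congr' ?_
  filter_upwards [eventually_gt_atTop 0] with x hx
  simp only [Function.comp_apply, aFun, Real.exp_log hx, Real.exp_neg]
  rw [div_eq_mul_inv]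

/-- The prime number theorem. -/
theorem pnt : Tendsto (fun x : ℝ => (Nat.primeCounting ⌊x⌋₊ : ℝ) * Real.log x / x) atTop (𝓝 1) := by
  have h1 : Tendsto (fun x : ℝ => (Chebyshev.psi x - Chebyshev.theta x) / x) atTop (𝓝 0) := by
    refine (Chebyshev.isBigO_psi_sub_theta_sqrt.trans_isLittleO ?_).tendsto_div_nhds_zero
    refine Asymptotics.isLittleO_of_tendsto' ?_ ?_
    · filter_upwards [eventually_gt_atTop 0] with x hx h0
      exact absurd h0 hx.ne'
    · refine (tendsto_inv_atTop_zero.comp Real.tendsto_sqrt_atTop).congr' ?_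
      filter_upwards [eventually_gt_atTop 0] with x hx
      simp only [Function.comp_apply, Real.sqrt_div_self]
  have htheta : Tendsto (fun x : ℝ => Chebyshev.theta x / x) atTop (𝓝 1) := by
    have := psi_tendsto.sub h1
    rw [sub_zero] at this
    refine this.congr fun x => ?_
    ring
  have h2 : Tendsto (fun x : ℝ => ((Nat.primeCounting ⌊x⌋₊ : ℝ) -
      Chebyshev.theta x / Real.log x) * Real.log x / x) atTop (𝓝 0) := by
    have hO := Chebyshev.primeCounting_sub_theta_div_log_isBigO
    have h3 : (fun x : ℝ => ((Nat.primeCounting ⌊x⌋₊ : ℝ) -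
        Chebyshev.theta x / Real.log x) * (Real.log x / x)) =O[atTop]
        fun x : ℝ => x / Real.log x ^ 2 * (Real.log x / x) :=
      hO.mul (Asymptotics.isBigO_refl _ _)
    refine (h3.trans_tendsto ?_).congr fun x => (mul_div_assoc _ _ _).symm
    refine (tendsto_inv_atTop_zero.comp Real.tendsto_log_atTop).congr' ?_
    filter_upwards [eventually_gt_atTop 1] with x hx
    have := Real.log_pos hx
    simp only [Function.comp_apply]
    field_simp
  have h4 := htheta.add h2
  rw [add_zero] at h4
  refine h4.congr' ?_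
  filter_upwards [eventually_gt_atTop 1] with x hx
  have := Real.log_pos hx
  field_simp
  ring

end Vale.Agent.P031
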