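import Vale.Agent.P031.Crude

/-!
# P031: the profile of almost every totient
-/

namespace Vale.Agent.P031.Rankin

open Finset

noncomputable section

theorem exists_large_exp : ∀ᶠ l : ℝ in Filter.atTop, (l ^ 2 + 3) ^ 4 ≤ Real.exp l := by
  filter_upwards [Filter.eventually_ge_atTop (16 * 362880 : ℝ)] with l hl
  have h1 := Real.pow_div_factorial_le_exp l (show (0 : ℝ) ≤ l by linarith) 9
  rw [show Nat.factorial 9 = 362880 from rfl, div_le_iff₀ (by norm_num)] at h1
  have h2 : (l ^ 2 + 3) ^ 4 ≤ (2 * l ^ 2) ^ 4 := pow_le_pow_left₀ (by positivity) (by nlinarith) 4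
  have h3 := mul_le_mul_of_nonneg_right hl (show (0 : ℝ) ≤ l ^ 8 by positivity)
  push_cast at h1
  nlinarith [Real.exp_pos l]

theorem eventually_Lg_pow_le (C : ℝ) :
    ∀ᶠ l : ℝ in Filter.atTop, C * Lg l ^ 5 ≤ l ^ (1 / 20 : ℝ) := by
  have h := (isLittleO_log_rpow_rpow_atTop (5 : ℝ) (show (0 : ℝ) < 1 / 20 by norm_num)).bound
    (show (0 : ℝ) < 1 / (|C| + 1) by positivity)
  filter_upwards [h, Filter.eventually_ge_atTop (1 : ℝ)] with l hl hl1
  have hL : 0 ≤ Real.log l := Real.log_nonneg hl1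
  rw [show ((5 : ℝ)) = ((5 : ℕ) : ℝ) by norm_num, Real.rpow_natCast,
    Real.norm_of_nonneg (pow_nonneg hL 5),
    Real.norm_of_nonneg (Real.rpow_nonneg (by linarith : (0 : ℝ) ≤ l) _),
    div_mul_eq_mul_div, one_mul, le_div_iff₀ (by positivity : (0 : ℝ) < |C| + 1)] at hl
  have h2 : C * Lg l ^ 5 ≤ (|C| + 1) * Lg l ^ 5 :=
    mul_le_mul_of_nonneg_right (by linarith [le_abs_self C]) (pow_nonneg hL 5)
  unfold Lg at h2 ⊢
  linarith

theorem log_le_two_mul_sub {N : ℕ} {L : ℝ} (hN : (N : ℝ) ≤ L ^ 2 + 1) (hL : 2 ≤ L) :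
    Real.log N ≤ 2 * L := by
  rcases Nat.eq_zero_or_pos N with rfl | h
  · simp; linarith
  have h1 : (0 : ℝ) < N := by exact_mod_cast h
  refine (Real.log_le_log h1 (hN.trans (show L ^ 2 + 1 ≤ (L + 1) ^ 2 by nlinarith))).trans ?_
  rw [Real.log_pow]
  push_cast
  linarith [Real.log_le_sub_one_of_pos (show (0 : ℝ) < L + 1 by linarith)]

theorem Esup_le_exp {A : ℝ} (hA0 : 0 ≤ A)
    (h : ∀ n : ℕ, Esup n ≤ Real.exp (A * Real.log ((n : ℝ) + 2) ^ 2)) {l : ℝ} (hl : 5 ≤ l) :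
    Esup ⌈l + 2⌉₊ ≤ Real.exp (4 * A * Lg l ^ 2) := by
  refine (h _).trans (Real.exp_le_exp.2 ?_)
  have hE := Nat.ceil_lt_add_one (show (0 : ℝ) ≤ l + 2 by linarith)
  have h1 : Real.log ((⌈l + 2⌉₊ : ℝ) + 2) ≤ 2 * Lg l := by
    refine (Real.log_le_log (by positivity) (show _ ≤ l ^ 2 by nlinarith)).trans ?_
    rw [Real.log_pow, Lg]
    norm_num
  have h2 := pow_le_pow_left₀
    (Real.log_nonneg (by linarith [Nat.cast_nonneg (α := ℝ) ⌈l + 2⌉₊])) h1 2
  nlinarith [mul_le_mul_of_nonneg_left h2 hA0]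

theorem sum_filter_shift {k j : ℕ} (h : j ≤ k) (f : Fin k → ℝ) :
    ∑ a : Fin (k - j), f (shiftEmb j (k - j) (by omega) a)
      = ∑ i : Fin k, if ¬i.val < j then f i else 0 := by
  rw [← sum_filter, ← map_shift h, sum_map]

theorem inner_exponent {P L : ℝ} {N e u₀ : ℕ} (hP0 : 0 ≤ P) (hL50 : 50 ≤ L) (hLP : 4 * P ≤ L)
    (hN2 : (N : ℝ) ≤ L ^ 2) (hu₀ : (u₀ : ℝ) ≤ L + 1) (hZe : L ^ 80 ≤ (e : ℝ)) :
    -((L ^ 6)⁻¹ * (e : ℝ) - 2) + perr N u₀ e + N * Real.log ((e : ℝ) + 1) + P * ((N : ℝ) + 1) ^ 2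
      ≤ -(L ^ 10) := by
  set r := (e : ℝ) ^ (1 / 4 : ℝ) with hr
  have hr0 : 0 ≤ r := by positivity
  have hr4 : r ^ 4 = e := by
    rw [hr, ← Real.rpow_natCast, ← Real.rpow_mul (Nat.cast_nonneg e)]; norm_num
  have hT : T0 e = r ^ 3 := by
    rw [T0, hr, ← Real.rpow_natCast, ← Real.rpow_mul (Nat.cast_nonneg e)]; norm_num
  have hrL : L ^ 20 ≤ r := by
    refine le_of_pow_le_pow_left₀ (by norm_num : 4 ≠ 0) hr0 ?_
    rw [hr4, ← pow_mul]
    exact hZe
  have hr1 : 1 ≤ r := (one_le_pow₀ (by linarith)).trans hrL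
  have hlog : Real.log ((e : ℝ) + 1) ≤ 4 * r := by
    rw [← hr4]
    have h1 : r ^ 4 + 1 ≤ (r + 1) ^ 4 := by nlinarith [pow_nonneg hr0 2, pow_nonneg hr0 3]
    refine (Real.log_le_log (by positivity) h1).trans ?_
    rw [Real.log_pow]
    push_cast
    linarith [Real.log_le_sub_one_of_pos (show (0 : ℝ) < r + 1 by linarith)]
  have h3 : r ≤ r ^ 3 := le_self_pow₀ hr1 (by norm_num)
  have hLr : L ≤ r ^ 3 :=
    ((le_self_pow₀ (by linarith) (by norm_num : (20 : ℕ) ≠ 0)).trans hrL).trans h3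
  have hu : (u₀ : ℝ) ≤ 2 * r ^ 3 := by
    linarith
  have hperr : perr N u₀ e ≤ 8 * L ^ 3 * r ^ 3 := by
    rw [perr, hT]
    have hl0 := Real.log_natCast_nonneg N
    calc ((u₀ : ℝ) + 2 * r ^ 3) * N * Real.log N ≤ 4 * r ^ 3 * L ^ 2 * (2 * L) := by
          gcongr
          · linarith
          · exact log_le_two_mul_sub (by linarith) (by linarith)
      _ = 8 * L ^ 3 * r ^ 3 := by ring
  have hNlog : (N : ℝ) * Real.log ((e : ℝ) + 1) ≤ 4 * L ^ 2 * r ^ 3 := by
    calc (N : ℝ) * Real.log ((e : ℝ) + 1) ≤ L ^ 2 * (4 * r ^ 3) :=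
          mul_le_mul hN2 (hlog.trans (by linarith))
            (Real.log_nonneg (by linarith [Nat.cast_nonneg (α := ℝ) e])) (by positivity)
      _ = _ := by ring
  have hPN : P * ((N : ℝ) + 1) ^ 2 ≤ L ^ 5 * r ^ 3 := by
    have h1 : ((N : ℝ) + 1) ^ 2 ≤ 4 * L ^ 4 :=
      (pow_le_pow_left₀ (by positivity) (show (N : ℝ) + 1 ≤ 2 * L ^ 2 by nlinarith) 2).trans
        (le_of_eq (by ring))
    have h2 := mul_le_mul_of_nonneg_left h1 hP0
    have h4 := mul_le_mul_of_nonneg_right (show 4 * P ≤ L by linarith)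
      (show 0 ≤ L ^ 4 by positivity)
    have h5 := mul_le_mul_of_nonneg_left (one_le_pow₀ (n := 3) hr1)
      (show 0 ≤ L ^ 5 by positivity)
    nlinarith
  have hmain : L ^ 14 * r ^ 3 ≤ (L ^ 6)⁻¹ * (e : ℝ) := by
    rw [← hr4, inv_mul_eq_div, le_div_iff₀ (pow_pos (by linarith) 6)]
    calc L ^ 14 * r ^ 3 * L ^ 6 = L ^ 20 * r ^ 3 := by ring
      _ ≤ r * r ^ 3 := mul_le_mul_of_nonneg_right hrL (by positivity)
      _ = r ^ 4 := by ring
  have hpow : 8 * L ^ 3 + 4 * L ^ 2 + L ^ 5 + L ^ 10 + 2 ≤ L ^ 14 := by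
    have a1 : L ^ 3 ≤ L ^ 10 := pow_le_pow_right₀ (by linarith) (by norm_num)
    have a2 : L ^ 2 ≤ L ^ 10 := pow_le_pow_right₀ (by linarith) (by norm_num)
    have a3 : L ^ 5 ≤ L ^ 10 := pow_le_pow_right₀ (by linarith) (by norm_num)
    have a4 : (1 : ℝ) ≤ L ^ 10 := one_le_pow₀ (by linarith)
    have a5 : L ^ 10 * 16 ≤ L ^ 14 := by
      rw [show L ^ 14 = L ^ 10 * L ^ 4 by ring]
      gcongr
      nlinarith [pow_le_pow_left₀ (by norm_num : (0 : ℝ) ≤ 2) (by linarith : 2 ≤ L) 4]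
    linarith
  have h6 := mul_le_mul_of_nonneg_right hpow (show 0 ≤ r ^ 3 by positivity)
  have h7 : L ^ 10 * 1 ≤ L ^ 10 * r ^ 3 :=
    mul_le_mul_of_nonneg_left (one_le_pow₀ hr1) (by positivity)
  have h8 : (2 : ℝ) * 1 ≤ 2 * r ^ 3 := mul_le_mul_of_nonneg_left (one_le_pow₀ hr1) (by norm_num)
  nlinarith

theorem _root_.Vale.Agent.P031.innerFail (hE : EulerTarget) (hW : WindowTarget)
    (hA : AbnormalTarget) : InnerFailTarget := by
  obtain ⟨A, hA0, hEsup⟩ := esup_bound hE hW hA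
  obtain ⟨P, hP0, hprof⟩ := profile_sum hE
  filter_upwards [Lg_tendsto.eventually_ge_atTop (50 + 4 * A + 4 * P),
    Filter.eventually_ge_atTop (5 : ℝ), exists_large_exp] with l hL hl hexp
  intro U hU
  set L := Lg l with hLdef
  have hL50 : 50 ≤ L := by linarith
  have hlL : Real.exp L = l := Real.exp_log (by linarith)
  have hLl : L ≤ l := by linarith [Real.add_one_le_exp L]
  have hK : (Kp l : ℝ) ≤ L ^ 2 := Nat.floor_le (sq_nonneg _)
  have hLZ : L + 1 ≤ Zp l := by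
    have h1 : L ^ 2 ≤ Zp l := pow_le_pow_right₀ (by linarith) (by norm_num)
    nlinarith
  set u₀ := ⌈L⌉₊ with hu₀
  set E := ⌈l + 2⌉₊ with hEdef
  set η := eta l with hη
  have hη0 : 0 < η := by rw [hη, eta]; exact inv_pos.2 (pow_pos (by linarith) 6)
  have hη1 : η ≤ 1 := by
    rw [hη, eta]
    exact inv_le_one_of_one_le₀ (one_le_pow₀ (by linarith))
  have key : ∀ u ∈ U, ∃ x ∈ ((range (E + 1)) ×ˢ range (Kp l + 1)).filter
      (fun x : ℕ × ℕ => Zp l ≤ (x.1 : ℝ)), ∃ a b : ℕ, Good E a ∧ (Good x.1 b ∧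
      ∃ q : Fin x.2 → ℕ, Antitone (fun i => cell (q i)) ∧
        (∀ i, Normal (q i) ∧ u₀ ≤ cell (q i) ∧ cell (q i) ≤ x.1) ∧ (∏ i, (q i - 1)) ∣ b ∧
        (x.1 : ℝ) + (η * (x.1 : ℝ) - 2) ≤ tailC (fun i => cell (q i))) ∧ u = a * b := by
    intro u hu
    obtain ⟨k, hk, p, hanti, hp, hinner, rfl⟩ := hU u hu
    have hpr : ∀ i, (p i).Prime := fun i => (hp i).1.1
    obtain ⟨j, hj⟩ : ∃ j : Fin k,
        ¬tail (fun i => X (p i)) j ≤ (1 + η) * X (p j) := not_forall.1 hinner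
    rw [not_le] at hj
    refine ⟨(cell (p j), k - j.val), mem_filter.2 ⟨mem_product.2
      ⟨mem_range.2 (Nat.lt_succ_of_le (Nat.ceil_mono (hp j).2.2)), mem_range.2 (by omega)⟩,
      (hp j).2.1.le.trans (X_le_cell _)⟩,
      ∏ i ∈ univ.filter (fun i : Fin k => i.val < j.val), (p i - 1),
      ∏ i ∈ univ.filter (fun i : Fin k => ¬i.val < j.val), (p i - 1),
      good_prod _ _ (fun i _ => hpr i) (fun a _ b _ h => hanti.injective h)
        (fun i _ => Nat.ceil_mono (hp i).2.2),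
      ⟨good_prod _ _ (fun i _ => hpr i) (fun a _ b _ h => hanti.injective h) (fun i hi =>
        cell_le_cell (hpr i) (hanti.antitone (Fin.le_def.2 (not_lt.1 (mem_filter.1 hi).2)))),
        fun a => p (shiftEmb j.val (k - j.val) (by omega) a),
        cell_antitone (fun a => hpr _) (fun a b hab => hanti (Fin.mk_lt_mk.2 (by
          have : a.val < b.val := hab
          omega))),
        fun a => ⟨(hp _).1, ?_, ?_⟩, ?_, ?_⟩,
      (prod_filter_mul_prod_filter_not _ _ _).symm⟩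
    · refine Nat.ceil_le.2 ?_
      have := (hp (shiftEmb j.val (k - j.val) (by omega) a)).2.1
      have := X_le_cell (p (shiftEmb j.val (k - j.val) (by omega) a))
      linarith
    · exact cell_le_cell (hpr _) (hanti.antitone (Fin.le_def.2 (Nat.le_add_right j.val a.val)))
    · rw [← map_shift j.isLt.le, prod_map]
    · have hXj : 0 ≤ X (p j) := by linarith [(hp j).2.1]
      have hcj : (cell (p j) : ℝ) ≤ X (p j) + 1 := (cell_lt_add_one hXj).le
      have htail : tail (fun i => X (p i)) j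
          ≤ tailC (fun a => cell (p (shiftEmb j.val (k - j.val) (by omega) a))) := by
        have e : tailC (fun a => cell (p (shiftEmb j.val (k - j.val) (by omega) a)))
            = ∑ i : Fin k, if j < i then aC (i.val - j.val) * (cell (p i) : ℝ) else 0 := by
          have h1 := sum_filter_shift j.isLt.le
            fun i : Fin k => if j < i then aC (i.val - j.val) * (cell (p i) : ℝ) else 0
          rw [sum_congr rfl fun i _ => show (if ¬i.val < j.val then
              (if j < i then aC (i.val - j.val) * (cell (p i) : ℝ) else 0) else 0)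
              = (if j < i then aC (i.val - j.val) * (cell (p i) : ℝ) else 0) by
            by_cases h : j < i
            · rw [if_pos (not_lt.2 (le_of_lt (Fin.lt_def.1 h)))]
            · simp [h]] at h1
          rw [← h1, tailC]
          refine sum_congr rfl fun a _ => ?_
          have hval : ∀ h : j.val + (k - j.val) ≤ k,
              (shiftEmb j.val (k - j.val) h a).val = j.val + a.val := fun _ => rfl
          simp only [Fin.lt_def, hval]
          split_ifs with ha hb hb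
          · rw [Nat.add_sub_cancel_left]
          · omega
          · omega
          · rfl
        rw [e]
        refine sum_le_sum fun i _ => ?_
        split_ifs with h
        · exact mul_le_mul_of_nonneg_left (X_le_cell _)
            (aC_nonneg (by have : j.val < i.val := h; omega))
        · exact le_rfl
      have h2 := mul_le_mul_of_nonneg_left hcj hη0.le
      show (cell (p j) : ℝ) + (η * (cell (p j) : ℝ) - 2) ≤ _
      linarith
  refine (split_bound hE _ (P := fun (x : ℕ × ℕ) b => Good x.1 b ∧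
      ∃ q : Fin x.2 → ℕ, Antitone (fun i => cell (q i)) ∧
        (∀ i, Normal (q i) ∧ u₀ ≤ cell (q i) ∧ cell (q i) ≤ x.1) ∧ (∏ i, (q i - 1)) ∣ b ∧
        (x.1 : ℝ) + (η * (x.1 : ℝ) - 2) ≤ tailC (fun i => cell (q i)))
    (β := Real.exp (-(L ^ 10))) (fun x hx V hV => ?_) key).trans ?_
  · obtain ⟨e, N⟩ := x
    rw [mem_filter, mem_product, mem_range, mem_range] at hx
    simp only at hx hV ⊢
    obtain ⟨⟨-, hN⟩, hZe⟩ := hx
    have hN2 : (N : ℝ) ≤ L ^ 2 := le_trans (by exact_mod_cast Nat.le_of_lt_succ hN) hK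
    refine (hprof N e u₀ e (η * (e : ℝ) - 2) V ?_ fun v hv =>
      ⟨(hV v hv).1.one_le, (hV v hv).1.smooth, (hV v hv).2⟩).trans (Real.exp_le_exp.2 ?_)
    · calc ((N : ℝ) + 1) ^ 4 ≤ (l ^ 2 + 3) ^ 4 := by
            refine pow_le_pow_left₀ (by positivity) ?_ 4
            nlinarith [pow_le_pow_left₀ (by linarith : (0 : ℝ) ≤ L) hLl 2]
        _ ≤ Real.exp l := hexp
        _ ≤ Real.exp (Real.exp u₀) := by
            rw [← hlL]
            exact Real.exp_le_exp.2 (Real.exp_le_exp.2 (Nat.le_ceil L))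
    · exact inner_exponent hP0 (by linarith) (by linarith) hN2
        (Nat.ceil_lt_add_one (by linarith)).le hZe
  · have hE3 : (E : ℝ) < l + 3 := by
      have := Nat.ceil_lt_add_one (show (0 : ℝ) ≤ l + 2 by linarith); linarith
    have hcard : (((((range (E + 1)) ×ˢ range (Kp l + 1)).filter
        (fun x : ℕ × ℕ => Zp l ≤ (x.1 : ℝ))).card : ℕ) : ℝ) ≤ Real.exp (L + 1) * Real.exp (L ^ 2) := by
      have h1 : (((range (E + 1)) ×ˢ range (Kp l + 1)).filter
          (fun x : ℕ × ℕ => Zp l ≤ (x.1 : ℝ))).card ≤ (E + 1) * (Kp l + 1) :=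
        (card_filter_le _ _).trans (by rw [card_product, card_range, card_range])
      refine (Nat.cast_le.2 h1).trans ?_
      push_cast
      refine mul_le_mul ?_ ?_ (by positivity) (Real.exp_pos _).le
      · rw [Real.exp_add, hlL]
        have := Real.exp_one_gt_d9
        nlinarith
      · linarith [Real.add_one_le_exp (L ^ 2)]
    refine (mul_le_mul hcard (mul_le_mul_of_nonneg_right (Esup_le_exp hA0 hEsup hl)
      (Real.exp_pos _).le) (mul_nonneg (zero_le_one.trans (one_le_esup hE E)) (Real.exp_pos _).le)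
      (by positivity)).trans ?_
    rw [← Real.exp_add, ← Real.exp_add, ← Real.exp_add, ← hLdef]
    apply Real.exp_le_exp.2
    have a1 : L ^ 2 ≤ L ^ 5 := pow_le_pow_right₀ (by linarith) (by norm_num)
    have a2 : L ≤ L ^ 5 := le_self_pow₀ (by linarith) (by norm_num)
    have a4 : (1 : ℝ) ≤ L ^ 5 := one_le_pow₀ (by linarith)
    have a5 : (4 * A + 5) * L ^ 5 ≤ L ^ 10 := by
      rw [show L ^ 10 = L ^ 5 * L ^ 5 by ring]
      gcongr
      linarith [le_self_pow₀ (show 1 ≤ L by linarith) (by norm_num : (5 : ℕ) ≠ 0)]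
    have a6 : 4 * A * L ^ 2 ≤ 4 * A * L ^ 5 := mul_le_mul_of_nonneg_left a1 (by linarith)
    nlinarith

theorem cons_tuple {k u₀ E : ℕ} {l : ℝ} {p₀ : ℕ} {p : Fin k → ℕ} (hanti : StrictAnti p)
    (hp : ∀ i, Normal (p i) ∧ Zp l < X (p i) ∧ p i < p₀) (hn0 : Normal p₀) (hZ0 : Zp l < X p₀)
    (hu : (u₀ : ℝ) ≤ Zp l) (hE : cell p₀ ≤ E) {v : ℕ} (hdvd : ((p₀ - 1) * ∏ i, (p i - 1)) ∣ v) :
    ∃ q : Fin (k + 1) → ℕ, Antitone (fun i => cell (q i)) ∧
      (∀ i, Normal (q i) ∧ u₀ ≤ cell (q i) ∧ cell (q i) ≤ E) ∧ (∏ i, (q i - 1)) ∣ v ∧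
      hvec (fun i => X (p i)) ≤ tailC (fun i => cell (q i)) := by
  have h0 : ∀ i : Fin k, cell (p i) ≤ cell p₀ := fun i =>
    cell_le_cell (hp i).1.1 (hp i).2.2.le
  refine ⟨Fin.cons p₀ p, ?_, ?_, ?_, ?_⟩
  · intro i j hij
    induction i using Fin.cases with
    | zero =>
      induction j using Fin.cases with
      | zero => exact le_rfl
      | succ j => simpa using h0 j
    | succ i =>
      induction j using Fin.cases with
      | zero => exact absurd hij (not_le.2 (Fin.succ_pos i))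
      | succ j => simpa using cell_le_cell (hp j).1.1 (hanti.antitone (Fin.succ_le_succ_iff.1 hij))
  · intro i
    induction i using Fin.cases with
    | zero =>
      rw [Fin.cons_zero]
      have h : (u₀ : ℝ) ≤ (cell p₀ : ℝ) := by linarith [X_le_cell p₀]
      exact ⟨hn0, Nat.cast_le.1 h, hE⟩
    | succ i =>
      rw [Fin.cons_succ]
      have h : (u₀ : ℝ) ≤ (cell (p i) : ℝ) := by linarith [(hp i).2.1, X_le_cell (p i)]
      exact ⟨(hp i).1, Nat.cast_le.1 h, (h0 i).trans hE⟩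
  · rw [Fin.prod_univ_succ]
    simpa using hdvd
  · simp only [tailC, Fin.sum_univ_succ, hvec, Fin.cons_succ, Fin.val_succ, Fin.val_zero,
      lt_self_iff_false, if_false, zero_add, Nat.succ_pos, if_true]
    exact sum_le_sum fun i _ =>
      mul_le_mul_of_nonneg_left (X_le_cell _) (aC_nonneg (Nat.le_add_left 1 _))

theorem top_exponent {P l : ℝ} {m u₀ E : ℕ} (hP0 : 0 ≤ P) (hl : 5 ≤ l) (hL50 : 50 ≤ Lg l)
    (hLP : P ≤ Lg l) (hsmall : 400 * Lg l ^ 5 ≤ l ^ (1 / 20 : ℝ)) (hm : (m : ℝ) ≤ Lg l ^ 2)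
    (hu₀ : (u₀ : ℝ) ≤ Lg l + 1) (hE3 : (E : ℝ) ≤ l + 3) :
    -(del l * l - 2) + perr (m + 1) u₀ E + ((m + 1 : ℕ) : ℝ) * Real.log ((E : ℝ) + 1)
        + P * (((m + 1 : ℕ) : ℝ) + 1) ^ 2 ≤ -(2 * Lg l ^ 5) := by
  set L := Lg l with hLdef
  have hl1 : (1 : ℝ) ≤ l := by linarith
  set s := l ^ (3 / 4 : ℝ) with hs
  have hs0 : 0 ≤ s := by positivity
  have hmain : 400 * L ^ 5 * s ≤ del l * l := by
    have e1 : del l * l = l ^ (1 / 20 : ℝ) * s := by
      rw [del, hs, ← Real.rpow_add (by linarith), ← Real.rpow_add_one (by linarith)]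
      norm_num
    rw [e1]
    exact mul_le_mul_of_nonneg_right hsmall hs0
  have hT : T0 E ≤ 2 * s := by
    calc T0 E ≤ (2 * l) ^ (3 / 4 : ℝ) :=
          Real.rpow_le_rpow (Nat.cast_nonneg _) (by linarith) (by norm_num)
      _ = (2 : ℝ) ^ (3 / 4 : ℝ) * s := Real.mul_rpow (by norm_num) (by linarith)
      _ ≤ 2 * s := by
          refine mul_le_mul_of_nonneg_right ?_ hs0
          exact Real.rpow_le_self_of_one_le (by norm_num) (by norm_num)
  have hs1 : 1 ≤ s := Real.one_le_rpow hl1 (by norm_num)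
  have hu : (u₀ : ℝ) ≤ 2 * L := by
    linarith
  have hm2 : ((m + 1 : ℕ) : ℝ) ≤ 2 * L ^ 2 := by
    have : (m : ℝ) ≤ L ^ 2 := hm
    push_cast
    nlinarith
  have hlogN : Real.log ((m + 1 : ℕ) : ℝ) ≤ 2 * L := by
    refine log_le_two_mul_sub ?_ (by linarith)
    have : (m : ℝ) ≤ L ^ 2 := hm
    push_cast
    linarith
  have hperr : perr (m + 1) u₀ E ≤ 24 * L ^ 4 * s := by
    rw [perr]
    calc ((u₀ : ℝ) + 2 * T0 E) * ((m + 1 : ℕ) : ℝ) * Real.log ((m + 1 : ℕ) : ℝ)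
        ≤ (6 * L * s) * (2 * L ^ 2) * (2 * L) := by
          have := Real.log_natCast_nonneg (m + 1)
          have := T0_nonneg E
          gcongr
          nlinarith
      _ = _ := by ring
  have hNlog : ((m + 1 : ℕ) : ℝ) * Real.log ((E : ℝ) + 1) ≤ 4 * L ^ 3 * s := by
    have h1 : Real.log ((E : ℝ) + 1) ≤ 2 * L := by
      refine (Real.log_le_log (by positivity) (show _ ≤ l ^ 2 by nlinarith)).trans ?_
      rw [Real.log_pow, hLdef, Lg]
      norm_num
    calc ((m + 1 : ℕ) : ℝ) * Real.log ((E : ℝ) + 1) ≤ (2 * L ^ 2) * (2 * L) :=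
          mul_le_mul hm2 h1 (Real.log_nonneg (by linarith [Nat.cast_nonneg (α := ℝ) E]))
            (by positivity)
      _ = 4 * L ^ 3 * 1 := by ring
      _ ≤ _ := by gcongr
  have hPN : P * (((m + 1 : ℕ) : ℝ) + 1) ^ 2 ≤ 9 * L ^ 5 * s := by
    calc P * (((m + 1 : ℕ) : ℝ) + 1) ^ 2 ≤ L * (3 * L ^ 2) ^ 2 :=
          mul_le_mul hLP (pow_le_pow_left₀ (by positivity) (by nlinarith) 2) (by positivity)
            (by linarith)
      _ = 9 * L ^ 5 * 1 := by ring
      _ ≤ _ := by gcongr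
  have a1 : L ^ 4 * s ≤ L ^ 5 * s :=
    mul_le_mul_of_nonneg_right (pow_le_pow_right₀ (by linarith) (by norm_num)) hs0
  have a2 : L ^ 3 * s ≤ L ^ 5 * s :=
    mul_le_mul_of_nonneg_right (pow_le_pow_right₀ (by linarith) (by norm_num)) hs0
  have a3 : L ^ 5 * 1 ≤ L ^ 5 * s := mul_le_mul_of_nonneg_left hs1 (by positivity)
  have a4 : (1 : ℝ) ≤ L ^ 5 := one_le_pow₀ (by linarith)
  linarith

theorem _root_.Vale.Agent.P031.topFail (hE : EulerTarget) : TopFailTarget := by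
  classical
  obtain ⟨P, hP0, hprof⟩ := profile_count hE
  filter_upwards [Lg_tendsto.eventually_ge_atTop (50 + P), Filter.eventually_ge_atTop (5 : ℝ),
    exists_large_exp, eventually_Lg_pow_le 400] with l hL hl hexp hsmall
  intro y hy hyl U hU
  set L := Lg l with hLdef
  have hL50 : 50 ≤ L := by linarith
  have hlL : Real.exp L = l := Real.exp_log (by linarith)
  have hLl : L ≤ l := by linarith [Real.add_one_le_exp L]
  have hK : (Kp l : ℝ) ≤ L ^ 2 := Nat.floor_le (sq_nonneg _)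
  have hLZ : L + 1 ≤ Zp l := by
    have h1 : L ^ 2 ≤ Zp l := pow_le_pow_right₀ (by linarith) (by norm_num)
    nlinarith
  set u₀ := ⌈L⌉₊ with hu₀
  have huZ : (u₀ : ℝ) ≤ Zp l := by
    have := Nat.ceil_lt_add_one (show 0 ≤ L by linarith); rw [hu₀]; linarith
  set E := ⌈l + 2⌉₊ with hEdef
  set e := ⌈l + 1⌉₊ with hedef
  have he2 : (e : ℝ) ≤ l + 2 := by
    have := Nat.ceil_lt_add_one (show (0 : ℝ) ≤ l + 1 by linarith); rw [hedef]; linarith
  have hye : Real.log (Real.log y) ≤ e := by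
    have := (abs_le.1 hyl).2
    exact le_trans (by linarith) (Nat.le_ceil (l + 1))
  choose! h1 h2 k hk p p₀ hanti hp hn0 hZ0 hX0 hh hdvd using hU
  rw [card_eq_sum_card_fiberwise (t := range (Kp l + 1)) (f := k)
    fun v hv => mem_range.2 (Nat.lt_succ_of_le (hk v hv)), Nat.cast_sum]
  refine (sum_le_card_nsmul _ _ (y / Real.log y * Real.exp (-(2 * L ^ 5))) fun m hm => ?_).trans ?_
  · have hfib : ∀ v ∈ U.filter (fun v => k v = m), 1 ≤ v ∧ (v : ℝ) ≤ y ∧
        ∃ q : Fin (m + 1) → ℕ, Antitone (fun i => cell (q i)) ∧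
          (∀ i, Normal (q i) ∧ u₀ ≤ cell (q i) ∧ cell (q i) ≤ E) ∧
          (∏ i, (q i - 1)) ∣ v ∧
          (e : ℝ) + (del l * l - 2) ≤ tailC (fun i => cell (q i)) := by
      intro v hv
      rw [mem_filter] at hv
      obtain ⟨hv, rfl⟩ := hv
      obtain ⟨q, q1, q2, q3, q4⟩ := cons_tuple (hanti v hv) (hp v hv) (hn0 v hv) (hZ0 v hv) huZ
        (Nat.ceil_mono (hX0 v hv)) (hdvd v hv)
      have hh' := hh v hv
      refine ⟨h1 v hv, h2 v hv, q, q1, q2, q3, ?_⟩
      linarith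
    refine (hprof (m + 1) e u₀ E (del l * l - 2) y _ ?_ hy hye hfib).trans ?_
    · calc (((m + 1 : ℕ) : ℝ) + 1) ^ 4 ≤ (l ^ 2 + 3) ^ 4 := by
            refine pow_le_pow_left₀ (by positivity) ?_ 4
            have : (m : ℝ) ≤ L ^ 2 :=
              le_trans (by exact_mod_cast Nat.le_of_lt_succ (mem_range.1 hm)) hK
            push_cast
            nlinarith [pow_le_pow_left₀ (by linarith : (0 : ℝ) ≤ L) hLl 2]
        _ ≤ Real.exp l := hexp
        _ ≤ Real.exp (Real.exp u₀) := by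
            rw [← hlL]
            exact Real.exp_le_exp.2 (Real.exp_le_exp.2 (Nat.le_ceil L))
    · refine mul_le_mul_of_nonneg_left (Real.exp_le_exp.2 ?_)
        (div_nonneg (by linarith) (Real.log_nonneg (by linarith)))
      exact top_exponent hP0 hl hL50 (by linarith) hsmall
        (le_trans (by exact_mod_cast Nat.le_of_lt_succ (mem_range.1 hm)) hK)
        (Nat.ceil_lt_add_one (by linarith)).le
        (by have := Nat.ceil_lt_add_one (show (0 : ℝ) ≤ l + 2 by linarith); linarith)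
  · rw [card_range, nsmul_eq_mul, mul_left_comm]
    refine mul_le_mul_of_nonneg_left ?_
      (div_nonneg (by linarith) (Real.log_nonneg (by linarith)))
    calc ((Kp l + 1 : ℕ) : ℝ) * Real.exp (-(2 * L ^ 5))
        ≤ Real.exp (L ^ 5) * Real.exp (-(2 * L ^ 5)) := by
          gcongr
          have h1 : L ^ 2 ≤ L ^ 5 := pow_le_pow_right₀ (by linarith) (by norm_num)
          push_cast
          linarith [Real.add_one_le_exp (L ^ 5)]
      _ = Real.exp (-(L ^ 5)) := by rw [← Real.exp_add]; ring_nf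

end

end Vale.Agent.P031.Rankin
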