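import Vale.Agent.P031.Targets
import Mathlib.NumberTheory.Chebyshev
import Mathlib.Analysis.Complex.ExponentialBounds
import Mathlib.Algebra.BigOperators.Fin
import Mathlib.Tactic

/-!
# P031: Rankin's weights attached to a list of normal primes, and a Hall type lemma
-/

namespace Vale.Agent.P031.Rankin

open Finset

noncomputable section

/-! ## The weight -/

theorem wt_one (z : ℕ → ℝ) : wt z 1 = 1 := by simp [wt]

theorem wt_mul (z : ℕ → ℝ) {a b : ℕ} (ha : a ≠ 0) (hb : b ≠ 0) :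
    wt z (a * b) = wt z a * wt z b := by
  simp only [wt]
  rw [((Nat.perm_primeFactorsList_mul ha hb).map _).prod_eq, List.map_append, List.prod_append]

theorem wt_nonneg {z : ℕ → ℝ} (hz : ∀ c, 0 ≤ z c) (n : ℕ) : 0 ≤ wt z n := by
  apply List.prod_nonneg
  intro a ha
  obtain ⟨s, _, rfl⟩ := List.mem_map.1 ha
  exact hz _

theorem one_le_wt {z : ℕ → ℝ} (hz : ∀ c, 1 ≤ z c) (n : ℕ) : 1 ≤ wt z n := by
  unfold wt
  induction n.primeFactorsList with
  | nil => simp
  | cons a l ih =>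
    simp only [List.map_cons, List.prod_cons]
    exact one_le_mul_of_one_le_of_one_le (hz _) ih

theorem wt_prime (z : ℕ → ℝ) {p : ℕ} (hp : p.Prime) : wt z p = z (cell p) := by
  simp [wt, Nat.primeFactorsList_prime hp]

theorem wt_prime_pow (z : ℕ → ℝ) {p : ℕ} (hp : p.Prime) (k : ℕ) :
    wt z (p ^ k) = z (cell p) ^ k := by
  simp [wt, hp.primeFactorsList_pow]

theorem wt_prod {ι : Type*} (z : ℕ → ℝ) (s : Finset ι) (f : ι → ℕ) (hf : ∀ i ∈ s, f i ≠ 0) :
    wt z (∏ i ∈ s, f i) = ∏ i ∈ s, wt z (f i) := by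
  classical
  induction s using Finset.induction_on with
  | empty => simp [wt_one]
  | insert a s ha ih =>
    rw [Finset.prod_insert ha, Finset.prod_insert ha, wt_mul z (hf a (by simp))
      (Finset.prod_ne_zero_iff.2 fun i hi => hf i (by simp [hi])),
      ih fun i hi => hf i (by simp [hi])]

theorem wt_le_of_dvd {z : ℕ → ℝ} (hz : ∀ c, 1 ≤ z c) {a b : ℕ} (h : a ∣ b) (hb : b ≠ 0) :
    wt z a ≤ wt z b := by
  obtain ⟨d, rfl⟩ := h
  rw [wt_mul z (left_ne_zero_of_mul hb) (right_ne_zero_of_mul hb)]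
  exact le_mul_of_one_le_right (wt_nonneg (fun c => le_trans zero_le_one (hz c)) _) (one_le_wt hz _)

/-! ## Cells -/

theorem log_pos_of_prime {p : ℕ} (hp : p.Prime) : 0 < Real.log p :=
  Real.log_pos (by exact_mod_cast hp.one_lt)

theorem X_le_X {p q : ℕ} (hp : p.Prime) (h : p ≤ q) : X p ≤ X q :=
  Real.log_le_log (log_pos_of_prime hp)
    (Real.log_le_log (by exact_mod_cast hp.pos) (by exact_mod_cast h))

theorem cell_le_cell {p q : ℕ} (hp : p.Prime) (h : p ≤ q) : cell p ≤ cell q :=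
  Nat.ceil_mono (X_le_X hp h)

theorem X_le_cell (p : ℕ) : X p ≤ cell p := Nat.le_ceil _

theorem cell_lt_add_one {p : ℕ} (h : 0 ≤ X p) : (cell p : ℝ) < X p + 1 := Nat.ceil_lt_add_one h

theorem lt_cell_iff {p n : ℕ} : n < cell p ↔ (n : ℝ) < X p := Nat.lt_ceil

theorem exp_exp_lt_of_lt_X {p : ℕ} (hp : p.Prime) {a : ℝ} (h : a < X p) :
    Real.exp (Real.exp a) < p := by
  have h0 : (0 : ℝ) < p := by exact_mod_cast hp.pos
  have h1 : Real.exp a < Real.log p := by
    rw [← Real.exp_log (log_pos_of_prime hp)]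
    exact Real.exp_lt_exp.2 h
  rw [← Real.exp_log h0]
  exact Real.exp_lt_exp.2 h1

theorem cell_antitone {N : ℕ} {p : Fin N → ℕ} (hp : ∀ i, (p i).Prime) (h : StrictAnti p) :
    Antitone fun i => cell (p i) := fun i j hij => cell_le_cell (hp j) (h.antitone hij)

theorem T0_mono {a b : ℕ} (h : a ≤ b) : T0 a ≤ T0 b :=
  Real.rpow_le_rpow (Nat.cast_nonneg _) (by exact_mod_cast h) (by norm_num)

theorem T0_nonneg (a : ℕ) : 0 ≤ T0 a := Real.rpow_nonneg (Nat.cast_nonneg _) _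

/-! ## The coefficients -/

/-- `log (j + 1) - log j`, equal to `0` at `j = 0`. -/
def dl (j : ℕ) : ℝ := Real.log ((j : ℝ) + 1) - Real.log j

theorem dl_zero : dl 0 = 0 := by simp [dl]

theorem dl_nonneg (j : ℕ) : 0 ≤ dl j := by
  rcases Nat.eq_zero_or_pos j with h | h
  · subst h; rw [dl_zero]
  · have : (0 : ℝ) < j := by exact_mod_cast h
    exact sub_nonneg.2 (Real.log_le_log this (by linarith))

theorem sum_range_dl (n : ℕ) : ∑ j ∈ range n, dl j = Real.log n := by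
  induction n with
  | zero => simp
  | succ n ih => rw [sum_range_succ, ih, dl]; push_cast; ring

theorem aC_eq (m : ℕ) : aC m + 1 = ((m : ℝ) + 1) * dl m + Real.log m := by
  simp only [aC, dl]; ring

theorem aC_eq_fN (m : ℕ) : aC m = fN (m + 1) - fN m := by
  simp only [aC, fN]; push_cast; ring

theorem sum_range_aC (n : ℕ) : ∑ i ∈ range n, aC i = fN n := by
  induction n with
  | zero => simp [fN]
  | succ n ih => rw [sum_range_succ, ih, aC_eq_fN]; ring

theorem aC_nonneg {m : ℕ} (h : 1 ≤ m) : 0 ≤ aC m := by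
  have hm : (1 : ℝ) ≤ m := by exact_mod_cast h
  have h1 : Real.log 2 ≤ Real.log ((m : ℝ) + 1) := Real.log_le_log (by norm_num) (by linarith)
  have h2 := Real.one_sub_inv_le_log_of_pos (x := ((m : ℝ) + 1) / m) (by positivity)
  rw [inv_div, Real.log_div (by linarith) (by linarith)] at h2
  have h3 : 1 / 2 ≤ (m : ℝ) * (1 - m / (m + 1)) := by
    rw [show (m : ℝ) * (1 - m / (m + 1)) = m / (m + 1) by field_simp; ring,
      div_le_div_iff₀ (by norm_num) (by linarith)]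
    linarith
  have h4 := mul_le_mul_of_nonneg_left h2 (by linarith : (0 : ℝ) ≤ m)
  have := Real.log_two_gt_d9
  simp only [aC]
  nlinarith

/-- `∑_{i ≥ 1} a i * c i`. -/
def tailC {N : ℕ} (c : Fin N → ℕ) : ℝ := ∑ i : Fin N, if 0 < i.val then aC i.val * c i else 0

theorem double_sum (f : ℕ → ℝ) (N : ℕ) :
    ∑ i ∈ range N, ∑ j ∈ range N, dl j * f (max i j) = ∑ m ∈ range N, (aC m + 1) * f m := by
  induction N with
  | zero => simp
  | succ N ih =>
    have h1 : ∀ i ∈ range N, ∑ j ∈ range (N + 1), dl j * f (max i j)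
        = (∑ j ∈ range N, dl j * f (max i j)) + dl N * f N := by
      intro i hi
      rw [sum_range_succ, max_eq_right (mem_range.1 hi).le]
    have h2 : ∑ j ∈ range (N + 1), dl j * f (max N j) = Real.log ((N : ℝ) + 1) * f N := by
      rw [← Nat.cast_succ, ← sum_range_dl, sum_mul]
      exact sum_congr rfl fun j hj => by rw [max_eq_left (Nat.lt_succ_iff.1 (mem_range.1 hj))]
    rw [sum_range_succ, sum_congr rfl h1, h2, sum_add_distrib, ih, sum_range_succ,
      sum_const, card_range, nsmul_eq_mul, aC_eq]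
    simp only [dl]
    ring

/-! ## The weight of a list of cells -/

variable {N : ℕ}

/-- The number of cells of the list above `t`, but at least `1`, and `1` up to `u₀`. -/
def zN (c : Fin N → ℕ) (u₀ t : ℕ) : ℝ :=
  1 + ∑ j : Fin N, if 0 < j.val ∧ u₀ < t ∧ t ≤ c j then (1 : ℝ) else 0

theorem one_le_zN (c : Fin N → ℕ) (u₀ t : ℕ) : 1 ≤ zN c u₀ t := by
  unfold zN
  have : 0 ≤ ∑ j : Fin N, if 0 < j.val ∧ u₀ < t ∧ t ≤ c j then (1 : ℝ) else 0 :=
    sum_nonneg fun j _ => by split_ifs <;> norm_num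
  linarith

theorem zN_nonneg (c : Fin N → ℕ) (u₀ t : ℕ) : 0 ≤ zN c u₀ t := zero_le_one.trans (one_le_zN c u₀ t)

theorem zN_le (c : Fin N → ℕ) (u₀ t : ℕ) : zN c u₀ t ≤ (N : ℝ) + 1 := by
  have : (∑ j : Fin N, if 0 < j.val ∧ u₀ < t ∧ t ≤ c j then (1 : ℝ) else 0)
      ≤ ∑ _j : Fin N, (1 : ℝ) := sum_le_sum fun j _ => by split_ifs <;> norm_num
  rw [sum_const, card_univ, Fintype.card_fin, nsmul_eq_mul, mul_one] at this
  unfold zN
  linarith

theorem zN_low (c : Fin N → ℕ) {u₀ t : ℕ} (h : t ≤ u₀) : zN c u₀ t = 1 := by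
  simp [zN, Nat.not_lt.2 h]

theorem exists_initial {c : Fin N → ℕ} (hc : Antitone c) (t : ℕ) :
    ∃ n ≤ N, ∀ j : Fin N, t ≤ c j ↔ j.val < n := by
  by_cases h : ∃ j : Fin N, c j < t
  · obtain ⟨j₀, hj₀, hmin⟩ : ∃ j₀ : Fin N, c j₀ < t ∧ ∀ j, c j < t → j₀ ≤ j := by
      have hne : (univ.filter fun j : Fin N => c j < t).Nonempty := by
        obtain ⟨j, hj⟩ := h; exact ⟨j, by simp [hj]⟩
      refine ⟨_, (mem_filter.1 (min'_mem _ hne)).2, fun j hj => min'_le _ _ (by simp [hj])⟩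
    refine ⟨j₀.val, j₀.isLt.le, fun j => ⟨fun hj => ?_, fun hj => ?_⟩⟩
    · by_contra h'
      exact absurd (lt_of_le_of_lt (hj.trans (hc (Fin.le_def.2 (not_lt.1 h')))) hj₀) (lt_irrefl _)
    · by_contra h'
      exact absurd (Fin.le_def.1 (hmin j (not_le.1 h'))) (not_le.2 hj)
  · simp only [not_exists, not_lt] at h
    exact ⟨N, le_rfl, fun j => ⟨fun _ => j.isLt, fun _ => h j⟩⟩

theorem log_zN {c : Fin N → ℕ} (hc : Antitone c) (u₀ t : ℕ) :
    Real.log (zN c u₀ t) = ∑ j : Fin N, if u₀ < t ∧ t ≤ c j then dl j.val else 0 := by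
  by_cases ht : u₀ < t
  · obtain ⟨n, hn, hiff⟩ := exists_initial hc t
    simp only [zN, ht, true_and, hiff]
    rw [Fin.sum_univ_eq_sum_range fun j => if 0 < j ∧ j < n then (1 : ℝ) else 0,
      Fin.sum_univ_eq_sum_range fun j => if j < n then dl j else 0, ← sum_filter, ← sum_filter]
    have e : (range N).filter (fun j => j < n) = range n := by ext j; simp; omega
    have e' : (range N).filter (fun j => 0 < j ∧ j < n) = Ico 1 n := by ext j; simp; omega
    rw [e, e', sum_range_dl, sum_const, Nat.card_Ico, nsmul_eq_mul, mul_one]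
    rcases Nat.eq_zero_or_pos n with h | h
    · subst h; simp
    · rw [Nat.cast_sub h]; simp
  · simp [zN, ht]

theorem sum_abs_zN (c : Fin N → ℕ) (u₀ e : ℕ) :
    ∑ t ∈ range e, |zN c u₀ (t + 1) - zN c u₀ t| ≤ 2 * N := by
  set g : Fin N → ℕ → ℝ := fun j t => if 0 < j.val ∧ u₀ < t ∧ t ≤ c j then 1 else 0 with hg
  calc ∑ t ∈ range e, |zN c u₀ (t + 1) - zN c u₀ t|
      ≤ ∑ t ∈ range e, ∑ j : Fin N,
          ((if t = u₀ then (1 : ℝ) else 0) + if t = c j then 1 else 0) := by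
        refine sum_le_sum fun t _ => ?_
        have : zN c u₀ (t + 1) - zN c u₀ t = ∑ j : Fin N, (g j (t + 1) - g j t) := by
          simp only [zN, hg, sum_sub_distrib]; ring
        rw [this]
        refine (abs_sum_le_sum_abs _ _).trans (sum_le_sum fun j _ => ?_)
        simp only [hg]
        split_ifs <;> norm_num <;> omega
    _ ≤ ∑ _j : Fin N, (2 : ℝ) := by
        rw [sum_comm]
        refine sum_le_sum fun j _ => ?_
        rw [sum_add_distrib, sum_ite_eq' (range e) u₀, sum_ite_eq' (range e) (c j)]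
        split_ifs <;> norm_num
    _ = 2 * N := by simp [mul_comm]

theorem sum_zN_le (c : Fin N → ℕ) (u₀ e : ℕ) :
    ∑ t ∈ Icc 1 e, zN c u₀ t ≤ (e : ℝ) + ∑ j : Fin N, if 0 < j.val then (c j : ℝ) else 0 := by
  simp only [zN, sum_add_distrib, sum_const, Nat.card_Icc, nsmul_eq_mul, mul_one,
    add_tsub_cancel_right]
  rw [sum_comm]
  gcongr with j
  split_ifs with h
  · calc ∑ t ∈ Icc 1 e, (if 0 < j.val ∧ u₀ < t ∧ t ≤ c j then (1 : ℝ) else 0)
        = (((Icc 1 e).filter fun t => 0 < j.val ∧ u₀ < t ∧ t ≤ c j).card : ℝ) := by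
          rw [sum_boole]
      _ ≤ (c j : ℝ) := by
          norm_cast
          refine (card_le_card (t := Icc 1 (c j)) fun t ht => ?_).trans (by simp)
          simp only [mem_filter, mem_Icc] at ht ⊢
          omega
  · exact le_of_eq (sum_eq_zero fun t _ => by simp [h])

theorem zN_pow_four_le {c : Fin N → ℕ} {u₀ : ℕ}
    (hu : ((N : ℝ) + 1) ^ 4 ≤ Real.exp (Real.exp u₀)) {s : ℕ} (hs : s.Prime) :
    zN c u₀ (cell s) ^ 4 ≤ s := by
  have h2 : (2 : ℝ) ≤ s := by exact_mod_cast hs.two_le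
  rcases le_or_gt (cell s) u₀ with h | h
  · rw [zN_low c h]; linarith
  · exact le_trans (pow_le_pow_left₀ (zN_nonneg _ _ _) (zN_le _ _ _) 4)
      (hu.trans (exp_exp_lt_of_lt_X hs (lt_cell_iff.1 h)).le)

theorem le_three_fourths {z s : ℝ} (hz : 1 ≤ z) (hs : 2 ≤ s) (h : z ^ 4 ≤ s) : z ≤ 3 / 4 * s := by
  have h2 : z ^ 2 ≤ s := le_trans (pow_le_pow_right₀ hz (by norm_num)) h
  nlinarith [mul_le_mul hs hs (by norm_num) (by linarith)]

/-! ## The lower bound on the weight -/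

theorem count_ge (L : List ℕ) {u₀ c t : ℕ} (h : t ≤ c) :
    (L.filter fun s => decide (cell s ≤ t)).length
      ≤ (L.filter fun s => decide (u₀ < cell s ∧ cell s ≤ c)).length
        + (L.filter fun s => decide (cell s ≤ u₀)).length := by
  induction L with
  | nil => simp
  | cons a L ih =>
    simp only [List.filter_cons, Bool.decide_and] at ih ⊢
    by_cases h1 : cell a ≤ t <;> by_cases h2 : u₀ < cell a ∧ cell a ≤ c <;>
      by_cases h3 : cell a ≤ u₀ <;> simp [h1, h2, h3] <;> omega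

theorem log_wt_zN {c : Fin N → ℕ} (hc : Antitone c) (u₀ m : ℕ) :
    Real.log (wt (zN c u₀) m) = ∑ j : Fin N, dl j.val *
      ((m.primeFactorsList.filter fun s => decide (u₀ < cell s ∧ cell s ≤ c j)).length : ℝ) := by
  unfold wt
  induction m.primeFactorsList with
  | nil => simp
  | cons a L ih =>
    have h1 : (List.map (fun s => zN c u₀ (cell s)) L).prod ≠ 0 := by
      refine List.prod_ne_zero fun h => ?_
      obtain ⟨s, _, hs⟩ := List.mem_map.1 h
      linarith [one_le_zN c u₀ (cell s)]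
    rw [List.map_cons, List.prod_cons, Real.log_mul (by linarith [one_le_zN c u₀ (cell a)]) h1,
      log_zN hc, ih, ← sum_add_distrib]
    refine sum_congr rfl fun j _ => ?_
    rw [List.filter_cons]
    by_cases hcond : u₀ < cell a ∧ cell a ≤ c j
    · simp [hcond]; ring
    · simp [hcond]

/-- The error term of the profile bound. -/
def perr (N u₀ E : ℕ) : ℝ := ((u₀ : ℝ) + 2 * T0 E) * N * Real.log N

theorem perr_nonneg (N u₀ E : ℕ) : 0 ≤ perr N u₀ E := by
  have := T0_nonneg E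
  have := Real.log_natCast_nonneg N
  unfold perr; positivity

/-- Multiples of a product of normal `p i - 1` have a large weight. -/
theorem wt_ge {c : Fin N → ℕ} (hc : Antitone c) {u₀ E : ℕ} (hu : ∀ i, u₀ ≤ c i)
    (hE : ∀ i, c i ≤ E) {p : Fin N → ℕ} (hp : ∀ i, Normal (p i) ∧ cell (p i) = c i) {u : ℕ}
    (hu0 : u ≠ 0) (hdvd : (∏ i, (p i - 1)) ∣ u) :
    (∑ j : Fin N, if 0 < j.val then (c j : ℝ) else 0) + tailC c - perr N u₀ E
      ≤ Real.log (wt (zN c u₀) u) := by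
  have hne : ∀ i ∈ (univ : Finset (Fin N)), p i - 1 ≠ 0 := fun i _ => by
    have := (hp i).1.1.two_le; omega
  have hpos : ∀ m, 0 < wt (zN c u₀) m := fun m => lt_of_lt_of_le one_pos (one_le_wt (one_le_zN c u₀) m)
  refine le_trans ?_ (Real.log_le_log (hpos _) (wt_le_of_dvd (one_le_zN c u₀) hdvd hu0))
  rw [wt_prod _ _ _ hne, Real.log_prod fun i _ => (hpos _).ne']
  set f : ℕ → ℝ := fun m => if h : m < N then (c ⟨m, h⟩ : ℝ) else 0 with hf
  have hfc : ∀ i : Fin N, f i.val = c i := fun i => by simp [hf, i.isLt]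
  have key : ∀ i : Fin N, ∑ j : Fin N, dl j.val * (f (max i.val j.val) - ((u₀ : ℝ) + 2 * T0 E))
      ≤ Real.log (wt (zN c u₀) (p i - 1)) := by
    intro i
    rw [log_wt_zN hc]
    refine sum_le_sum fun j _ => mul_le_mul_of_nonneg_left ?_ (dl_nonneg _)
    obtain ⟨⟨hpr, hom, _⟩, hci⟩ := hp i
    have hmax : f (max i.val j.val) = ((min (c i) (c j) : ℕ) : ℝ) := by
      rcases le_total i j with h | h
      · rw [max_eq_right (Fin.le_def.1 h), hfc, min_eq_right (hc h)]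
      · rw [max_eq_left (Fin.le_def.1 h), hfc, min_eq_left (hc h)]
    rw [hmax]
    have ht := hom (min (c i) (c j)) (by rw [hci]; exact min_le_left _ _)
    have hl := hom u₀ (by rw [hci]; exact hu i)
    rw [hci, abs_le] at ht hl
    have hT : T0 (c i) ≤ T0 E := T0_mono (hE i)
    have hcount : (omegaUpTo (min (c i) (c j)) (p i - 1) : ℝ)
        ≤ (((p i - 1).primeFactorsList.filter fun s => decide (u₀ < cell s ∧ cell s ≤ c j)).length : ℝ)
          + omegaUpTo u₀ (p i - 1) := by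
      exact_mod_cast count_ge _ (min_le_right (c i) (c j))
    linarith [ht.1, hl.2]
  refine le_trans ?_ (sum_le_sum fun i _ => key i)
  simp only [mul_sub, sum_sub_distrib, ← sum_mul, sum_const, card_univ, Fintype.card_fin,
    nsmul_eq_mul]
  rw [Fin.sum_univ_eq_sum_range dl, sum_range_dl]
  have h1 : ∑ i : Fin N, ∑ j : Fin N, dl j.val * f (max i.val j.val)
      = ∑ i : Fin N, (aC i.val + 1) * (c i : ℝ) := by
    rw [Fin.sum_univ_eq_sum_range fun i => ∑ j : Fin N, dl j.val * f (max i j.val)]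
    rw [sum_congr rfl fun i _ => Fin.sum_univ_eq_sum_range (fun j => dl j * f (max i j)) N]
    rw [double_sum, ← Fin.sum_univ_eq_sum_range fun m => (aC m + 1) * f m]
    simp_rw [hfc]
  have h2 : (∑ j : Fin N, if 0 < j.val then (c j : ℝ) else 0) + tailC c
      = ∑ i : Fin N, (aC i.val + 1) * (c i : ℝ) := by
    rw [tailC, ← sum_add_distrib]
    refine sum_congr rfl fun i _ => ?_
    split_ifs with h
    · ring
    · rw [Nat.eq_zero_of_not_pos h]; simp [aC]
  rw [h1, ← h2]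
  unfold perr
  linarith

/-! ## Profile bounds -/

theorem profile_fixed (hE : EulerTarget) : ∃ C : ℝ, 0 ≤ C ∧
    ∀ (N e u₀ E : ℕ) (c : Fin N → ℕ) (U : Finset ℕ), Antitone c → (∀ i, u₀ ≤ c i) →
      (∀ i, c i ≤ E) → ((N : ℝ) + 1) ^ 4 ≤ Real.exp (Real.exp u₀) →
      (∀ u ∈ U, 1 ≤ u ∧ (∀ s : ℕ, s.Prime → s ∣ u → cell s ≤ e) ∧
        ∃ p : Fin N → ℕ, (∀ i, Normal (p i) ∧ cell (p i) = c i) ∧ (∏ i, (p i - 1)) ∣ u) →
      ∑ u ∈ U, (u : ℝ)⁻¹ ≤ Real.exp ((e : ℝ) - tailC c + perr N u₀ E + C * ((N : ℝ) + 1) ^ 2) := by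
  obtain ⟨C, hC, hEu⟩ := hE
  refine ⟨16 * C, by positivity, fun N e u₀ E c U hc hu hEc hN hU => ?_⟩
  set z := zN c u₀ with hz
  set Lw := (∑ j : Fin N, if 0 < j.val then (c j : ℝ) else 0) + tailC c - perr N u₀ E with hLw
  have hpt : ∀ u ∈ U, (u : ℝ)⁻¹ ≤ Real.exp (-Lw) * (wt z u / u) := by
    intro u hu'
    obtain ⟨hu1, _, p, hp, hdvd⟩ := hU u hu'
    have hw : 0 < wt z u := lt_of_lt_of_le one_pos (one_le_wt (one_le_zN c u₀) u)
    have h1 := wt_ge hc hu hEc hp (by omega) hdvd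
    rw [← mul_div_assoc, inv_eq_one_div]
    gcongr
    rw [← Real.exp_log hw, ← Real.exp_add]
    exact Real.one_le_exp (by rw [hz]; linarith)
  refine (sum_le_sum hpt).trans ?_
  rw [← mul_sum]
  have hz4 : ∀ s : ℕ, s.Prime → cell s ≤ e → z (cell s) ≤ 3 / 4 * s := fun s hs _ =>
    le_three_fourths (one_le_zN _ _ _) (by exact_mod_cast hs.two_le) (zN_pow_four_le hN hs)
  refine (mul_le_mul_of_nonneg_left (hEu e z ((N : ℝ) + 1) (2 * N) U (zN_nonneg c u₀)
    (fun t _ => zN_le c u₀ t) (sum_abs_zN c u₀ e) hz4 (fun u hu' => ⟨(hU u hu').1, (hU u hu').2.1⟩))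
    (Real.exp_pos _).le).trans ?_
  rw [← Real.exp_add]
  apply Real.exp_le_exp.2
  have h2 := sum_zN_le c u₀ e
  have h3 : C * (1 + ((N : ℝ) + 1) + 2 * N) ^ 2 ≤ 16 * C * ((N : ℝ) + 1) ^ 2 := by
    have : (1 + ((N : ℝ) + 1) + 2 * N) ^ 2 ≤ 16 * ((N : ℝ) + 1) ^ 2 := by
      nlinarith [Nat.cast_nonneg (α := ℝ) N]
    nlinarith
  linarith

/-- The profile bound for sets of integers, each with its own list of primes. -/
theorem profile_sum (hE : EulerTarget) : ∃ C : ℝ, 0 ≤ C ∧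
    ∀ (N e u₀ E : ℕ) (D : ℝ) (U : Finset ℕ), ((N : ℝ) + 1) ^ 4 ≤ Real.exp (Real.exp u₀) →
      (∀ u ∈ U, 1 ≤ u ∧ (∀ s : ℕ, s.Prime → s ∣ u → cell s ≤ e) ∧
        ∃ p : Fin N → ℕ, Antitone (fun i => cell (p i)) ∧
          (∀ i, Normal (p i) ∧ u₀ ≤ cell (p i) ∧ cell (p i) ≤ E) ∧
          (∏ i, (p i - 1)) ∣ u ∧ (e : ℝ) + D ≤ tailC (fun i => cell (p i))) →
      ∑ u ∈ U, (u : ℝ)⁻¹
        ≤ Real.exp (-D + perr N u₀ E + N * Real.log ((E : ℝ) + 1) + C * ((N : ℝ) + 1) ^ 2) := by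
  classical
  obtain ⟨C, hC, hfix⟩ := profile_fixed hE
  refine ⟨C, hC, fun N e u₀ E D U hN hU => ?_⟩
  choose! h1 h2 p hanti hp hdvd hD using hU
  rw [← sum_fiberwise_of_maps_to (t := Fintype.piFinset fun _ : Fin N => range (E + 1))
    (g := fun u i => cell (p u i)) fun u hu => by
      simp only [Fintype.mem_piFinset, mem_range]
      exact fun i => Nat.lt_succ_of_le (hp u hu i).2.2]
  refine (sum_le_card_nsmul _ _ (Real.exp (-D + perr N u₀ E + C * ((N : ℝ) + 1) ^ 2))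
    fun c _ => ?_).trans ?_
  · rcases (U.filter fun u => (fun i => cell (p u i)) = c).eq_empty_or_nonempty with h | ⟨u, hu⟩
    · rw [h]; simp [(Real.exp_pos _).le]
    · rw [mem_filter] at hu
      refine (hfix N e u₀ E c _ (hu.2 ▸ hanti u hu.1) (fun i => by
        rw [← hu.2]; exact (hp u hu.1 i).2.1) (fun i => by rw [← hu.2]; exact (hp u hu.1 i).2.2)
        hN fun v hv => ?_).trans (Real.exp_le_exp.2 ?_)
      · rw [mem_filter] at hv
        exact ⟨h1 v hv.1, h2 v hv.1, p v,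
          fun i => ⟨(hp v hv.1 i).1, congrFun hv.2 i⟩, hdvd v hv.1⟩
      · have := hD u hu.1
        rw [hu.2] at this
        linarith
  · rw [Fintype.card_piFinset, prod_const, card_range, card_univ, Fintype.card_fin, nsmul_eq_mul]
    push_cast
    rw [← Real.exp_log (by positivity : (0 : ℝ) < (E : ℝ) + 1), ← Real.exp_nat_mul, ← Real.exp_add,
      Real.log_exp]
    exact Real.exp_le_exp.2 (by linarith)

/-! ## Hall's lemma -/

open ArithmeticFunction in
theorem sum_vonMangoldt_wt {z : ℕ → ℝ} {Zm : ℝ} (hZm : 0 ≤ Zm) (hz : ∀ t, 0 ≤ z t)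
    (hzm : ∀ s : ℕ, s.Prime → z (cell s) ≤ Zm) (hz4 : ∀ s : ℕ, s.Prime → z (cell s) ^ 4 ≤ s)
    {M : ℝ} (hM : 1 ≤ M) :
    ∑ d ∈ Ioc 0 ⌊M⌋₊, vonMangoldt d * wt z d ≤ (6 * Zm + 8) * M := by
  have hM0 : 0 ≤ M := zero_le_one.trans hM
  have hpt : ∀ d ∈ Ioc 0 ⌊M⌋₊, vonMangoldt d * wt z d
      ≤ Zm * vonMangoldt d + M ^ (1 / 4 : ℝ) * (if ¬d.Prime then vonMangoldt d else 0) := by
    intro d hd
    have hdM : (d : ℝ) ≤ M := le_trans (by exact_mod_cast (mem_Ioc.1 hd).2) (Nat.floor_le hM0)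
    have hL : 0 ≤ vonMangoldt d := vonMangoldt_nonneg
    by_cases hpp : IsPrimePow d
    · obtain ⟨s, k, hs, hk, rfl⟩ := (isPrimePow_nat_iff d).1 hpp
      rw [wt_prime_pow z hs]
      rcases eq_or_lt_of_le (Nat.one_le_iff_ne_zero.2 hk.ne') with h | h
      · subst h
        simp only [pow_one, hs, not_true, if_false, mul_zero, add_zero]
        rw [mul_comm Zm]
        exact mul_le_mul_of_nonneg_left (hzm s hs) (by simp)
      · have hnp : ¬(s ^ k).Prime := Nat.Prime.not_prime_pow h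
        simp only [hnp, not_false_iff, if_true]
        have h4 : z (cell s) ^ k ≤ M ^ (1 / 4 : ℝ) := by
          rw [← Real.rpow_le_rpow_iff (z := (4 : ℝ)) (by have := hz (cell s); positivity)
            (by positivity) (by norm_num), ← Real.rpow_mul hM0]
          norm_num
          calc (z (cell s) ^ k) ^ (4 : ℕ) = (z (cell s) ^ 4) ^ k := by ring
            _ ≤ ((s : ℝ)) ^ k := pow_le_pow_left₀ (by positivity) (hz4 s hs) k
            _ ≤ M := by exact_mod_cast hdM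
        nlinarith
    · have : vonMangoldt d = 0 := vonMangoldt_eq_zero_iff.2 hpp
      simp [this]
  refine (sum_le_sum hpt).trans ?_
  rw [sum_add_distrib, ← mul_sum, ← mul_sum, ← sum_filter]
  have h1 : Chebyshev.psi M ≤ 6 * M := by
    refine (Chebyshev.psi_le_const_mul_self hM0).trans (mul_le_mul_of_nonneg_right ?_ hM0)
    have : Real.log 4 = 2 * Real.log 2 := by
      rw [show (4 : ℝ) = 2 ^ 2 by norm_num, Real.log_pow]; norm_num
    have := Real.log_two_lt_d9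
    linarith
  have h2 : ∑ d ∈ Ioc 0 ⌊M⌋₊ with ¬d.Prime, vonMangoldt d ≤ 2 * Real.sqrt M * Real.log M := by
    rw [← Chebyshev.psi_sub_theta_eq_sum_not_prime]
    exact Chebyshev.psi_sub_theta_le hM
  have h3 : M ^ (1 / 4 : ℝ) * (2 * Real.sqrt M * Real.log M) ≤ 8 * M := by
    have := Real.log_le_rpow_div hM0 (show (0 : ℝ) < 1 / 4 by norm_num)
    rw [Real.sqrt_eq_rpow]
    have e : M ^ (1 / 4 : ℝ) * M ^ (1 / 2 : ℝ) * M ^ (1 / 4 : ℝ) = M := by
      rw [← Real.rpow_add (by linarith), ← Real.rpow_add (by linarith)]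
      norm_num
    calc M ^ (1 / 4 : ℝ) * (2 * M ^ (1 / 2 : ℝ) * Real.log M)
        ≤ M ^ (1 / 4 : ℝ) * (2 * M ^ (1 / 2 : ℝ) * (M ^ (1 / 4 : ℝ) / (1 / 4))) := by gcongr
      _ = 8 * (M ^ (1 / 4 : ℝ) * M ^ (1 / 2 : ℝ) * M ^ (1 / 4 : ℝ)) := by ring
      _ = 8 * M := by rw [e]
  have h4 := mul_le_mul_of_nonneg_left h1 hZm
  have h5 := mul_le_mul_of_nonneg_left h2 (Real.rpow_nonneg hM0 (1 / 4 : ℝ))
  rw [Chebyshev.psi] at h4
  linarith

open ArithmeticFunction in
theorem hall {z : ℕ → ℝ} {Zm : ℝ} (hZm : 0 ≤ Zm) (hz : ∀ t, 0 ≤ z t)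
    (hzm : ∀ s : ℕ, s.Prime → z (cell s) ≤ Zm) (hz4 : ∀ s : ℕ, s.Prime → z (cell s) ^ 4 ≤ s)
    {y : ℝ} (hy : 1 ≤ y) :
    Real.log y * ∑ v ∈ Ioc 0 ⌊y⌋₊, wt z v
      ≤ (6 * Zm + 9) * y * ∑ v ∈ Ioc 0 ⌊y⌋₊, wt z v / v := by
  set S := Ioc 0 ⌊y⌋₊ with hS
  have hy0 : 0 ≤ y := zero_le_one.trans hy
  have hmem : ∀ v ∈ S, 1 ≤ v ∧ (v : ℝ) ≤ y := fun v hv =>
    ⟨(mem_Ioc.1 hv).1, le_trans (by exact_mod_cast (mem_Ioc.1 hv).2) (Nat.floor_le hy0)⟩
  have h1 : Real.log y * ∑ v ∈ S, wt z v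
      ≤ y * ∑ v ∈ S, wt z v / v + ∑ v ∈ S, wt z v * Real.log v := by
    rw [mul_sum, mul_sum, ← sum_add_distrib]
    refine sum_le_sum fun v hv => ?_
    obtain ⟨hv1, hvy⟩ := hmem v hv
    have hv0 : (0 : ℝ) < v := by exact_mod_cast hv1
    have := Real.log_le_sub_one_of_pos (show (0 : ℝ) < y / v by positivity)
    rw [Real.log_div (by linarith) hv0.ne'] at this
    have hw := wt_nonneg hz v
    calc Real.log y * wt z v ≤ (y / v + Real.log v) * wt z v :=
          mul_le_mul_of_nonneg_right (by linarith) hw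
      _ = y * (wt z v / v) + wt z v * Real.log v := by ring
  have h2 : ∑ v ∈ S, wt z v * Real.log v
      ≤ (6 * Zm + 8) * y * ∑ v ∈ S, wt z v / v := by
    have e1 : ∑ v ∈ S, wt z v * Real.log v
        = ∑ v ∈ S, ∑ x ∈ v.divisorsAntidiagonal, wt z x.2 * (vonMangoldt x.1 * wt z x.1) := by
      refine sum_congr rfl fun v hv => ?_
      rw [← vonMangoldt_sum, mul_sum, ← Nat.map_div_right_divisors, sum_map]
      refine sum_congr rfl fun d hd => ?_
      obtain ⟨hdv, hv0⟩ := Nat.mem_divisors.1 hd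
      show wt z v * vonMangoldt d = wt z (v / d) * (vonMangoldt d * wt z d)
      have e : d * (v / d) = v := Nat.mul_div_cancel' hdv
      have hd0 : d ≠ 0 := fun h => hv0 (by rw [← e, h, zero_mul])
      have hq0 : v / d ≠ 0 := fun h => hv0 (by rw [← e, h, mul_zero])
      have hw : wt z v = wt z d * wt z (v / d) := by rw [← wt_mul z hd0 hq0, e]
      rw [hw]; ring
    rw [e1, sum_sigma', mul_sum]
    refine le_trans (le_trans ?_ (le_of_eq (sum_sigma' S (fun m => Ioc 0 ⌊y / m⌋₊)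
      fun m d => wt z m * (vonMangoldt d * wt z d)).symm)) (sum_le_sum fun m hm => ?_)
    · refine le_trans (le_of_eq (sum_bij (fun x _ => (⟨x.2.2, x.2.1⟩ : (_ : ℕ) × ℕ))
        (t := (S.sigma fun v => v.divisorsAntidiagonal).image fun x => (⟨x.2.2, x.2.1⟩ : (_ : ℕ) × ℕ))
        (fun x hx => mem_image_of_mem _ hx) ?_ ?_ (fun x _ => rfl)))
        (sum_le_sum_of_subset_of_nonneg ?_ ?_)
      · intro a ha b hb hab
        obtain ⟨a1, a2, a3⟩ := a
        obtain ⟨b1, b2, b3⟩ := b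
        simp only [mem_sigma, Nat.mem_divisorsAntidiagonal] at ha hb
        simp only [Sigma.mk.injEq, heq_eq_eq] at hab
        obtain ⟨rfl, rfl⟩ := hab
        obtain rfl : a1 = b1 := by rw [← ha.2.1, ← hb.2.1]
        rfl
      · intro b hb
        obtain ⟨a, ha, rfl⟩ := mem_image.1 hb
        exact ⟨a, ha, rfl⟩
      · intro x hx
        obtain ⟨⟨v, d, m⟩, ha, rfl⟩ := mem_image.1 hx
        simp only [mem_sigma, Nat.mem_divisorsAntidiagonal] at ha ⊢
        obtain ⟨hv, hdm, hv0⟩ := ha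
        obtain ⟨hv1, hvy⟩ := hmem v hv
        have hd : 0 < d := Nat.pos_of_ne_zero fun h => hv0 (by rw [← hdm, h, zero_mul])
        have hm : 0 < m := Nat.pos_of_ne_zero fun h => hv0 (by rw [← hdm, h, mul_zero])
        refine ⟨mem_Ioc.2 ⟨hm, ?_⟩, mem_Ioc.2 ⟨hd, Nat.le_floor ?_⟩⟩
        · exact le_trans (Nat.le_of_dvd (by omega) ⟨d, by rw [← hdm, mul_comm]⟩) (mem_Ioc.1 hv).2
        · rw [le_div_iff₀ (by exact_mod_cast hm)]
          exact le_trans (le_of_eq (by exact_mod_cast hdm)) hvy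
      · exact fun x _ _ => mul_nonneg (wt_nonneg hz _)
          (mul_nonneg vonMangoldt_nonneg (wt_nonneg hz _))
    · obtain ⟨hm1, hmy⟩ := hmem m hm
      have hm0 : (0 : ℝ) < m := by exact_mod_cast hm1
      rw [← mul_sum]
      calc wt z m * ∑ d ∈ Ioc 0 ⌊y / m⌋₊, vonMangoldt d * wt z d
          ≤ wt z m * ((6 * Zm + 8) * (y / m)) :=
            mul_le_mul_of_nonneg_left (sum_vonMangoldt_wt hZm hz hzm hz4
              ((one_le_div hm0).2 hmy)) (wt_nonneg hz m)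
        _ = (6 * Zm + 8) * y * (wt z m / m) := by ring
  calc Real.log y * ∑ v ∈ S, wt z v
      ≤ y * ∑ v ∈ S, wt z v / v + (6 * Zm + 8) * y * ∑ v ∈ S, wt z v / v := by linarith
    _ = (6 * Zm + 9) * y * ∑ v ∈ S, wt z v / v := by ring

/-- The profile bound for counting integers. -/
theorem profile_count (hE : EulerTarget) : ∃ C : ℝ, 0 ≤ C ∧
    ∀ (N e u₀ E : ℕ) (D y : ℝ) (U : Finset ℕ), ((N : ℝ) + 1) ^ 4 ≤ Real.exp (Real.exp u₀) →
      16 ≤ y → Real.log (Real.log y) ≤ e →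
      (∀ v ∈ U, 1 ≤ v ∧ (v : ℝ) ≤ y ∧
        ∃ p : Fin N → ℕ, Antitone (fun i => cell (p i)) ∧
          (∀ i, Normal (p i) ∧ u₀ ≤ cell (p i) ∧ cell (p i) ≤ E) ∧
          (∏ i, (p i - 1)) ∣ v ∧ (e : ℝ) + D ≤ tailC (fun i => cell (p i))) →
      (U.card : ℝ) ≤ y / Real.log y *
        Real.exp (-D + perr N u₀ E + N * Real.log ((E : ℝ) + 1) + C * ((N : ℝ) + 1) ^ 2) := by
  classical
  obtain ⟨C, hC, hEu⟩ := hE
  refine ⟨16 * C + 15, by positivity, fun N e u₀ E D y U hN hy hye hU => ?_⟩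
  choose! h1 h2 p hanti hp hdvd hD using hU
  have hlogy : 0 < Real.log y := Real.log_pos (by linarith)
  rw [card_eq_sum_card_fiberwise (t := Fintype.piFinset fun _ : Fin N => range (E + 1))
    (f := fun u i => cell (p u i)) fun u hu => by
      simp only [mem_coe, Fintype.mem_piFinset, mem_range]
      exact fun i => Nat.lt_succ_of_le (hp u hu i).2.2, Nat.cast_sum]
  refine (sum_le_card_nsmul _ _ (y / Real.log y *
    Real.exp (-D + perr N u₀ E + (16 * C + 15) * ((N : ℝ) + 1) ^ 2)) fun c _ => ?_).trans ?_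
  · rcases (U.filter fun u => (fun i => cell (p u i)) = c).eq_empty_or_nonempty with h | ⟨u, hu⟩
    · rw [h]; simp; positivity
    rw [mem_filter] at hu
    have hc : Antitone c := hu.2 ▸ hanti u hu.1
    have hcu : ∀ i, u₀ ≤ c i := fun i => by rw [← hu.2]; exact (hp u hu.1 i).2.1
    have hcE : ∀ i, c i ≤ E := fun i => by rw [← hu.2]; exact (hp u hu.1 i).2.2
    have hDc : (e : ℝ) + D ≤ tailC c := by have := hD u hu.1; rwa [hu.2] at this
    set z := zN c u₀ with hz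
    set Lw := (∑ j : Fin N, if 0 < j.val then (c j : ℝ) else 0) + tailC c - perr N u₀ E with hLw
    have hsub : (U.filter fun u => (fun i => cell (p u i)) = c) ⊆ Ioc 0 ⌊y⌋₊ := fun v hv => by
      rw [mem_filter] at hv
      exact mem_Ioc.2 ⟨h1 v hv.1, Nat.le_floor (h2 v hv.1)⟩
    have hcard : ((U.filter fun u => (fun i => cell (p u i)) = c).card : ℝ)
        ≤ Real.exp (-Lw) * ∑ v ∈ Ioc 0 ⌊y⌋₊, wt z v := by
      rw [mul_sum, card_eq_sum_ones, Nat.cast_sum]
      refine (sum_le_sum fun v hv => ?_).trans (sum_le_sum_of_subset_of_nonneg hsub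
        fun v _ _ => mul_nonneg (Real.exp_pos _).le (wt_nonneg (zN_nonneg c u₀) v))
      rw [mem_filter] at hv
      have hw : 0 < wt z v := lt_of_lt_of_le one_pos (one_le_wt (one_le_zN c u₀) v)
      rw [Nat.cast_one, ← Real.exp_log hw, ← Real.exp_add]
      have := wt_ge hc hcu hcE (fun i => ⟨(hp v hv.1 i).1, congrFun hv.2 i⟩)
        (by have := h1 v hv.1; omega) (hdvd v hv.1)
      exact Real.one_le_exp (by rw [hz]; linarith)
    have hH := hall (Zm := (N : ℝ) + 1) (by positivity) (zN_nonneg c u₀) (fun s _ => zN_le c u₀ _)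
      (fun s hs => zN_pow_four_le hN hs) (show (1 : ℝ) ≤ y by linarith)
    have hsum := hEu e z ((N : ℝ) + 1) (2 * N) (Ioc 0 ⌊y⌋₊) (zN_nonneg c u₀)
      (fun t _ => zN_le c u₀ t) (sum_abs_zN c u₀ e)
      (fun s hs _ => le_three_fourths (one_le_zN _ _ _) (by exact_mod_cast hs.two_le)
        (zN_pow_four_le hN hs))
      fun v hv => ⟨(mem_Ioc.1 hv).1, fun s hs hsv => by
        have hsy : (s : ℝ) ≤ y := le_trans (by
          exact_mod_cast (Nat.le_of_dvd (mem_Ioc.1 hv).1 hsv).trans (mem_Ioc.1 hv).2)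
          (Nat.floor_le (by linarith))
        refine Nat.ceil_le.2 (le_trans ?_ hye)
        exact Real.log_le_log (log_pos_of_prime hs)
          (Real.log_le_log (by exact_mod_cast hs.pos) hsy)⟩
    refine hcard.trans ?_
    have hA : (6 * ((N : ℝ) + 1) + 9) ≤ Real.exp (15 * ((N : ℝ) + 1) ^ 2) := by
      refine le_trans ?_ (Real.add_one_le_exp _)
      nlinarith [Nat.cast_nonneg (α := ℝ) N]
    have hS : ∑ v ∈ Ioc 0 ⌊y⌋₊, wt z v
        ≤ y / Real.log y * (Real.exp (15 * ((N : ℝ) + 1) ^ 2) *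
          Real.exp ((∑ t ∈ Icc 1 e, z t) + C * (1 + ((N : ℝ) + 1) + 2 * N) ^ 2)) := by
      rw [div_mul_eq_mul_div, le_div_iff₀ hlogy, mul_comm]
      refine hH.trans ?_
      calc (6 * ((N : ℝ) + 1) + 9) * y * ∑ v ∈ Ioc 0 ⌊y⌋₊, wt z v / v
          ≤ Real.exp (15 * ((N : ℝ) + 1) ^ 2) * y *
            Real.exp ((∑ t ∈ Icc 1 e, z t) + C * (1 + ((N : ℝ) + 1) + 2 * N) ^ 2) := by
            refine mul_le_mul (mul_le_mul_of_nonneg_right hA (by linarith)) hsum
              (sum_nonneg fun v _ => div_nonneg (wt_nonneg (zN_nonneg c u₀) v) (Nat.cast_nonneg v))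
              (by positivity)
        _ = _ := by ring
    refine (mul_le_mul_of_nonneg_left hS (Real.exp_pos _).le).trans ?_
    rw [mul_left_comm, ← Real.exp_add, ← Real.exp_add]
    refine mul_le_mul_of_nonneg_left (Real.exp_le_exp.2 ?_) (by positivity)
    have h5 := sum_zN_le c u₀ e
    have h6 : C * (1 + ((N : ℝ) + 1) + 2 * N) ^ 2 ≤ 16 * C * ((N : ℝ) + 1) ^ 2 := by
      have : (1 + ((N : ℝ) + 1) + 2 * N) ^ 2 ≤ 16 * ((N : ℝ) + 1) ^ 2 := by
        nlinarith [Nat.cast_nonneg (α := ℝ) N]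
      nlinarith
    rw [hLw]
    simp only [hz] at *
    nlinarith
  · rw [Fintype.card_piFinset, prod_const, card_range, card_univ, Fintype.card_fin, nsmul_eq_mul]
    push_cast
    rw [← Real.exp_log (by positivity : (0 : ℝ) < (E : ℝ) + 1), ← Real.exp_nat_mul, mul_left_comm,
      ← Real.exp_add, Real.log_exp]
    exact mul_le_mul_of_nonneg_left (Real.exp_le_exp.2 (by linarith)) (by positivity)

end

end Vale.Agent.P031.Rankin
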