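import Vale.Agent.P031.Targets
import Vale.Agent.P031.Sieve.Bound

/-!
# P031: module Sieve
-/

namespace Vale.Agent.P031

open Finset

theorem sieve : SieveTarget := by
  obtain ⟨C0, h0, hb0⟩ := Sieve.forms_bound 0
  obtain ⟨C1, h1, hb1⟩ := Sieve.forms_bound 1
  obtain ⟨C2, h2, hb2⟩ := Sieve.forms_bound 2
  set Cr := max C0 (max C1 C2) * 8 * 6 ^ 24
  refine ⟨max 24 ⌈Cr⌉₊, fun R Y as hR hRY hk has => ?_⟩
  set X := ⌊R⌋₊
  have hX : 16 ≤ X := Nat.le_floor (by simpa using hR)
  have hXR : (X : ℝ) ≤ R := Nat.floor_le (by linarith)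
  have hF : 0 ∉ as := fun h => by simpa using (has 0 h).1
  obtain ⟨k, hk', C, hC, hCle, hb⟩ : ∃ k, as.card = k ∧ ∃ C : ℝ, 0 ≤ C ∧ C ≤ max C0 (max C1 C2) ∧
      (((Icc 1 X).filter fun m => m.Prime ∧ ∀ f ∈ as, (f * m + 1).Prime).card : ℝ) ≤
        C * X * Real.log (Real.log (Sieve.bad as) + 3) ^ (8 * (k + 1)) / Real.log X ^ (k + 1) := by
    interval_cases h : as.card
    · exact ⟨0, rfl, C0, h0, le_max_left _ _, hb0 X as (by omega) h hF⟩
    · exact ⟨1, rfl, C1, h1, (le_max_left _ _).trans (le_max_right _ _), hb1 X as (by omega) h hF⟩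
    · exact ⟨2, rfl, C2, h2, (le_max_right _ _).trans (le_max_right _ _), hb2 X as (by omega) h hF⟩
  rw [hk'] at hk ⊢
  have hset : (range (X + 1)).filter (fun r : ℕ => r.Prime ∧ ∀ a ∈ as, (a * r + 1).Prime) =
      (Icc 1 X).filter fun m => m.Prime ∧ ∀ f ∈ as, (f * m + 1).Prime := by
    ext r
    simp only [mem_filter, mem_range, mem_Icc]
    exact ⟨fun h => ⟨⟨h.2.1.one_le, by omega⟩, h.2⟩, fun h => ⟨by omega, h.2⟩⟩
  rw [hset]
  have hl2 := Real.log_two_gt_d9
  have hlog16 : (2 : ℝ) ≤ Real.log Y := by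
    have : Real.log 16 ≤ Real.log Y := Real.log_le_log (by norm_num) (by linarith)
    have e : Real.log 16 = 4 * Real.log 2 := by
      rw [show (16 : ℝ) = 2 ^ (4 : ℕ) by norm_num, Real.log_pow]; norm_num
    linarith
  have hll : 1 ≤ Real.log (Real.log Y) := by
    have : Real.log 16 ≤ Real.log Y := Real.log_le_log (by norm_num) (by linarith)
    have e : Real.log 16 = 4 * Real.log 2 := by
      rw [show (16 : ℝ) = 2 ^ (4 : ℕ) by norm_num, Real.log_pow]; norm_num
    rw [Real.le_log_iff_exp_le (by linarith)]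
    have := Real.exp_one_lt_d9
    linarith
  have hY : (1 : ℝ) ≤ Y := by linarith
  have hN0 : Sieve.bad as ≠ 0 := Sieve.bad_ne_zero as hF
  have hbad : (Sieve.bad as : ℝ) ≤ 6 * Y ^ 4 := by
    have hkc : as.card + 1 ≤ 3 := by omega
    have e1 : ((as.card + 1).factorial : ℝ) ≤ 6 := by
      exact_mod_cast (Nat.factorial_le hkc).trans (le_of_eq (by rfl : Nat.factorial 3 = 6))
    have e2 : ((∏ f ∈ as, f : ℕ) : ℝ) ≤ Y ^ 2 := by
      push_cast
      calc ∏ f ∈ as, (f : ℝ) ≤ ∏ _f ∈ as, Y :=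
            prod_le_prod (fun _ _ => by positivity) fun f hf => (has f hf).2
        _ = Y ^ as.card := prod_const _
        _ ≤ Y ^ 2 := pow_le_pow_right₀ hY (by omega)
    have e3 : ((∏ x ∈ as.offDiag, ((x.1 : ℤ) - x.2).natAbs : ℕ) : ℝ) ≤ Y ^ 2 := by
      push_cast
      calc ∏ x ∈ as.offDiag, (((((x.1 : ℤ) - x.2).natAbs : ℕ)) : ℝ) ≤ ∏ _x ∈ as.offDiag, Y := by
            refine prod_le_prod (fun _ _ => by positivity) fun x hx => ?_
            obtain ⟨m1, m2, -⟩ := mem_offDiag.1 hx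
            have hm : (((x.1 : ℤ) - x.2).natAbs) ≤ max x.1 x.2 := by omega
            refine (Nat.cast_le.2 hm).trans ?_
            rw [Nat.cast_max]
            exact max_le (has _ m1).2 (has _ m2).2
        _ = Y ^ as.offDiag.card := prod_const _
        _ ≤ Y ^ 2 := pow_le_pow_right₀ hY (by
              rw [offDiag_card]
              have h2 : as.card ≤ 2 := by omega
              interval_cases h : as.card <;> simp)
    rw [Sieve.bad]
    push_cast at e2 e3 ⊢
    calc _ ≤ 6 * Y ^ 2 * Y ^ 2 := mul_le_mul (mul_le_mul e1 e2 (by positivity) (by norm_num)) e3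
          (by positivity) (by positivity)
      _ = _ := by ring
  have hll2 : Real.log (Real.log (Sieve.bad as) + 3) ≤ 6 * Real.log (Real.log Y) := by
    have hN1 : (1 : ℝ) ≤ Sieve.bad as := by exact_mod_cast Nat.one_le_iff_ne_zero.2 hN0
    have hlN : 0 ≤ Real.log (Sieve.bad as) := Real.log_nonneg hN1
    have : Real.log (Sieve.bad as) ≤ Real.log 6 + 4 * Real.log Y := by
      refine (Real.log_le_log (by linarith) hbad).trans (le_of_eq ?_)
      rw [Real.log_mul (by norm_num) (by positivity), Real.log_pow]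
      norm_num
    have h6 : Real.log 6 ≤ 5 := (Real.log_le_sub_one_of_pos (by norm_num)).trans (by norm_num)
    have : Real.log (Real.log (Sieve.bad as) + 3) ≤ Real.log (8 * Real.log Y) :=
      Real.log_le_log (by linarith) (by linarith)
    rw [Real.log_mul (by norm_num) (by linarith),
      show (8 : ℝ) = 2 ^ (3 : ℕ) by norm_num, Real.log_pow] at this
    have := Real.log_two_lt_d9
    push_cast at *
    linarith
  have hlX : Real.log R ≤ 2 * Real.log X := by
    have h : R ≤ (X : ℝ) ^ 2 := by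
      have := Nat.lt_floor_add_one R
      have : (16 : ℝ) ≤ X := by exact_mod_cast hX
      nlinarith
    have := Real.log_le_log (by linarith) h
    rwa [Real.log_pow, Nat.cast_ofNat] at this
  have hlR : 0 < Real.log R := Real.log_pos (by linarith)
  have hlX0 : 0 < Real.log X := by linarith
  set LL := Real.log (Real.log Y)
  set M := max 24 ⌈Cr⌉₊
  have hl0 : 0 ≤ Real.log (Real.log (Sieve.bad as) + 3) :=
    Real.log_nonneg (by linarith [Real.log_natCast_nonneg (Sieve.bad as)])
  calc (((Icc 1 X).filter fun m => m.Prime ∧ ∀ f ∈ as, (f * m + 1).Prime).card : ℝ)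
      ≤ C * X * Real.log (Real.log (Sieve.bad as) + 3) ^ (8 * (k + 1)) / Real.log X ^ (k + 1) := hb
    _ ≤ max C0 (max C1 C2) * R * (6 * LL) ^ (8 * (k + 1)) / Real.log X ^ (k + 1) := by
        have : 0 ≤ max C0 (max C1 C2) := h0.trans (le_max_left _ _)
        gcongr
    _ ≤ max C0 (max C1 C2) * R * (6 * LL) ^ 24 / (Real.log R / 2) ^ (k + 1) := by
        have : 0 ≤ max C0 (max C1 C2) := h0.trans (le_max_left _ _)
        gcongr
        · linarith
        · omega
        · linarith
    _ = max C0 (max C1 C2) * 2 ^ (k + 1) * 6 ^ 24 * (R * LL ^ 24 / Real.log R ^ (k + 1)) := by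
        rw [div_pow, mul_pow, div_div_eq_mul_div]; ring
    _ ≤ Cr * (R * LL ^ M / Real.log R ^ (k + 1)) := by
        have : 0 ≤ max C0 (max C1 C2) := h0.trans (le_max_left _ _)
        have h8 : (2 : ℝ) ^ (k + 1) ≤ 8 := by
          calc (2 : ℝ) ^ (k + 1) ≤ 2 ^ 3 := pow_le_pow_right₀ (by norm_num) (by omega)
            _ = 8 := by norm_num
        simp only [Cr]
        gcongr
        exact le_max_left _ _
    _ ≤ (M : ℝ) * (R * LL ^ M / Real.log R ^ (k + 1)) := by
        refine mul_le_mul_of_nonneg_right ?_ (by positivity)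
        exact (Nat.le_ceil Cr).trans (Nat.cast_le.2 (le_max_right _ _))
    _ = _ := by rw [add_comm 1 k]; ring

end Vale.Agent.P031
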