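import Vale.Agent.P031.Final
import Vale.Agent.P031.PNTRatio

/-!
# P031 Q2: the statement in elementary terms, from the two comparisons
-/

namespace Vale.Agent.P031

open Filter
open scoped Topology

/-- `V (c x) / V x → c`, spelled out with Mathlib's totient only. -/
theorem erdosHall_of (hU : UpperTarget) (hL : LowerTarget) :
    ∀ c : ℝ, 1 < c → Tendsto
      (fun x : ℝ =>
        ({v : ℕ | (v : ℝ) ≤ c * x ∧ ∃ n, 1 ≤ n ∧ Nat.totient n = v}.ncard : ℝ) /
          ({v : ℕ | (v : ℝ) ≤ x ∧ ∃ n, 1 ≤ n ∧ Nat.totient n = v}.ncard : ℝ))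
      atTop (𝓝 c) :=
  ratio_of pntRatio hU hL

end Vale.Agent.P031
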