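import Vale.Agent.P031.Targets
import Mathlib.MeasureTheory.Measure.Lebesgue.Basic
import Mathlib.Analysis.SpecialFunctions.Exp
import Mathlib.MeasureTheory.Measure.Real

/-!
# P031 Q2, module Volume: the band is thin

`theorem bandTarget : WindowTarget → BandTarget`.

Configurations are sorted into boxes of width `W = (log l)^4` in the coordinates `X (p i)`.
For every band box and every `r < ⌊1 / (20 K δ)⌋ + 1` the image of the box under
`y_i ↦ (1 - 8 η)^(i+1) (1 - 5 δ)^r y_i` is a box of volume at least `3/8 * W^k`; these images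
are pairwise disjoint and are covered by the boxes lying inside the strict region.
-/

namespace Vale.Agent.P031.Volume

open Finset MeasureTheory Filter
open scoped Topology Classical

noncomputable section

variable {k : ℕ}

/-! ### The coefficients and the linear forms -/

lemma aC_nonneg {m : ℕ} (hm : 1 ≤ m) : 0 ≤ aC m := by
  have hm' : (1 : ℝ) ≤ m := by exact_mod_cast hm
  have h0 : (0 : ℝ) < (m : ℝ) := by linarith
  have h1 : (0 : ℝ) < (m : ℝ) + 1 := by linarith
  have e1 : 1 - ((m : ℝ) + 1)⁻¹ ≤ Real.log ((m : ℝ) + 1) := Real.one_sub_inv_le_log_of_pos h1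
  have e2 : 1 - (((m : ℝ) + 1) / m)⁻¹ ≤ Real.log (((m : ℝ) + 1) / m) :=
    Real.one_sub_inv_le_log_of_pos (by positivity)
  rw [Real.log_div h1.ne' h0.ne', inv_div] at e2
  have e3 : (m : ℝ) * (1 - (m : ℝ) / ((m : ℝ) + 1))
      ≤ (m : ℝ) * (Real.log ((m : ℝ) + 1) - Real.log m) := mul_le_mul_of_nonneg_left e2 h0.le
  have e4 : (m : ℝ) * (1 - (m : ℝ) / ((m : ℝ) + 1)) = 1 - ((m : ℝ) + 1)⁻¹ := by
    field_simp
    ring
  have e5 : ((m : ℝ) + 1)⁻¹ ≤ 1 / 2 := by
    rw [inv_eq_one_div]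
    apply one_div_le_one_div_of_le <;> linarith
  unfold aC
  nlinarith

lemma aC_le {m K : ℕ} (hm : m ≤ K) : aC m ≤ ((K : ℝ) + 1) ^ 2 := by
  have hm' : (m : ℝ) ≤ K := by exact_mod_cast hm
  have h0 : (0 : ℝ) ≤ (m : ℝ) := by positivity
  have e1 : Real.log ((m : ℝ) + 1) ≤ (m : ℝ) + 1 := by
    have := Real.log_le_sub_one_of_pos (x := (m : ℝ) + 1) (by linarith)
    linarith
  have e2 : 0 ≤ (m : ℝ) * Real.log m := mul_nonneg h0 (Real.log_natCast_nonneg m)
  unfold aC
  nlinarith [mul_le_mul_of_nonneg_left e1 (by linarith : (0 : ℝ) ≤ (m : ℝ) + 1)]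

lemma hvec_mono {x y : Fin k → ℝ} (h : ∀ i, x i ≤ y i) : hvec x ≤ hvec y :=
  Finset.sum_le_sum fun i _ => mul_le_mul_of_nonneg_left (h i) (aC_nonneg (Nat.le_add_left 1 _))

lemma hvec_smul (c : ℝ) (x : Fin k → ℝ) : hvec (fun i => c * x i) = c * hvec x := by
  simp only [hvec, Finset.mul_sum]
  exact Finset.sum_congr rfl fun i _ => by ring

lemma hvec_perturb {K : ℕ} {W : ℝ} {x y : Fin k → ℝ} (hk : k ≤ K) (hW : 0 ≤ W)
    (h : ∀ i, y i ≤ x i + W) : hvec y ≤ hvec x + ((K : ℝ) + 2) ^ 3 * W := by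
  have hk' : (k : ℝ) ≤ K := by exact_mod_cast hk
  have h1 : hvec y ≤ ∑ i, (aC (i.val + 1) * x i + ((K : ℝ) + 1) ^ 2 * W) := by
    refine Finset.sum_le_sum fun i _ => ?_
    have h0 : 0 ≤ aC (i.val + 1) := aC_nonneg (Nat.le_add_left 1 _)
    have hb : aC (i.val + 1) ≤ ((K : ℝ) + 1) ^ 2 := aC_le (by omega)
    nlinarith [mul_le_mul_of_nonneg_left (h i) h0, mul_le_mul_of_nonneg_right hb hW]
  rw [Finset.sum_add_distrib, Finset.sum_const, Finset.card_univ, Fintype.card_fin,
    nsmul_eq_mul] at h1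
  have h2 : (k : ℝ) * (((K : ℝ) + 1) ^ 2 * W) ≤ ((K : ℝ) + 2) ^ 3 * W := by
    rw [← mul_assoc]
    apply mul_le_mul_of_nonneg_right _ hW
    nlinarith
  unfold hvec at h1 ⊢
  linarith

lemma tail_perturb {K : ℕ} {W : ℝ} {x y : Fin k → ℝ} (hk : k ≤ K) (hW : 0 ≤ W)
    (h : ∀ i, y i ≤ x i + W) (j : Fin k) : tail y j ≤ tail x j + ((K : ℝ) + 2) ^ 3 * W := by
  have hk' : (k : ℝ) ≤ K := by exact_mod_cast hk
  have h1 : tail y j ≤ ∑ i, ((if j < i then aC (i.val - j.val) * x i else 0)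
      + ((K : ℝ) + 1) ^ 2 * W) := by
    refine Finset.sum_le_sum fun i _ => ?_
    split_ifs with hji
    · have hlt : j.val < i.val := hji
      have h0 : 0 ≤ aC (i.val - j.val) := aC_nonneg (by omega)
      have hb : aC (i.val - j.val) ≤ ((K : ℝ) + 1) ^ 2 := aC_le (by omega)
      nlinarith [mul_le_mul_of_nonneg_left (h i) h0, mul_le_mul_of_nonneg_right hb hW]
    · nlinarith [sq_nonneg ((K : ℝ) + 1)]
  rw [Finset.sum_add_distrib, Finset.sum_const, Finset.card_univ, Fintype.card_fin,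
    nsmul_eq_mul] at h1
  have h2 : (k : ℝ) * (((K : ℝ) + 1) ^ 2 * W) ≤ ((K : ℝ) + 2) ^ 3 * W := by
    rw [← mul_assoc]
    apply mul_le_mul_of_nonneg_right _ hW
    nlinarith
  unfold tail at h1 ⊢
  linarith

/-! ### Windows and block indices -/

lemma mem_window {a b : ℝ} {p : ℕ} : p ∈ window a b ↔ p.Prime ∧ a < X p ∧ X p ≤ b := by
  unfold window
  rw [Finset.mem_filter, Finset.mem_range]
  refine ⟨fun h => h.2, fun h => ⟨?_, h⟩⟩
  have hp : (1 : ℝ) < p := by exact_mod_cast h.1.one_lt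
  have h1 : Real.log p ≤ Real.exp b := by
    rw [← Real.exp_log (Real.log_pos hp)]
    exact Real.exp_le_exp.mpr h.2.2
  have h2 : (p : ℝ) ≤ Real.exp (Real.exp b) := by
    rw [← Real.exp_log (by linarith : (0 : ℝ) < (p : ℝ))]
    exact Real.exp_le_exp.mpr h1
  have := Nat.le_floor h2
  omega

lemma X_lt_X {p q : ℕ} (hq : q.Prime) (h : q < p) : X q < X p := by
  have hq' : (1 : ℝ) < q := by exact_mod_cast hq.one_lt
  have h' : (q : ℝ) < p := by exact_mod_cast h
  exact Real.log_lt_log (Real.log_pos hq') (Real.log_lt_log (by linarith) h')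

lemma lt_of_X_lt {p q : ℕ} (hp : p.Prime) (h : X q < X p) : q < p := by
  rcases lt_trichotomy q p with h1 | h1 | h1
  · exact h1
  · subst h1; exact absurd h (lt_irrefl _)
  · exact absurd (X_lt_X hp h1) (not_lt.mpr h.le)

/-- The block index of a point. -/
def idx (W y : ℝ) : ℕ := ⌈y / W⌉₊ - 1

lemma idx_spec {W y : ℝ} (hW : 0 < W) (hy : 0 < y) :
    (idx W y : ℝ) * W < y ∧ y ≤ ((idx W y : ℝ) + 1) * W := by
  have h1 : 1 ≤ ⌈y / W⌉₊ := Nat.ceil_pos.mpr (div_pos hy hW)
  have e : (idx W y : ℝ) = (⌈y / W⌉₊ : ℝ) - 1 := by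
    unfold idx
    rw [Nat.cast_sub h1, Nat.cast_one]
  constructor
  · have := Nat.ceil_lt_add_one (div_pos hy hW).le
    have h2 : (idx W y : ℝ) < y / W := by linarith
    exact (lt_div_iff₀ hW).mp h2
  · rw [e, sub_add_cancel]
    exact (div_le_iff₀ hW).mp (Nat.le_ceil _)

lemma idx_eq {W y : ℝ} {n : ℕ} (hW : 0 < W) (h1 : (n : ℝ) * W < y)
    (h2 : y ≤ ((n : ℝ) + 1) * W) : idx W y = n := by
  have : ⌈y / W⌉₊ = n + 1 := by
    rw [Nat.ceil_eq_iff (Nat.succ_ne_zero n)]
    constructor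
    · simpa using (lt_div_iff₀ hW).mpr h1
    · push_cast
      exact (div_le_iff₀ hW).mpr h2
  unfold idx
  omega

/-- The box of a block vector, scaled by `c`. -/
def cbox (W : ℝ) (c : Fin k → ℝ) (n : Fin k → ℕ) : Set (Fin k → ℝ) :=
  Set.univ.pi fun i => Set.Ioc (c i * (n i * W)) (c i * ((n i + 1) * W))

lemma mem_cbox {W : ℝ} {c : Fin k → ℝ} {n : Fin k → ℕ} {u : Fin k → ℝ} :
    u ∈ cbox W c n ↔ ∀ i, c i * (n i * W) < u i ∧ u i ≤ c i * ((n i + 1) * W) := by
  simp [cbox, Set.mem_Ioc]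

lemma volume_cbox {W : ℝ} (hW : 0 ≤ W) {c : Fin k → ℝ} (hc : ∀ i, 0 ≤ c i) (n : Fin k → ℕ) :
    volume.real (cbox W c n) = ∏ i, (c i * W) := by
  have hab : (fun i => c i * ((n i : ℝ) * W)) ≤ fun i => c i * (((n i : ℝ) + 1) * W) := by
    intro i
    exact mul_le_mul_of_nonneg_left (by nlinarith) (hc i)
  have := Real.volume_pi_Ioc_toReal hab
  rw [measureReal_def]
  unfold cbox
  rw [this]
  exact Finset.prod_congr rfl fun i _ => by ring

lemma volume_cbox_ne_top {W : ℝ} {c : Fin k → ℝ} (n : Fin k → ℕ) :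
    volume (cbox W c n) ≠ ⊤ := by
  unfold cbox
  rw [Real.volume_pi_Ioc]
  exact ENNReal.prod_ne_top fun i _ => ENNReal.ofReal_ne_top

/-- The product over a box of primes. -/
lemma sum_pi_window (W : ℝ) (n : Fin k → ℕ) :
    ∑ p ∈ Fintype.piFinset (fun i => window (n i * W) ((n i + 1) * W)), cfgWt p
      = ∏ i, ∑ p ∈ window (n i * W) ((n i + 1) * W), ((p : ℝ) - 1)⁻¹ := by
  rw [Finset.prod_univ_sum]
  rfl

lemma cfgWt_nonneg {p : Fin k → ℕ} (h : ∀ i, (p i).Prime) : 0 ≤ cfgWt p := by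
  refine Finset.prod_nonneg fun i _ => inv_nonneg.mpr ?_
  have : (1 : ℝ) ≤ p i := by exact_mod_cast (h i).one_lt.le
  linarith

/-! ### The parameters -/

/-- Numerical conditions on the parameters. -/
structure Cond (l C₀ W : ℝ) (K : ℕ) : Prop where
  lpos : 0 < l
  Wpos : 0 < W
  C₀nn : 0 ≤ C₀
  Kpos : 1 ≤ K
  etapos : 0 < eta l
  etasmall : eta l ≤ 1 / 100
  delpos : 0 < del l
  deleta : del l ≤ eta l
  delK : 20 * K * del l ≤ 1
  etaK : 8 * eta l * (K : ℝ) ^ 2 ≤ 1 / 2
  E_Z : ((K : ℝ) + 2) ^ 3 * W ≤ eta l * Zp l / 64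
  E_l : ((K : ℝ) + 2) ^ 3 * W ≤ del l * l
  C_W : C₀ * K / W ≤ 1 / 2

/-- The shrunk strict region. -/
structure SR (l : ℝ) (u : Fin k → ℝ) : Prop where
  low : ∀ i, Zp l / 16 ≤ u i
  inner : Inner u (-(4 * eta l))
  order : ∀ i j, i < j → u j ≤ (1 - 4 * eta l) * u i
  top : Top u ((1 - 4 * eta l) * l)

/-- The widened band. -/
structure BR (l : ℝ) (y : Fin k → ℝ) : Prop where
  low : ∀ i, 3 * Zp l / 4 ≤ y i
  inner : Inner y (2 * eta l)
  order : ∀ i j, i < j → y j ≤ (1 + 2 * eta l) * y i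
  top : Top y ((1 + 2 * del l) * l)
  notTop : ¬Top y ((1 - 2 * del l) * l)

/-- The scaling factors. -/
def fac (l : ℝ) (r : ℕ) (i : Fin k) : ℝ := (1 - 8 * eta l) ^ (i.val + 1) * (1 - 5 * del l) ^ r

variable {l C₀ W : ℝ} {K : ℕ}

lemma Cond.Zpos (H : Cond l C₀ W K) : 0 < Zp l := by
  have h := H.E_Z
  have : 0 < ((K : ℝ) + 2) ^ 3 * W := mul_pos (by positivity) H.Wpos
  have : 0 < eta l * Zp l := by linarith
  exact (pos_iff_pos_of_mul_pos this).mp H.etapos

lemma Cond.W_le_E (H : Cond l C₀ W K) : W ≤ ((K : ℝ) + 2) ^ 3 * W := by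
  apply le_mul_of_one_le_left H.Wpos.le
  exact one_le_pow₀ (by linarith [(Nat.cast_nonneg K : (0 : ℝ) ≤ K)])

lemma Cond.W_le_Z (H : Cond l C₀ W K) : W ≤ Zp l / 6400 := by
  have h := H.W_le_E.trans H.E_Z
  nlinarith [mul_le_mul_of_nonneg_right H.etasmall H.Zpos.le]

lemma band_BR (H : Cond l C₀ W K) (hk : k ≤ K) {p : Fin k → ℕ} (hp : p ∈ bandCfg l k)
    {y : Fin k → ℝ} (hy : ∀ i, |y i - X (p i)| ≤ W) : BR l y := by
  rw [bandCfg, Finset.mem_filter, Fintype.mem_piFinset] at hp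
  obtain ⟨hw, hanti, hin, htop, hntop⟩ := hp
  have hw' := fun i => mem_window.mp (hw i)
  have hWpos := H.Wpos
  have hWZ := H.W_le_Z
  have hWE := H.W_le_E
  have hEZ := H.E_Z
  have hEl := H.E_l
  have hη := H.etapos
  have hη1 := H.etasmall
  have hZ := H.Zpos
  have ylo : ∀ i, X (p i) - W ≤ y i := fun i => by linarith [(abs_le.mp (hy i)).1]
  have yhi : ∀ i, y i ≤ X (p i) + W := fun i => by linarith [(abs_le.mp (hy i)).2]
  have xlo : ∀ i, X (p i) ≤ y i + W := fun i => by linarith [ylo i]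
  have low : ∀ i, 3 * Zp l / 4 ≤ y i := fun i => by linarith [ylo i, (hw' i).2.1]
  refine ⟨low, ?_, ?_, ⟨?_, ?_⟩, ?_⟩
  · intro j
    have h1 : tail y j ≤ tail (fun i => X (p i)) j + ((K : ℝ) + 2) ^ 3 * W :=
      tail_perturb hk hWpos.le yhi j
    have h2 : tail (fun i => X (p i)) j ≤ (1 + eta l) * X (p j) := hin j
    have h3 : (1 + eta l) * X (p j) ≤ (1 + eta l) * (y j + W) :=
      mul_le_mul_of_nonneg_left (xlo j) (by linarith)
    have h4 := mul_le_mul_of_nonneg_left (low j) hη.le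
    nlinarith
  · intro i j hij
    have h1 : X (p j) < X (p i) := X_lt_X (hw' j).1 (hanti hij)
    have h4 := mul_le_mul_of_nonneg_left (low i) hη.le
    nlinarith [yhi j, ylo i]
  · have h1 : hvec y ≤ hvec (fun i => X (p i)) + ((K : ℝ) + 2) ^ 3 * W :=
      hvec_perturb hk hWpos.le yhi
    have h2 := htop.1
    nlinarith
  · intro i
    nlinarith [yhi i, (hw' i).2.2]
  · rintro ⟨ht1, ht2⟩
    apply hntop
    refine ⟨?_, fun i => ?_⟩
    · have h1 : hvec (fun i => X (p i)) ≤ hvec y + ((K : ℝ) + 2) ^ 3 * W :=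
        hvec_perturb hk hWpos.le xlo
      nlinarith
    · nlinarith [xlo i, ht2 i]

lemma SR_box (H : Cond l C₀ W K) (hk : k ≤ K) {u : Fin k → ℝ} (hu : SR l u) {p : Fin k → ℕ}
    (hp : ∀ i, (p i).Prime) (hy : ∀ i, |X (p i) - u i| ≤ W) : p ∈ strictCfg l k := by
  have hWpos := H.Wpos
  have hWZ := H.W_le_Z
  have hWE := H.W_le_E
  have hEZ := H.E_Z
  have hEl := H.E_l
  have hη := H.etapos
  have hη1 := H.etasmall
  have hZ := H.Zpos
  have hde := H.deleta
  have hlpos := H.lpos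
  have hdl : del l * l ≤ eta l * l := mul_le_mul_of_nonneg_right hde hlpos.le
  have vlo : ∀ i, u i - W ≤ X (p i) := fun i => by linarith [(abs_le.mp (hy i)).1]
  have vhi : ∀ i, X (p i) ≤ u i + W := fun i => by linarith [(abs_le.mp (hy i)).2]
  rw [strictCfg, Finset.mem_filter, Fintype.mem_piFinset]
  refine ⟨fun i => mem_window.mpr ⟨hp i, by linarith [vlo i, hu.low i], ?_⟩, ?_, ?_, ?_, ?_⟩
  · nlinarith [hu.top.2 i, vhi i]
  · intro i j hij
    refine lt_of_X_lt (hp i) ?_
    have h1 := hu.order i j hij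
    have h2 := mul_le_mul_of_nonneg_left (hu.low i) hη.le
    nlinarith [vhi j, vlo i]
  · intro j
    have h1 : tail (fun i => X (p i)) j ≤ tail u j + ((K : ℝ) + 2) ^ 3 * W :=
      tail_perturb hk hWpos.le vhi j
    have h2 : tail u j ≤ (1 + -(4 * eta l)) * u j := hu.inner j
    have h3 : (1 + -(4 * eta l)) * u j ≤ (1 + -(4 * eta l)) * (X (p j) + W) :=
      mul_le_mul_of_nonneg_left (by linarith [vlo j]) (by linarith)
    have h4 : Zp l / 32 ≤ X (p j) := by linarith [vlo j, hu.low j]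
    have h5 := mul_le_mul_of_nonneg_left h4 hη.le
    nlinarith
  · have h1 : hvec (fun i => X (p i)) ≤ hvec u + ((K : ℝ) + 2) ^ 3 * W :=
      hvec_perturb hk hWpos.le vhi
    nlinarith [hu.top.1]
  · intro i
    nlinarith [hu.top.2 i, vhi i]

lemma fac_pos (H : Cond l C₀ W K) (r : ℕ) (i : Fin k) : 0 < fac l r i := by
  have := H.etasmall
  have := H.deleta
  exact mul_pos (pow_pos (by linarith) _) (pow_pos (by linarith) _)

lemma fac_le (H : Cond l C₀ W K) (r : ℕ) (i : Fin k) : fac l r i ≤ 1 - 8 * eta l := by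
  have := H.etasmall
  have := H.etapos
  have := H.deleta
  have := H.delpos
  have h1 : (1 - 8 * eta l) ^ (i.val + 1) ≤ 1 - 8 * eta l :=
    pow_le_of_le_one (by linarith) (by linarith) (Nat.succ_ne_zero _)
  have h2 : (1 - 5 * del l) ^ r ≤ 1 := pow_le_one₀ (by linarith) (by linarith)
  unfold fac
  calc (1 - 8 * eta l) ^ (i.val + 1) * (1 - 5 * del l) ^ r
      ≤ (1 - 8 * eta l) * 1 := by
        apply mul_le_mul h1 h2 (pow_nonneg (by linarith) _) (by linarith)
    _ = _ := mul_one _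

lemma fac_step (H : Cond l C₀ W K) (r : ℕ) {i j : Fin k} (h : i < j) :
    fac l r j ≤ (1 - 8 * eta l) * fac l r i := by
  have := H.etasmall
  have := H.etapos
  have := H.deleta
  have hlt : i.val < j.val := h
  have h1 : (1 - 8 * eta l) ^ (j.val + 1) ≤ (1 - 8 * eta l) ^ (i.val + 1 + 1) :=
    pow_le_pow_of_le_one (by linarith) (by linarith) (by omega)
  rw [pow_succ' _ (i.val + 1)] at h1
  unfold fac
  rw [← mul_assoc]
  exact mul_le_mul_of_nonneg_right h1 (pow_nonneg (by linarith) _)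

lemma pow_r_bound (H : Cond l C₀ W K) {r : ℕ} (hr : (r : ℝ) ≤ 1 / (20 * K * del l)) {m : ℕ}
    (hm : m ≤ K) : 3 / 4 ≤ ((1 - 5 * del l) ^ r) ^ m := by
  have := H.etasmall
  have := H.deleta
  have hd := H.delpos
  have hK : (1 : ℝ) ≤ K := by exact_mod_cast H.Kpos
  rw [← pow_mul]
  have hb := one_add_mul_le_pow (a := -(5 * del l)) (by linarith) (r * m)
  rw [← sub_eq_add_neg] at hb
  have hm' : (m : ℝ) ≤ K := by exact_mod_cast hm
  have h1 : ((r * m : ℕ) : ℝ) ≤ 1 / (20 * K * del l) * K := by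
    push_cast
    exact mul_le_mul hr hm' (by positivity) (by positivity)
  have h2 : ((r * m : ℕ) : ℝ) * (5 * del l) ≤ 1 / (20 * K * del l) * K * (5 * del l) :=
    mul_le_mul_of_nonneg_right h1 (by linarith)
  have h3 : 1 / (20 * (K : ℝ) * del l) * K * (5 * del l) = 1 / 4 := by
    field_simp
    ring
  rw [h3] at h2
  linarith

lemma pow_eta_bound (H : Cond l C₀ W K) {m : ℕ} (hm : m ≤ K * K) :
    1 / 2 ≤ (1 - 8 * eta l) ^ m := by
  have := H.etasmall
  have hb := one_add_mul_le_pow (a := -(8 * eta l)) (by linarith) m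
  rw [← sub_eq_add_neg] at hb
  have hm' : (m : ℝ) ≤ K * K := by exact_mod_cast hm
  have h2 : (m : ℝ) * (8 * eta l) ≤ K * K * (8 * eta l) :=
    mul_le_mul_of_nonneg_right hm' (by linarith [H.etapos])
  have := H.etaK
  linarith

lemma prod_fac_ge (H : Cond l C₀ W K) (hk : k ≤ K) {r : ℕ}
    (hr : (r : ℝ) ≤ 1 / (20 * K * del l)) : 3 / 8 ≤ ∏ i : Fin k, fac l r i := by
  unfold fac
  rw [Finset.prod_mul_distrib, Finset.prod_pow_eq_pow_sum, Finset.prod_const, Finset.card_univ,
    Fintype.card_fin]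
  have h1 : ∑ i : Fin k, (i.val + 1) ≤ K * K := by
    calc ∑ i : Fin k, (i.val + 1) ≤ ∑ _i : Fin k, K :=
          Finset.sum_le_sum fun i _ => by omega
      _ = k * K := by simp
      _ ≤ K * K := Nat.mul_le_mul_right K hk
  have a := pow_eta_bound H h1
  have b := pow_r_bound H hr hk
  calc (3 : ℝ) / 8 = 1 / 2 * (3 / 4) := by norm_num
    _ ≤ _ := mul_le_mul a b (by norm_num) (by linarith)

lemma BR_scale (H : Cond l C₀ W K) (hk : k ≤ K) {r : ℕ}
    (hr : (r : ℝ) ≤ 1 / (20 * K * del l)) {y : Fin k → ℝ} (hy : BR l y) :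
    SR l (fun i => fac l r i * y i) := by
  have hη := H.etapos
  have hη1 := H.etasmall
  have hd := H.delpos
  have hde := H.deleta
  have hZ := H.Zpos
  have hl := H.lpos
  have ypos : ∀ i, 0 ≤ y i := fun i => by linarith [hy.low i]
  refine ⟨fun i => ?_, fun j => ?_, fun i j hij => ?_, ?_, fun i => ?_⟩
  · have h1 : 1 / 2 ≤ (1 - 8 * eta l) ^ (i.val + 1) := pow_eta_bound H (by
      calc i.val + 1 ≤ K := by omega
        _ ≤ K * K := Nat.le_mul_self K)
    have h2 : 3 / 4 ≤ ((1 - 5 * del l) ^ r) ^ 1 := pow_r_bound H hr H.Kpos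
    rw [pow_one] at h2
    have h3 : (3 : ℝ) / 8 ≤ fac l r i := by
      calc (3 : ℝ) / 8 = 1 / 2 * (3 / 4) := by norm_num
        _ ≤ _ := mul_le_mul h1 h2 (by norm_num) (by linarith)
    nlinarith [mul_le_mul h3 (hy.low i) (by positivity) (fac_pos H r i).le]
  · have h1 : tail (fun i => fac l r i * y i) j
        ≤ (1 - 8 * eta l) * fac l r j * tail y j := by
      unfold tail
      rw [Finset.mul_sum]
      refine Finset.sum_le_sum fun i _ => ?_
      split_ifs with hji
      · have hlt : j.val < i.val := hji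
        have ha : 0 ≤ aC (i.val - j.val) := aC_nonneg (by omega)
        calc aC (i.val - j.val) * (fac l r i * y i)
            ≤ aC (i.val - j.val) * ((1 - 8 * eta l) * fac l r j * y i) :=
              mul_le_mul_of_nonneg_left
                (mul_le_mul_of_nonneg_right (fac_step H r hji) (ypos i)) ha
          _ = _ := by ring
      · simp
    have h2 : tail y j ≤ (1 + 2 * eta l) * y j := hy.inner j
    have h3 : (1 - 8 * eta l) * (1 + 2 * eta l) ≤ 1 + -(4 * eta l) := by nlinarith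
    calc tail (fun i => fac l r i * y i) j
        ≤ (1 - 8 * eta l) * fac l r j * tail y j := h1
      _ ≤ (1 - 8 * eta l) * fac l r j * ((1 + 2 * eta l) * y j) :=
          mul_le_mul_of_nonneg_left h2 (mul_nonneg (by linarith) (fac_pos H r j).le)
      _ = (1 - 8 * eta l) * (1 + 2 * eta l) * (fac l r j * y j) := by ring
      _ ≤ (1 + -(4 * eta l)) * (fac l r j * y j) :=
          mul_le_mul_of_nonneg_right h3 (mul_nonneg (fac_pos H r j).le (ypos j))
  · have h1 := mul_le_mul (fac_step H r hij) (hy.order i j hij) (ypos j)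
      (mul_nonneg (by linarith) (fac_pos H r i).le)
    have h3 : (1 - 8 * eta l) * (1 + 2 * eta l) ≤ 1 - 4 * eta l := by nlinarith
    have h4 := mul_le_mul_of_nonneg_right h3 (mul_nonneg (fac_pos H r i).le (ypos i))
    nlinarith
  · have h1 : hvec (fun i => fac l r i * y i) ≤ hvec (fun i => (1 - 8 * eta l) * y i) :=
      hvec_mono fun i => mul_le_mul_of_nonneg_right (fac_le H r i) (ypos i)
    rw [hvec_smul] at h1
    have h2 : (1 - 8 * eta l) * hvec y ≤ (1 - 8 * eta l) * ((1 + 2 * del l) * l) :=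
      mul_le_mul_of_nonneg_left hy.top.1 (by linarith)
    have h3 : (1 - 8 * eta l) * (1 + 2 * del l) ≤ 1 - 4 * eta l := by nlinarith
    have h4 := mul_le_mul_of_nonneg_right h3 hl.le
    linarith
  · have h1 := mul_le_mul (fac_le H r i) (hy.top.2 i) (ypos i) (by linarith)
    have h3 : (1 - 8 * eta l) * (1 + 2 * del l) ≤ 1 - 4 * eta l := by nlinarith
    have h4 := mul_le_mul_of_nonneg_right h3 hl.le
    simp only
    nlinarith

/-- Different scalings of band points differ. -/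
lemma scale_ne (H : Cond l C₀ W K) {r r' : ℕ} (hrr : r < r') {y y' : Fin k → ℝ} (hy : BR l y)
    (hy' : BR l y') (h : ∀ i, fac l r i * y i = fac l r' i * y' i) : False := by
  have hη := H.etapos
  have hη1 := H.etasmall
  have hd := H.delpos
  have hde := H.deleta
  have hl := H.lpos
  set q := (1 - 5 * del l) ^ (r' - r) with hq
  have hq0 : 0 ≤ q := pow_nonneg (by linarith) _
  have hq1 : q ≤ 1 - 5 * del l :=
    pow_le_of_le_one (by linarith) (by linarith) (by omega)
  have e : ∀ i, y i = q * y' i := by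
    intro i
    have h1 : fac l r' i = fac l r i * q := by
      rw [hq]
      unfold fac
      rw [mul_assoc, ← pow_add, Nat.add_sub_cancel' hrr.le]
    have h2 := h i
    rw [h1, mul_assoc] at h2
    exact mul_left_cancel₀ (fac_pos H r i).ne' h2
  have h3 : (1 - 5 * del l) * (1 + 2 * del l) ≤ 1 - 2 * del l := by nlinarith
  have h4 := mul_le_mul_of_nonneg_right h3 hl.le
  have h5 : q * ((1 + 2 * del l) * l) ≤ (1 - 5 * del l) * ((1 + 2 * del l) * l) :=
    mul_le_mul_of_nonneg_right hq1 (mul_nonneg (by linarith) hl.le)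
  refine hy.notTop ⟨?_, fun i => ?_⟩
  · have e' : hvec y = q * hvec y' := by rw [funext e, hvec_smul]
    rw [e']
    nlinarith [mul_le_mul_of_nonneg_left hy'.top.1 hq0]
  · rw [e i]
    nlinarith [mul_le_mul_of_nonneg_left (hy'.top.2 i) hq0]

/-- The comparison for one value of `k`. -/
lemma band_le (H : Cond l C₀ W K) (hk : k ≤ K)
    (hwin : ∀ a b : ℝ, 0 ≤ a → a ≤ b →
      |(∑ p ∈ window a b, ((p : ℝ) - 1)⁻¹) - (b - a)| ≤ C₀) :
    ∑ p ∈ bandCfg l k, cfgWt p ≤ 214 * K * del l * ∑ p ∈ strictCfg l k, cfgWt p := by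
  classical
  have hW := H.Wpos
  have hC := H.C₀nn
  have hd := H.delpos
  have hZ := H.Zpos
  have hK : (1 : ℝ) ≤ K := by exact_mod_cast H.Kpos
  have hk' : (k : ℝ) ≤ K := by exact_mod_cast hk
  have hCk : (k : ℝ) * (C₀ / W) ≤ 1 / 2 := by
    calc (k : ℝ) * (C₀ / W) ≤ (K : ℝ) * (C₀ / W) :=
          mul_le_mul_of_nonneg_right hk' (div_nonneg hC hW.le)
      _ = C₀ * K / W := by ring
      _ ≤ 1 / 2 := H.C_W
  have hwhi : ∀ n : ℕ,
      (∑ p ∈ window ((n : ℝ) * W) (((n : ℝ) + 1) * W), ((p : ℝ) - 1)⁻¹) ≤ W + C₀ := by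
    intro n
    have := (abs_le.mp (hwin ((n : ℝ) * W) (((n : ℝ) + 1) * W) (by positivity)
      (by nlinarith))).2
    linarith
  have hwlo : ∀ n : ℕ,
      W - C₀ ≤ ∑ p ∈ window ((n : ℝ) * W) (((n : ℝ) + 1) * W), ((p : ℝ) - 1)⁻¹ := by
    intro n
    have := (abs_le.mp (hwin ((n : ℝ) * W) (((n : ℝ) + 1) * W) (by positivity)
      (by nlinarith))).1
    linarith
  have hw0 : ∀ a b : ℝ, 0 ≤ ∑ p ∈ window a b, ((p : ℝ) - 1)⁻¹ := by
    intro a b
    refine Finset.sum_nonneg fun p hp => inv_nonneg.mpr ?_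
    have : (1 : ℝ) ≤ p := by exact_mod_cast (mem_window.mp hp).1.one_lt.le
    linarith
  have hpowhi : (W + C₀) ^ k ≤ 2 * W ^ k := by
    have e : (W + C₀) ^ k = (1 + C₀ / W) ^ k * W ^ k := by
      rw [← mul_pow]
      congr 1
      field_simp
    rw [e]
    apply mul_le_mul_of_nonneg_right _ (pow_nonneg hW.le k)
    calc (1 + C₀ / W) ^ k ≤ Real.exp (C₀ / W) ^ k :=
          pow_le_pow_left₀ (by positivity) (by linarith [Real.add_one_le_exp (C₀ / W)]) k
      _ = Real.exp ((k : ℝ) * (C₀ / W)) := (Real.exp_nat_mul _ _).symm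
      _ ≤ Real.exp (1 / 2) := Real.exp_le_exp.mpr hCk
      _ ≤ 2 := by
        have := Real.exp_bound_div_one_sub_of_interval (x := 1 / 2) (by norm_num) (by norm_num)
        norm_num at this ⊢
        linarith
  have hpowlo : W ^ k / 2 ≤ (W - C₀) ^ k ∧ (k = 0 ∨ 0 ≤ W - C₀) := by
    rcases Nat.eq_zero_or_pos k with rfl | hk0
    · exact ⟨by norm_num, Or.inl rfl⟩
    · have hk1 : (1 : ℝ) ≤ k := by exact_mod_cast hk0
      have hx : C₀ / W ≤ 1 / 2 :=
        le_trans (le_mul_of_one_le_left (div_nonneg hC hW.le) hk1) hCk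
      have hb := one_add_mul_le_pow (a := -(C₀ / W)) (by linarith) k
      have e : (W - C₀) ^ k = (1 + -(C₀ / W)) ^ k * W ^ k := by
        rw [← mul_pow]
        congr 1
        field_simp
        ring
      refine ⟨?_, Or.inr ?_⟩
      · rw [e]
        nlinarith [pow_nonneg hW.le k]
      · have := (div_le_iff₀ hW).mp hx
        linarith
  -- band boxes
  set g : (Fin k → ℕ) → (Fin k → ℕ) := fun p i => idx W (X (p i)) with hg
  set NB := (bandCfg l k).image g with hNB
  set N := ⌊1 / (20 * (K : ℝ) * del l)⌋₊ + 1 with hN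
  have hrN : ∀ r ∈ Finset.range N, (r : ℝ) ≤ 1 / (20 * K * del l) := by
    intro r hr
    rw [Finset.mem_range] at hr
    have h1 : r ≤ ⌊1 / (20 * (K : ℝ) * del l)⌋₊ := by omega
    exact le_trans (Nat.cast_le.mpr h1) (Nat.floor_le (by positivity))
  have hBR : ∀ n ∈ NB, ∀ y : Fin k → ℝ,
      (∀ i, (n i : ℝ) * W < y i ∧ y i ≤ ((n i : ℝ) + 1) * W) → BR l y := by
    intro n hn y hy
    obtain ⟨p, hp, rfl⟩ := Finset.mem_image.mp hn
    refine band_BR H hk hp fun i => ?_
    have hp' := hp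
    rw [bandCfg, Finset.mem_filter, Fintype.mem_piFinset] at hp'
    have hi := mem_window.mp (hp'.1 i)
    have hs := idx_spec hW (lt_trans hZ hi.2.1)
    have hyi := hy i
    simp only [hg] at hyi
    rw [abs_le]
    constructor <;> nlinarith
  have hband : ∑ p ∈ bandCfg l k, cfgWt p ≤ (NB.card : ℝ) * (2 * W ^ k) := by
    rw [← Finset.sum_fiberwise_of_maps_to (t := NB) (g := g)
      (fun p hp => Finset.mem_image_of_mem _ hp)]
    rw [← nsmul_eq_mul, ← Finset.sum_const]
    refine Finset.sum_le_sum fun n _ => ?_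
    calc ∑ p ∈ (bandCfg l k).filter (fun p => g p = n), cfgWt p
        ≤ ∑ p ∈ Fintype.piFinset (fun i => window (n i * W) ((n i + 1) * W)), cfgWt p := by
          refine Finset.sum_le_sum_of_subset_of_nonneg (fun p hp => ?_) fun p hp _ => ?_
          · rw [Finset.mem_filter] at hp
            obtain ⟨hp, rfl⟩ := hp
            rw [bandCfg, Finset.mem_filter, Fintype.mem_piFinset] at hp
            rw [Fintype.mem_piFinset]
            intro i
            have hi := mem_window.mp (hp.1 i)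
            exact mem_window.mpr ⟨hi.1, idx_spec hW (lt_trans hZ hi.2.1)⟩
          · rw [Fintype.mem_piFinset] at hp
            exact cfgWt_nonneg fun i => (mem_window.mp (hp i)).1
      _ = ∏ i, ∑ p ∈ window (n i * W) ((n i + 1) * W), ((p : ℝ) - 1)⁻¹ := sum_pi_window W n
      _ ≤ ∏ _i : Fin k, (W + C₀) :=
          Finset.prod_le_prod (fun i _ => hw0 _ _) fun i _ => hwhi (n i)
      _ = (W + C₀) ^ k := by simp
      _ ≤ 2 * W ^ k := hpowhi
  -- strict boxes
  set M := ⌈l / W⌉₊ + 1 with hM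
  set NS := (Fintype.piFinset fun _ : Fin k => Finset.range M).filter fun n =>
    ∃ u ∈ cbox W (fun _ => (1 : ℝ)) n, SR l u with hNS
  have hstrict : (NS.card : ℝ) * (W ^ k / 2) ≤ ∑ p ∈ strictCfg l k, cfgWt p := by
    have hsub : ∀ n ∈ NS, Fintype.piFinset (fun i => window (n i * W) ((n i + 1) * W))
        ⊆ (strictCfg l k).filter fun p => g p = n := by
      intro n hn p hp
      rw [hNS, Finset.mem_filter] at hn
      obtain ⟨-, u, hu, hSR⟩ := hn
      rw [mem_cbox] at hu
      rw [Fintype.mem_piFinset] at hp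
      have hpi := fun i => mem_window.mp (hp i)
      rw [Finset.mem_filter]
      refine ⟨SR_box H hk hSR (fun i => (hpi i).1) fun i => ?_, ?_⟩
      · have := hu i
        have := hpi i
        rw [abs_le]
        constructor <;> nlinarith
      · funext i
        exact idx_eq hW (hpi i).2.1 (hpi i).2.2
    calc (NS.card : ℝ) * (W ^ k / 2) ≤ ∑ n ∈ NS, (W - C₀) ^ k := by
          rw [Finset.sum_const, nsmul_eq_mul]
          exact mul_le_mul_of_nonneg_left hpowlo.1 (Nat.cast_nonneg _)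
      _ ≤ ∑ n ∈ NS, ∑ p ∈ (strictCfg l k).filter (fun p => g p = n), cfgWt p := by
          refine Finset.sum_le_sum fun n hn => ?_
          refine le_trans ?_ (Finset.sum_le_sum_of_subset_of_nonneg (hsub n hn) fun p hp _ => ?_)
          · rw [sum_pi_window]
            rcases hpowlo.2 with h0 | h0
            · subst h0; simp
            · calc (W - C₀) ^ k = ∏ _i : Fin k, (W - C₀) := by simp
                _ ≤ _ := Finset.prod_le_prod (fun i _ => h0) fun i _ => hwlo (n i)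
          · rw [Finset.mem_filter, strictCfg, Finset.mem_filter, Fintype.mem_piFinset] at hp
            exact cfgWt_nonneg fun i => (mem_window.mp (hp.1.1 i)).1
      _ ≤ ∑ p ∈ strictCfg l k, cfgWt p := by
          rw [← Finset.sum_biUnion]
          · refine Finset.sum_le_sum_of_subset_of_nonneg (fun p hp => ?_) fun p hp _ => ?_
            · rw [Finset.mem_biUnion] at hp
              obtain ⟨n, _, hp⟩ := hp
              exact (Finset.mem_filter.mp hp).1
            · rw [strictCfg, Finset.mem_filter, Fintype.mem_piFinset] at hp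
              exact cfgWt_nonneg fun i => (mem_window.mp (hp.1 i)).1
          · intro a _ b _ hab
            rw [Function.onFun, Finset.disjoint_filter]
            intro p _ h1 h2
            exact hab (h1.symm.trans h2)
  -- volumes
  have hmain : (N : ℝ) * NB.card * (3 / 8 * W ^ k) ≤ (NS.card : ℝ) * W ^ k := by
    set big := ⋃ n ∈ NS, cbox W (fun _ => (1 : ℝ)) n with hbig
    set small := ⋃ q ∈ Finset.range N ×ˢ NB, cbox W (fac l q.1) q.2 with hsmall
    have back : ∀ {r : ℕ} {n : Fin k → ℕ} {u : Fin k → ℝ}, u ∈ cbox W (fac l r) n →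
        (∀ i, (n i : ℝ) * W < u i / fac l r i ∧ u i / fac l r i ≤ ((n i : ℝ) + 1) * W) ∧
          ∀ i, fac l r i * (u i / fac l r i) = u i := by
      intro r n u hu
      rw [mem_cbox] at hu
      refine ⟨fun i => ⟨?_, ?_⟩, fun i => mul_div_cancel₀ _ (fac_pos H r i).ne'⟩
      · rw [lt_div_iff₀ (fac_pos H r i), mul_comm]
        exact (hu i).1
      · rw [div_le_iff₀ (fac_pos H r i), mul_comm]
        exact (hu i).2
    have hsub : small ⊆ big := by
      intro u hu
      simp only [hsmall, Set.mem_iUnion, exists_prop] at hu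
      obtain ⟨⟨r, n⟩, hrn, hu⟩ := hu
      rw [Finset.mem_product] at hrn
      obtain ⟨hr, hn⟩ := hrn
      obtain ⟨hb, he⟩ := back hu
      have hS := BR_scale H hk (hrN r hr) (hBR n hn _ hb)
      simp only [he] at hS
      have hpos : ∀ i, 0 < u i := fun i => by linarith [hS.low i]
      simp only [hbig, Set.mem_iUnion, exists_prop]
      refine ⟨fun i => idx W (u i), ?_, ?_⟩
      · rw [hNS, Finset.mem_filter, Fintype.mem_piFinset]
        refine ⟨fun i => ?_, u, ?_, hS⟩
        · rw [Finset.mem_range, hM]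
          have h1 : u i ≤ l := by
            have h2 := hS.top.2 i
            have h3 := mul_pos H.etapos H.lpos
            linarith
          have h2 : ⌈u i / W⌉₊ ≤ ⌈l / W⌉₊ := Nat.ceil_mono (by gcongr)
          unfold idx
          omega
        · rw [mem_cbox]
          intro i
          simpa using idx_spec hW (hpos i)
      · rw [mem_cbox]
        intro i
        simpa using idx_spec hW (hpos i)
    have hdis : (↑(Finset.range N ×ˢ NB) : Set (ℕ × (Fin k → ℕ))).PairwiseDisjoint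
        (fun q => cbox W (fac l q.1) q.2) := by
      rintro ⟨r, n⟩ hq ⟨r', n'⟩ hq' hne
      rw [Finset.mem_coe, Finset.mem_product] at hq hq'
      rw [Function.onFun, Set.disjoint_left]
      intro u hu hu'
      obtain ⟨hb, he⟩ := back hu
      obtain ⟨hb', he'⟩ := back hu'
      have hy := hBR n hq.2 _ hb
      have hy' := hBR n' hq'.2 _ hb'
      rcases lt_trichotomy r r' with h | h | h
      · exact scale_ne H h hy hy' fun i => (he i).trans (he' i).symm
      · subst h
        refine hne (Prod.ext rfl (funext fun i => ?_))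
        exact ((idx_eq hW (hb i).1 (hb i).2).symm.trans (idx_eq hW (hb' i).1 (hb' i).2))
      · exact scale_ne H h hy' hy fun i => (he' i).trans (he i).symm
    have hmeas : ∀ q ∈ Finset.range N ×ˢ NB, MeasurableSet (cbox W (fac l q.1) q.2) :=
      fun q _ => MeasurableSet.univ_pi fun i => measurableSet_Ioc
    have h1 : volume.real small
        = ∑ q ∈ Finset.range N ×ˢ NB, volume.real (cbox W (fac l q.1) q.2) :=
      measureReal_biUnion_finset hdis hmeas (fun q _ => volume_cbox_ne_top _)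
    have hfin : volume big ≠ ⊤ := ne_of_lt <|
      lt_of_le_of_lt (measure_biUnion_finset_le NS _)
        (ENNReal.sum_lt_top.mpr fun n _ => lt_top_iff_ne_top.mpr (volume_cbox_ne_top n))
    have h2 : volume.real small ≤ volume.real big := measureReal_mono hsub hfin
    have h3 : volume.real big ≤ (NS.card : ℝ) * W ^ k := by
      refine le_trans (measureReal_biUnion_finset_le NS _) (le_of_eq ?_)
      rw [Finset.sum_congr rfl fun n _ => volume_cbox hW.le (fun _ => zero_le_one) n]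
      simp
    have h4 : (N : ℝ) * NB.card * (3 / 8 * W ^ k) ≤ volume.real small := by
      rw [h1, show (N : ℝ) * NB.card = ((Finset.range N ×ˢ NB).card : ℝ) by simp,
        ← nsmul_eq_mul, ← Finset.sum_const]
      refine Finset.sum_le_sum fun q hq => ?_
      rw [Finset.mem_product] at hq
      rw [volume_cbox hW.le (fun i => (fac_pos H q.1 i).le), Finset.prod_mul_distrib,
        Finset.prod_const, Finset.card_univ, Fintype.card_fin]
      exact mul_le_mul_of_nonneg_right (prod_fac_ge H hk (hrN q.1 hq.1)) (pow_nonneg hW.le k)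
    linarith
  -- conclusion
  have hN1 : 1 / (20 * (K : ℝ) * del l) ≤ N := by
    have := (Nat.lt_floor_add_one (1 / (20 * (K : ℝ) * del l))).le
    simpa [hN] using this
  have hNd : 1 ≤ (N : ℝ) * (20 * K * del l) := by
    rwa [div_le_iff₀ (by positivity)] at hN1
  set S := ∑ p ∈ strictCfg l k, cfgWt p with hSdef
  set B := (NB.card : ℝ) * W ^ k with hBdef
  have hB0 : 0 ≤ B := by positivity
  have hS0 : 0 ≤ S := le_trans (by positivity) hstrict
  have h5 : (N : ℝ) * B ≤ 16 / 3 * S := by rw [hBdef]; linarith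
  have h6 : B ≤ (20 * K * del l) * ((N : ℝ) * B) := by nlinarith
  have h7 : (20 * (K : ℝ) * del l) * ((N : ℝ) * B) ≤ (20 * K * del l) * (16 / 3 * S) :=
    mul_le_mul_of_nonneg_left h5 (by positivity)
  have h8 : 0 ≤ (K : ℝ) * del l * S := by positivity
  have h9 : ∑ p ∈ bandCfg l k, cfgWt p ≤ 2 * B := by rw [hBdef]; linarith
  linarith

/-! ### The parameters satisfy the conditions eventually -/

lemma eventually_cond (C₀ : ℝ) (hC : 0 ≤ C₀) :
    ∀ᶠ l : ℝ in atTop, Cond l C₀ (Lg l ^ 4) (Kp l) := by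
  have hev : ∀ᶠ u : ℝ in atTop, 5 ^ 10 * 20 ≤ Real.exp u / u ^ 10 :=
    (Real.tendsto_exp_div_pow_atTop 10).eventually_ge_atTop _
  have hLg : Tendsto (fun l : ℝ => Real.log l) atTop atTop := Real.tendsto_log_atTop
  filter_upwards [eventually_gt_atTop 0, hLg.eventually_ge_atTop (2 * C₀ + 4),
    (hLg.atTop_div_const (by norm_num : (0 : ℝ) < 5)).eventually hev] with l hl hL hexp
  have hL4 : 4 ≤ Lg l := by unfold Lg; linarith
  have hLC : 2 * C₀ ≤ Lg l := by unfold Lg; linarith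
  have hL0 : 0 < Lg l := by linarith
  have hexp' : 20 * Lg l ^ 10 ≤ Real.exp (Lg l / 5) := by
    have h5 : (0 : ℝ) < (Lg l / 5) ^ 10 := by positivity
    have h : (5 : ℝ) ^ 10 * 20 ≤ Real.exp (Lg l / 5) / (Lg l / 5) ^ 10 := hexp
    rw [le_div_iff₀ h5] at h
    refine le_trans (le_of_eq ?_) h
    ring
  have hdel : del l = (Real.exp (Lg l / 5))⁻¹ := by
    unfold del Lg
    rw [Real.rpow_def_of_pos hl, ← Real.exp_neg]
    congr 1
    ring
  have hdell : del l * l = Real.exp (Lg l / 5) ^ 4 := by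
    rw [hdel, ← Real.exp_nat_mul, ← Real.exp_neg]
    nth_rewrite 2 [← Real.exp_log hl]
    rw [← Real.exp_add]
    congr 1
    unfold Lg
    push_cast
    ring
  have hexp0 : 0 < Real.exp (Lg l / 5) := Real.exp_pos _
  have hKle : (Kp l : ℝ) ≤ Lg l ^ 2 := Nat.floor_le (by positivity)
  have hK0 : (0 : ℝ) ≤ (Kp l : ℝ) := Nat.cast_nonneg _
  have hL1 : (1 : ℝ) ≤ Lg l := by linarith
  have hL16 : (16 : ℝ) ≤ Lg l ^ 2 := by nlinarith
  have hE : ((Kp l : ℝ) + 2) ^ 3 * Lg l ^ 4 ≤ 8 * Lg l ^ 10 := by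
    calc ((Kp l : ℝ) + 2) ^ 3 * Lg l ^ 4 ≤ (2 * Lg l ^ 2) ^ 3 * Lg l ^ 4 := by
          apply mul_le_mul_of_nonneg_right _ (by positivity)
          exact pow_le_pow_left₀ (by linarith) (by linarith) 3
      _ = 8 * Lg l ^ 10 := by ring
  refine ⟨hl, by positivity, hC, ?_, ?_, ?_, ?_, ?_, ?_, ?_, ?_, ?_, ?_⟩
  · exact Nat.le_floor (by push_cast; linarith)
  · unfold eta; positivity
  · unfold eta
    rw [inv_le_comm₀ (by positivity) (by norm_num)]
    calc (1 / 100 : ℝ)⁻¹ ≤ 4 ^ 6 := by norm_num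
      _ ≤ Lg l ^ 6 := pow_le_pow_left₀ (by norm_num) hL4 6
  · rw [hdel]; positivity
  · rw [hdel]
    unfold eta
    apply inv_anti₀ (by positivity)
    have := pow_le_pow_right₀ hL1 (by norm_num : 6 ≤ 10)
    nlinarith
  · rw [hdel, ← div_eq_mul_inv, div_le_one hexp0]
    have := pow_le_pow_right₀ hL1 (by norm_num : 2 ≤ 10)
    linarith
  · have h1 : (Kp l : ℝ) ^ 2 ≤ Lg l ^ 4 :=
      (pow_le_pow_left₀ hK0 hKle 2).trans (le_of_eq (by ring))
    calc 8 * eta l * (Kp l : ℝ) ^ 2 ≤ 8 * eta l * Lg l ^ 4 :=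
          mul_le_mul_of_nonneg_left h1 (by unfold eta; positivity)
      _ = 8 / Lg l ^ 2 := by
          unfold eta
          field_simp
      _ ≤ 1 / 2 := by
          rw [div_le_iff₀ (by positivity)]
          linarith
  · refine le_trans hE ?_
    have e : eta l * Zp l = Lg l ^ 74 := by
      unfold eta Zp
      field_simp
    rw [e]
    have h1 : (512 : ℝ) ≤ Lg l ^ 64 :=
      le_trans (by norm_num) (pow_le_pow_left₀ (by norm_num) hL4 64)
    have h2 : Lg l ^ 74 = Lg l ^ 64 * Lg l ^ 10 := by ring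
    rw [h2]
    nlinarith [pow_pos hL0 10]
  · refine le_trans hE ?_
    rw [hdell]
    have h1 : (1 : ℝ) ≤ Real.exp (Lg l / 5) := Real.one_le_exp (by linarith)
    have h2 : Real.exp (Lg l / 5) ≤ Real.exp (Lg l / 5) ^ 4 := le_self_pow₀ h1 (by norm_num)
    nlinarith [pow_pos hL0 10]
  · rw [div_le_iff₀ (by positivity)]
    have h1 : C₀ * (Kp l : ℝ) ≤ C₀ * Lg l ^ 2 := mul_le_mul_of_nonneg_left hKle hC
    nlinarith [mul_le_mul_of_nonneg_right hLC (sq_nonneg (Lg l)),
      mul_le_mul_of_nonneg_right (le_self_pow₀ hL1 (by norm_num : (2 : ℕ) ≠ 0))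
        (sq_nonneg (Lg l))]

/-- Module Volume. -/
theorem bandTarget (hW : WindowTarget) : BandTarget := by
  obtain ⟨C, hC⟩ := hW
  refine ⟨214, ?_⟩
  filter_upwards [eventually_cond (max C 0) (le_max_right _ _)] with l H
  rw [Finset.mul_sum]
  refine Finset.sum_le_sum fun k hk => band_le H ?_ fun a b ha hab => ?_
  · exact Nat.lt_succ_iff.mp (Finset.mem_range.mp hk)
  · exact (hC a b ha hab).trans (le_max_left _ _)

end

end Vale.Agent.P031.Volume
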