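import Vale.Agent.P031.Targets
import Vale.Agent.P031.Basic
import Vale.Agent.P031.Volume
import Mathlib.Analysis.SpecialFunctions.Pow.Asymptotics

/-!
# P031 Q2, module StrictA: strict configurations give distinct admissible cofactors

`theorem strictA_of : CollisionTarget → AbnormalTarget → WindowTarget → StrictLeATarget`.
Configurations are handled as sets of primes.
-/

namespace Vale.Agent.P031.StrictA

open Finset Filter
open scoped Topology Classical

noncomputable section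

/-- The weight of a set of primes. -/
def wS (S : Finset ℕ) : ℝ := ∏ p ∈ S, ((p : ℝ) - 1)⁻¹

/-- The totient value of a set of primes. -/
def gS (S : Finset ℕ) : ℕ := ∏ p ∈ S, (p - 1)

lemma wS_nonneg {S : Finset ℕ} (h : ∀ p ∈ S, 2 ≤ p) : 0 ≤ wS S := by
  refine Finset.prod_nonneg fun p hp => inv_nonneg.2 ?_
  have : (2 : ℝ) ≤ p := by exact_mod_cast h p hp
  linarith

lemma wS_eq {S : Finset ℕ} (h : ∀ p ∈ S, 2 ≤ p) : wS S = ((gS S : ℕ) : ℝ)⁻¹ := by
  rw [wS, gS, Nat.cast_prod, ← Finset.prod_inv_distrib]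
  refine Finset.prod_congr rfl fun p hp => ?_
  have := h p hp
  rw [Nat.cast_sub (by omega), Nat.cast_one]

lemma gS_pos {S : Finset ℕ} (h : ∀ p ∈ S, 2 ≤ p) : 0 < gS S :=
  Finset.prod_pos fun p hp => by have := h p hp; omega

lemma eq_empty_of_gS {S : Finset ℕ} (h : ∀ p ∈ S, 3 ≤ p) (h1 : gS S = 1) : S = ∅ := by
  refine Finset.eq_empty_of_forall_notMem fun p hp => ?_
  have hd : p - 1 ∣ gS S := Finset.dvd_prod_of_mem (fun q => q - 1) hp
  rw [h1, Nat.dvd_one] at hd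
  have := h p hp
  omega

/-- Subsets with at most `K` elements weigh at most `(1 + total)^K`. -/
lemma sum_small_subsets (U : Finset ℕ) :
    (∀ p ∈ U, 2 ≤ p) → ∀ K : ℕ,
      ∑ S ∈ U.powerset.filter (fun S => S.card ≤ K), wS S
        ≤ (1 + ∑ p ∈ U, ((p : ℝ) - 1)⁻¹) ^ K := by
  induction U using Finset.induction with
  | empty => intro _ K; simp [wS, Finset.filter_singleton]
  | insert a s ha ih =>
    intro hU K
    have hs : ∀ p ∈ s, 2 ≤ p := fun p hp => hU p (Finset.mem_insert_of_mem hp)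
    set w : ℝ := ((a : ℝ) - 1)⁻¹ with hw
    set W : ℝ := 1 + ∑ p ∈ s, ((p : ℝ) - 1)⁻¹ with hW
    have hw0 : 0 ≤ w := by
      have : (2 : ℝ) ≤ a := by exact_mod_cast hU a (Finset.mem_insert_self a s)
      rw [hw]; exact inv_nonneg.2 (by linarith)
    have hW0 : 1 ≤ W := by
      rw [hW, le_add_iff_nonneg_right]
      refine Finset.sum_nonneg fun p hp => inv_nonneg.2 ?_
      have : (2 : ℝ) ≤ p := by exact_mod_cast hs p hp
      linarith
    have hsplit : ∑ S ∈ (insert a s).powerset.filter (fun S => S.card ≤ K), wS S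
        = ∑ S ∈ s.powerset.filter (fun S => S.card ≤ K), wS S
          + ∑ S ∈ s.powerset.filter (fun S => S.card + 1 ≤ K), w * wS S := by
      simp only [Finset.sum_filter]
      rw [Finset.sum_powerset_insert ha]
      congr 1
      refine Finset.sum_congr rfl fun S hS => ?_
      have haS : a ∉ S := fun h => ha (Finset.mem_powerset.1 hS h)
      rw [Finset.card_insert_of_notMem haS, wS, Finset.prod_insert haS]
      rfl
    rw [hsplit, Finset.sum_insert ha, ← hw, show (1 : ℝ) + (w + ∑ p ∈ s, ((p : ℝ) - 1)⁻¹) = W + w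
      by rw [hW]; ring]
    rcases K with _ | K
    · have e : s.powerset.filter (fun S : Finset ℕ => S.card + 1 ≤ 0) = ∅ :=
        Finset.filter_eq_empty_iff.2 fun S _ => by omega
      rw [e, Finset.sum_empty, add_zero]
      exact (ih hs 0).trans (by simp)
    · have e : s.powerset.filter (fun S : Finset ℕ => S.card + 1 ≤ K + 1)
          = s.powerset.filter (fun S => S.card ≤ K) :=
        Finset.filter_congr fun S _ => by omega
      rw [e, ← Finset.mul_sum]
      refine (add_le_add (ih hs (K + 1)) (mul_le_mul_of_nonneg_left (ih hs K) hw0)).trans ?_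
      rw [pow_succ, pow_succ, show W ^ K * W + w * W ^ K = W ^ K * (W + w) by ring]
      exact mul_le_mul_of_nonneg_right (pow_le_pow_left₀ (by linarith) (by linarith) K)
        (by linarith)

lemma one_le_cell {p : ℕ} (h : 0 < X p) : 1 ≤ cell p := Nat.ceil_pos.2 h

/-- Decreasing enumeration. -/
def en (S : Finset ℕ) (k : ℕ) (i : Fin k) : ℕ :=
  if h : S.card = k then S.orderEmbOfFin h i.rev else 0

lemma en_strictAnti {S : Finset ℕ} {k : ℕ} (h : S.card = k) : StrictAnti (en S k) := by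
  intro i j hij
  simp only [en, dif_pos h]
  exact (S.orderEmbOfFin h).strictMono (Fin.rev_lt_rev.2 hij)

lemma en_mem {S : Finset ℕ} {k : ℕ} (h : S.card = k) (i : Fin k) : en S k i ∈ S := by
  simp only [en, dif_pos h]
  exact S.orderEmbOfFin_mem h _

lemma exists_en {S : Finset ℕ} {k : ℕ} (h : S.card = k) {x : ℕ} (hx : x ∈ S) :
    ∃ i, en S k i = x := by
  have hx' : x ∈ Set.range (S.orderEmbOfFin h) := by
    rw [Finset.range_orderEmbOfFin]; exact hx
  obtain ⟨i, rfl⟩ := hx'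
  exact ⟨i.rev, by simp [en, dif_pos h]⟩

lemma image_en {S : Finset ℕ} {k : ℕ} (h : S.card = k) : univ.image (en S k) = S := by
  ext x
  simp only [Finset.mem_image, Finset.mem_univ, true_and]
  exact ⟨fun ⟨i, hi⟩ => hi ▸ en_mem h i, exists_en h⟩

lemma prod_en {S : Finset ℕ} {k : ℕ} (h : S.card = k) : ∏ i, (en S k i - 1) = gS S := by
  conv_rhs => rw [gS, ← image_en h]
  rw [Finset.prod_image fun i _ j _ e => (en_strictAnti h).injective e]

lemma add_val_le {a k : ℕ} (j : Fin a → Fin k) (hj : StrictMono j) (h0 : 0 < a) (i : Fin a) :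
    (j ⟨0, h0⟩).val + i.val ≤ (j i).val := by
  obtain ⟨i, hi⟩ := i
  induction i with
  | zero => simp
  | succ n ih =>
    have h1 := ih (by omega)
    have h2 : (j ⟨n, by omega⟩).val < (j ⟨n + 1, hi⟩).val := hj (by simp [Fin.lt_def])
    simp only at h1 ⊢
    omega

/-- A part of a configuration inherits the inner condition at its top element. -/
lemma sub_tail_le {k a : ℕ} {p : Fin k → ℕ} {r : Fin a → ℕ} {θ : ℝ} (hp : StrictAnti p)
    (hr : StrictAnti r) (hsub : ∀ i, ∃ j, p j = r i) (hX : ∀ i, 0 ≤ X (p i))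
    (hin : Inner (fun i => X (p i)) θ) (h0 : 0 < a) :
    (∑ i : Fin a, if 0 < i.val then aC i.val * X (r i) else 0)
      ≤ (1 + θ) * X (r ⟨0, h0⟩) := by
  choose j hj using hsub
  have hjm : StrictMono j := fun i i' h => by
    by_contra hc
    have := hp.antitone (not_lt.1 hc)
    rw [hj, hj] at this
    exact absurd (hr h) (not_lt.2 this)
  set j0 := j ⟨0, h0⟩ with hj0
  let f : Fin k → ℝ := fun i => if j0 < i then aC (i.val - j0.val) * X (p i) else 0
  have hf : ∀ i, 0 ≤ f i := fun i => by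
    simp only [f]
    split_ifs with h
    · exact mul_nonneg (aC_nonneg (by rw [Fin.lt_def] at h; omega)) (hX i)
    · exact le_rfl
  have h1 : (∑ i : Fin a, if 0 < i.val then aC i.val * X (r i) else 0) ≤ ∑ i, f (j i) := by
    refine Finset.sum_le_sum fun i _ => ?_
    split_ifs with hi
    · have h2 := add_val_le j hjm h0 i
      rw [← hj0] at h2
      simp only [f]
      rw [if_pos (Fin.lt_def.2 (by omega)), hj]
      refine mul_le_mul_of_nonneg_right (aC_mono (by omega)) ?_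
      rw [← hj i]; exact hX _
    · exact hf _
  have h2 : ∑ i, f (j i) ≤ tail (fun i => X (p i)) j0 := by
    have e : ∑ i, f (j i) = ∑ x ∈ univ.image j, f x :=
      (Finset.sum_image fun i _ i' _ e => hjm.injective e).symm
    rw [e]
    exact Finset.sum_le_univ_sum_of_nonneg hf
  have h3 := hin j0
  simp only at h3
  rw [hj0, hj] at h3
  exact h1.trans (h2.trans h3)

/-- The pairs produced by a collision. -/
def PairOK (l : ℝ) (K : ℕ) (P Q : Finset ℕ) : Prop :=
  (∀ p ∈ P, Normal p ∧ 0 < X p) ∧ (∀ q ∈ Q, Normal q ∧ Zp l / 256 < X q ∧ X q ≤ l) ∧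
    Disjoint P Q ∧ P.card ≤ K ∧ Q.card ≤ K ∧ gS P = gS Q ∧
      ∃ hb : 0 < Q.card, (∀ p ∈ P, p < en Q Q.card ⟨0, hb⟩) ∧
        (∑ i : Fin Q.card, if 0 < i.val then aC i.val * X (en Q Q.card i) else 0) +
            eta l * ((cell (en Q Q.card ⟨0, hb⟩) : ℝ) - 1) ≤ X (en Q Q.card ⟨0, hb⟩)

lemma collSet_finite (a b : ℕ) (hb : 1 ≤ b) (Zb B e : ℕ) (y D : ℝ) :
    (collSet a b Zb B e y D).Finite := by
  set N := ⌊y⌋₊ + 1
  refine Set.Finite.subset (((Fintype.piFinset fun _ : Fin a => range (N + 1)) ×ˢ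
    (Fintype.piFinset fun _ : Fin b => range (N + 1))) ×ˢ
      (range (N + 1) ×ˢ range (N + 1))).finite_toSet ?_
  rintro ⟨⟨P, Q⟩, d, d'⟩ ⟨-, -, -, hP, hQ, htop, hd, hd', -, -, -, -, heq, hy⟩
  simp only at hP hQ htop hd hd' heq hy
  have hn : (∏ j, (Q j - 1)) * d' ≤ ⌊y⌋₊ := Nat.le_floor hy
  have hq1 : ∀ j, 1 ≤ Q j - 1 := fun j => by have := (hQ j).1.1.two_le; omega
  have hp1 : ∀ i, 1 ≤ P i - 1 := fun i => by have := (hP i).1.1.two_le; omega
  have hQpos : 1 ≤ ∏ j, (Q j - 1) := Finset.one_le_prod' fun j _ => hq1 j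
  have hPpos : 1 ≤ ∏ i, (P i - 1) := Finset.one_le_prod' fun i _ => hp1 i
  have hd'N : d' ≤ ⌊y⌋₊ := le_trans (Nat.le_mul_of_pos_left _ hQpos) hn
  have hdN : d ≤ ⌊y⌋₊ := by
    refine le_trans (Nat.le_mul_of_pos_left _ hPpos) ?_
    rw [heq]; exact hn
  have hQN : ∀ j, Q j ≤ N := fun j => by
    have h1 : Q j - 1 ≤ ∏ j, (Q j - 1) :=
      Finset.single_le_prod' (fun j _ => hq1 j) (Finset.mem_univ j)
    have h2 : ∏ j, (Q j - 1) ≤ ⌊y⌋₊ := le_trans (Nat.le_mul_of_pos_right _ hd') hn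
    omega
  have hPN : ∀ i, P i ≤ N := fun i => by
    have h1 : P i < Q ⟨0, hb⟩ := (htop ⟨0, hb⟩ rfl).2.1 i
    have := hQN ⟨0, hb⟩
    omega
  simp only [Finset.coe_product, Set.mem_prod, Finset.mem_coe, Fintype.mem_piFinset,
    Finset.mem_range]
  refine ⟨⟨fun i => ?_, fun j => ?_⟩, ?_, ?_⟩
  · have := hPN i; omega
  · have := hQN j; omega
  · omega
  · omega

/-- The sum over colliding pairs. -/
lemma pairs_le {l C : ℝ} {K : ℕ} (hC0 : 0 ≤ C) (hl : 1 ≤ l) (hZ : 0 ≤ Zp l)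
    (hC : ∀ (a b Zb B e : ℕ) (y D : ℝ), 1 ≤ b → a ≤ K → b ≤ K → 16 ≤ y →
      ((collSet a b Zb B e y D).ncard : ℝ) ≤ y * Real.exp (-(e : ℝ) - D +
        C * ((K : ℝ) ^ 3 * Real.log ((e : ℝ) + Real.log (Real.log y) + K + 3) +
          (K : ℝ) * Real.log ((K : ℝ) + 2) * (T0 e + Zb + B + 1))))
    {M : ℝ} (hM : ∀ e : ℕ, Zp l / 256 ≤ e → (e : ℝ) ≤ l + 1 →
      -(eta l * ((e : ℝ) - 1)) +
        C * ((K : ℝ) ^ 3 * Real.log (2 * (e : ℝ) + 2 * K + 20) +
          (K : ℝ) * Real.log ((K : ℝ) + 2) * (T0 e + 1)) ≤ M)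
    (T : Finset (Finset ℕ × Finset ℕ)) (hT : ∀ x ∈ T, PairOK l K x.1 x.2) :
    ∑ x ∈ T, wS x.2 ≤ ((K : ℝ) + 1) ^ 2 * (l + 2) * (32 * (3 * (K : ℝ) + 1)) * Real.exp M := by
  let top : Finset ℕ → ℕ := fun Q => if h : 0 < Q.card then cell (en Q Q.card ⟨0, h⟩) else 0
  let key : Finset ℕ × Finset ℕ → ℕ × ℕ × ℕ := fun x => (x.1.card, x.2.card, top x.2)
  set E := ⌈l⌉₊ with hE
  have hmaps : ∀ x ∈ T, key x ∈ range (K + 1) ×ˢ range (K + 1) ×ˢ range (E + 1) := by
    intro x hx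
    obtain ⟨-, hQ, -, ha, hb, -, hb0, -, -⟩ := hT x hx
    simp only [key, top, dif_pos hb0, Finset.mem_product, Finset.mem_range]
    refine ⟨by omega, by omega, ?_⟩
    have := Nat.ceil_mono (hQ _ (en_mem rfl ⟨0, hb0⟩)).2.2
    rw [← hE] at this
    exact Nat.lt_succ_iff.2 this
  rw [← Finset.sum_fiberwise_of_maps_to hmaps]
  have hbound : ∀ k ∈ range (K + 1) ×ˢ range (K + 1) ×ˢ range (E + 1),
      ∑ x ∈ T with key x = k, wS x.2 ≤ 32 * (3 * (K : ℝ) + 1) * Real.exp M := by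
    rintro ⟨a, b, e⟩ hk
    rcases (T.filter fun x => key x = (a, b, e)).eq_empty_or_nonempty with h | ⟨x₀, hx₀⟩
    · rw [h, Finset.sum_empty]; positivity
    rw [Finset.mem_filter] at hx₀
    obtain ⟨-, hQ₀, -, ha₀, hb₀, -, hb0, -, -⟩ := hT x₀ hx₀.1
    have hkey : x₀.1.card = a ∧ x₀.2.card = b ∧ cell (en x₀.2 x₀.2.card ⟨0, hb0⟩) = e := by
      simpa only [key, top, dif_pos hb0, Prod.mk.injEq] using hx₀.2
    obtain ⟨rfl, rfl, hce⟩ := hkey
    have hq₀ := hQ₀ _ (en_mem rfl ⟨0, hb0⟩)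
    have he1 : Zp l / 256 ≤ (e : ℝ) := hce ▸ hq₀.2.1.le.trans (X_le_cell _)
    have he2 : (e : ℝ) ≤ l + 1 := by
      have h1 : 1 ≤ cell (en x₀.2 x₀.2.card ⟨0, hb0⟩) := by
        have : 0 < X (en x₀.2 x₀.2.card ⟨0, hb0⟩) := by linarith [hq₀.2.1]
        exact Nat.ceil_pos.2 this
      have := cell_le_X_add_one h1
      rw [hce] at this
      linarith [hq₀.2.2]
    set a := x₀.1.card
    set b := x₀.2.card
    set G := (K : ℝ) * Real.exp (e : ℝ) with hG
    set J := ⌊2 * G⌋₊ + 1 with hJ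
    set F := T.filter fun x => key x = (a, b, e) with hF
    have hbig : ∀ x ∈ F, Nat.log 2 (gS x.2) ∈ range J := by
      intro x hx
      rw [hF, Finset.mem_filter] at hx
      obtain ⟨-, hQ, -, -, hbK, -, hb0', -, -⟩ := hT x hx.1
      have hke : x.2.card = b ∧ cell (en x.2 x.2.card ⟨0, hb0'⟩) = e := by
        have := hx.2
        simp only [key, top, dif_pos hb0', Prod.mk.injEq] at this
        exact this.2
      have h2 : ∀ q ∈ x.2, 2 ≤ q := fun q hq => (hQ q hq).1.1.two_le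
      have hg : (gS x.2 : ℝ) ≤ Real.exp G := by
        rw [gS, Nat.cast_prod]
        have hq : ∀ q ∈ x.2, ((q - 1 : ℕ) : ℝ) ≤ Real.exp (Real.exp (e : ℝ)) := by
          intro q hq
          obtain ⟨i, hi⟩ := exists_en (S := x.2) (k := x.2.card) rfl hq
          have hle : q ≤ en x.2 x.2.card ⟨0, hb0'⟩ := by
            rw [← hi]; exact (en_strictAnti rfl).antitone (by simp [Fin.le_def])
          have hX : X q ≤ (e : ℝ) := by
            rw [← hke.2]; exact (X_mono (h2 q hq) hle).trans (X_le_cell _)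
          have hq0 : (0 : ℝ) < q := by exact_mod_cast (by have := h2 q hq; omega : 0 < q)
          have hlog : Real.log q ≤ Real.exp (e : ℝ) := by
            rw [← exp_X (h2 q hq)]; exact Real.exp_le_exp.2 hX
          calc ((q - 1 : ℕ) : ℝ) ≤ (q : ℝ) := by exact_mod_cast Nat.sub_le q 1
            _ ≤ _ := (Real.log_le_iff_le_exp hq0).1 hlog
        refine (Finset.prod_le_prod (fun q _ => Nat.cast_nonneg _) hq).trans ?_
        rw [Finset.prod_const, ← Real.exp_nat_mul, hG]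
        refine Real.exp_le_exp.2 (mul_le_mul_of_nonneg_right ?_ (Real.exp_pos _).le)
        exact_mod_cast hbK
      rw [Finset.mem_range, hJ, Nat.lt_succ_iff]
      refine Nat.le_floor ?_
      have h3 : ((2 ^ Nat.log 2 (gS x.2) : ℕ) : ℝ) ≤ Real.exp G :=
        le_trans (by exact_mod_cast Nat.pow_log_le_self 2 (gS_pos h2).ne') hg
      rw [Nat.cast_pow] at h3
      have h4 := Real.log_le_log (by positivity) h3
      rw [Real.log_pow, Real.log_exp] at h4
      have := Real.log_two_gt_d9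
      push_cast at h4
      nlinarith
    rw [← Finset.sum_fiberwise_of_maps_to hbig]
    have hper : ∀ j ∈ range J, ∑ x ∈ F with Nat.log 2 (gS x.2) = j, wS x.2
        ≤ 16 * Real.exp (-(e : ℝ) + M) := by
      intro j hj
      set Y : ℝ := 2 ^ (j + 4) with hY
      have hY16 : 16 ≤ Y := by
        rw [hY, show (16 : ℝ) = 2 ^ 4 by norm_num]
        exact pow_le_pow_right₀ (by norm_num) (by omega)
      let Φ : Finset ℕ × Finset ℕ → ((Fin a → ℕ) × (Fin b → ℕ)) × (ℕ × ℕ) :=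
        fun x => ((en x.1 a, en x.2 b), (1, 1))
      have hmem : ∀ x ∈ F.filter (fun x => Nat.log 2 (gS x.2) = j),
          Φ x ∈ collSet a b 0 0 e Y (eta l * ((e : ℝ) - 1)) ∧ x.1.card = a ∧ x.2.card = b ∧
            wS x.2 ≤ ((2 : ℝ) ^ j)⁻¹ := by
        intro x hx
        rw [Finset.mem_filter, hF, Finset.mem_filter] at hx
        obtain ⟨⟨hxT, hxk⟩, hxj⟩ := hx
        obtain ⟨hP, hQ, hdis, -, -, hg, hb0', hlt, htail⟩ := hT x hxT
        simp only [key, top, dif_pos hb0', Prod.mk.injEq] at hxk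
        obtain ⟨hca, hcb, hcell⟩ := hxk
        have h2 : ∀ q ∈ x.2, 2 ≤ q := fun q hq => (hQ q hq).1.1.two_le
        refine ⟨⟨en_strictAnti hca, en_strictAnti hcb, fun i i' => ?_, fun i => ?_, fun i => ?_,
          fun i hi => ?_, le_rfl, le_rfl, fun s hs h => ?_, fun s hs h => ?_,
          ArithmeticFunction.cardFactors_one.le, ArithmeticFunction.cardFactors_one.le,
          ?_, ?_⟩, hca, hcb, ?_⟩
        · intro h'
          exact Finset.disjoint_left.1 hdis (en_mem hca i)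
            ((show en x.1 a i = en x.2 b i' from h') ▸ en_mem hcb i')
        · exact ⟨(hP _ (en_mem hca i)).1, one_le_cell (hP _ (en_mem hca i)).2⟩
        · exact ⟨(hQ _ (en_mem hcb i)).1, one_le_cell (lt_of_le_of_lt
            (by linarith : (0 : ℝ) ≤ Zp l / 256) (hQ _ (en_mem hcb i)).2.1)⟩
        · dsimp only [Φ]
          have key2 : ∀ (a' b' : ℕ), a' = x.1.card → b' = x.2.card → ∀ i : Fin b', i.val = 0 →
              cell (en x.2 b' i) = e ∧ (∀ i', en x.1 a' i' < en x.2 b' i) ∧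
                (∑ i : Fin b', if 0 < i.val then aC i.val * X (en x.2 b' i) else 0) +
                  eta l * ((e : ℝ) - 1) ≤ X (en x.2 b' i) := by
            rintro _ _ rfl rfl i hi
            obtain rfl : i = ⟨0, hb0'⟩ := Fin.ext hi
            rw [hcell] at htail
            exact ⟨hcell, fun i' => hlt _ (en_mem rfl i'), htail⟩
          exact key2 a b hca.symm hcb.symm i hi
        · exact absurd (Nat.dvd_one.1 h) hs.ne_one
        · exact absurd (Nat.dvd_one.1 h) hs.ne_one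
        · simp only [Φ, mul_one, prod_en hca, prod_en hcb, hg]
        · simp only [Φ, mul_one, prod_en hcb]
          have h5 : gS x.2 < 2 ^ (j + 1) := hxj ▸ Nat.lt_pow_succ_log_self one_lt_two _
          have h6 : (gS x.2 : ℝ) ≤ ((2 ^ (j + 4) : ℕ) : ℝ) := by
            exact_mod_cast h5.le.trans (Nat.pow_le_pow_right two_pos (by omega))
          push_cast at h6
          exact h6
        · rw [wS_eq h2]
          have h5 : 2 ^ j ≤ gS x.2 := hxj ▸ Nat.pow_log_le_self 2 (gS_pos h2).ne'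
          have h6 : ((2 ^ j : ℕ) : ℝ) ≤ (gS x.2 : ℝ) := by exact_mod_cast h5
          push_cast at h6
          exact inv_anti₀ (by positivity) h6
      have hcard : ((F.filter fun x => Nat.log 2 (gS x.2) = j).card : ℝ)
          ≤ ((collSet a b 0 0 e Y (eta l * ((e : ℝ) - 1))).ncard : ℝ) := by
        rw [← Set.ncard_coe_finset, Nat.cast_le]
        refine Set.ncard_le_ncard_of_injOn Φ (fun x hx => (hmem x hx).1) ?_
          (collSet_finite a b hb0 0 0 e Y _)
        intro x hx x' hx' hΦ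
        simp only [Φ, Prod.mk.injEq, and_true] at hΦ
        obtain ⟨-, h1, h2, -⟩ := hmem x hx
        obtain ⟨-, h1', h2', -⟩ := hmem x' hx'
        refine Prod.ext ?_ ?_
        · rw [← image_en h1, ← image_en h1', hΦ.1]
        · rw [← image_en h2, ← image_en h2', hΦ.2]
      have hcnt := hcard.trans (hC a b 0 0 e Y (eta l * ((e : ℝ) - 1)) hb0 ha₀ hb₀ hY16)
      have hsum : ∑ x ∈ F with Nat.log 2 (gS x.2) = j, wS x.2
          ≤ ((F.filter fun x => Nat.log 2 (gS x.2) = j).card : ℝ) * ((2 : ℝ) ^ j)⁻¹ := by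
        refine (Finset.sum_le_card_nsmul _ _ _ fun x hx => (hmem x hx).2.2.2).trans ?_
        rw [nsmul_eq_mul]
      refine hsum.trans ((mul_le_mul_of_nonneg_right hcnt (by positivity)).trans ?_)
      have e1 : ∀ w : ℝ, Y * w * ((2 : ℝ) ^ j)⁻¹ = 16 * w := fun w => by
        rw [hY, pow_add]; field_simp; ring
      rw [e1]
      refine mul_le_mul_of_nonneg_left (Real.exp_le_exp.2 ?_) (by norm_num)
      have hMe := hM e he1 he2
      have hlogY : Real.log (Real.log Y) ≤ (e : ℝ) + K + 17 := by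
        have hY0 : 0 < Real.log Y := Real.log_pos (by linarith)
        rw [Real.log_le_iff_le_exp hY0, hY, Real.log_pow]
        have hjJ : (j : ℝ) ≤ 2 * G := by
          have h7 : j ≤ ⌊2 * G⌋₊ := by have := Finset.mem_range.1 hj; omega
          exact le_trans (by exact_mod_cast h7) (Nat.floor_le (by positivity))
        have hl2 : Real.log 2 ≤ 1 := by have := Real.log_two_lt_d9; linarith
        have hK : (K : ℝ) + 17 ≤ Real.exp ((K : ℝ) + 17) := by
          linarith [Real.add_one_le_exp ((K : ℝ) + 17)]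
        have h16 : (4 : ℝ) ≤ Real.exp ((K : ℝ) + 17) - 2 * K := by
          have h := Real.quadratic_le_exp_of_nonneg (show (0 : ℝ) ≤ (K : ℝ) + 17 by positivity)
          nlinarith [Nat.cast_nonneg (α := ℝ) K]
        rw [show (e : ℝ) + K + 17 = (e : ℝ) + ((K : ℝ) + 17) by ring, Real.exp_add]
        push_cast
        have he : 1 ≤ Real.exp (e : ℝ) := Real.one_le_exp (Nat.cast_nonneg e)
        nlinarith [mul_le_mul_of_nonneg_left hl2 (by positivity : (0 : ℝ) ≤ (j : ℝ) + 4)]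
      have harg : Real.log ((e : ℝ) + Real.log (Real.log Y) + K + 3)
          ≤ Real.log (2 * (e : ℝ) + 2 * K + 20) := by
        refine Real.log_le_log ?_ (by linarith)
        have : 0 ≤ Real.log (Real.log Y) := by
          refine Real.log_nonneg ?_
          rw [Real.le_log_iff_exp_le (by linarith)]
          linarith [Real.exp_one_lt_d9]
        positivity
      have h3 := mul_le_mul_of_nonneg_left (mul_le_mul_of_nonneg_left harg
        (by positivity : (0 : ℝ) ≤ (K : ℝ) ^ 3)) hC0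
      push_cast
      nlinarith
    refine (Finset.sum_le_card_nsmul _ _ _ hper).trans ?_
    rw [Finset.card_range, nsmul_eq_mul, hJ, Real.exp_add, Real.exp_neg]
    push_cast
    have he0 : 1 ≤ Real.exp (e : ℝ) := Real.one_le_exp (Nat.cast_nonneg e)
    have hfl : (⌊2 * G⌋₊ : ℝ) + 1 ≤ (3 * (K : ℝ) + 1) * Real.exp (e : ℝ) := by
      have := Nat.floor_le (show 0 ≤ 2 * G by positivity)
      rw [hG] at this ⊢
      nlinarith [Nat.cast_nonneg (α := ℝ) K]
    have e2 : (3 * (K : ℝ) + 1) * Real.exp (e : ℝ) * (16 * ((Real.exp (e : ℝ))⁻¹ * Real.exp M))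
        = 16 * (3 * (K : ℝ) + 1) * Real.exp M := by
      field_simp
    refine (mul_le_mul_of_nonneg_right hfl (by positivity)).trans ?_
    rw [e2]
    have : 0 ≤ (3 * (K : ℝ) + 1) * Real.exp M := by positivity
    linarith
  refine (Finset.sum_le_card_nsmul _ _ _ hbound).trans ?_
  rw [nsmul_eq_mul, Finset.card_product, Finset.card_product, Finset.card_range, Finset.card_range]
  push_cast
  have hE' : (E : ℝ) + 1 ≤ l + 2 := by
    have := Nat.ceil_lt_add_one (show (0 : ℝ) ≤ l by linarith)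
    rw [hE]; linarith
  calc ((K : ℝ) + 1) * (((K : ℝ) + 1) * ((E : ℝ) + 1)) * (32 * (3 * (K : ℝ) + 1) * Real.exp M)
      ≤ ((K : ℝ) + 1) * (((K : ℝ) + 1) * (l + 2)) * (32 * (3 * (K : ℝ) + 1) * Real.exp M) := by
        gcongr
    _ = _ := by ring

/-- The sets of strict configurations. -/
def strictSets (l : ℝ) (K : ℕ) : Finset (Finset ℕ) :=
  ((range (K + 1)).sigma fun k => strictCfg l k).image fun c => univ.image c.2

lemma eq_of_image_eq {k k' : ℕ} {p : Fin k → ℕ} {p' : Fin k' → ℕ} (hp : StrictAnti p)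
    (hp' : StrictAnti p') (h : univ.image p = univ.image p') :
    (⟨k, p⟩ : (k : ℕ) × (Fin k → ℕ)) = ⟨k', p'⟩ := by
  have hk : k = k' := by
    have h1 := congrArg Finset.card h
    rwa [Finset.card_image_of_injective _ hp.injective,
      Finset.card_image_of_injective _ hp'.injective, Finset.card_univ, Finset.card_univ,
      Fintype.card_fin, Fintype.card_fin] at h1
  subst hk
  suffices p = p' by rw [this]
  have m1 : StrictMono fun i => p (Fin.rev i) := fun i j hij => hp (Fin.rev_lt_rev.2 hij)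
  have m2 : StrictMono fun i => p' (Fin.rev i) := fun i j hij => hp' (Fin.rev_lt_rev.2 hij)
  have hr : Set.range (fun i => p (Fin.rev i)) = Set.range fun i => p' (Fin.rev i) := by
    have hs : Set.range p = Set.range p' := by
      have h1 := congrArg (fun s : Finset ℕ => (s : Set ℕ)) h
      simpa [Finset.coe_image] using h1
    rw [← Function.comp_def p Fin.rev, ← Function.comp_def p' Fin.rev, Set.range_comp,
      Set.range_comp, Fin.rev_surjective.range_eq, Set.image_univ, Set.image_univ, hs]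
  funext i
  have := congrFun ((m1.range_inj m2).1 hr) i.rev
  simpa using this

lemma sum_strictCfg_eq (l : ℝ) (K : ℕ) :
    ∑ k ∈ range (K + 1), ∑ p ∈ strictCfg l k, cfgWt p = ∑ S ∈ strictSets l K, wS S := by
  have hanti : ∀ (k : ℕ) (p : Fin k → ℕ), p ∈ strictCfg l k → StrictAnti p := fun k p hp =>
    (Finset.mem_filter.1 hp).2.1
  rw [strictSets, Finset.sum_image, Finset.sum_sigma]
  · refine Finset.sum_congr rfl fun k _ => Finset.sum_congr rfl fun p hp => ?_
    rw [wS, cfgWt, Finset.prod_image fun i _ j _ e => (hanti k p hp).injective e]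
  · rintro ⟨k, p⟩ hc ⟨k', p'⟩ hc' h
    exact eq_of_image_eq (hanti k p (Finset.mem_sigma.1 (Finset.mem_coe.1 hc)).2)
      (hanti k' p' (Finset.mem_sigma.1 (Finset.mem_coe.1 hc')).2) h

/-- The part with an abnormal prime. -/
lemma abnormal_le (U : Finset ℕ) (hU : ∀ p ∈ U, 2 ≤ p) (K : ℕ) (F : Finset (Finset ℕ))
    (hF : ∀ S ∈ F, S ⊆ U ∧ S.card ≤ K) :
    ∑ S ∈ F.filter (fun S => ∃ p ∈ S, ¬Normal p), wS S
      ≤ (∑ p ∈ U, if Normal p then 0 else ((p : ℝ) - 1)⁻¹)
          * (1 + ∑ p ∈ U, ((p : ℝ) - 1)⁻¹) ^ K := by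
  let pick : Finset ℕ → ℕ := fun S => if h : ∃ p ∈ S, ¬Normal p then h.choose else 0
  set G := F.filter fun S => ∃ p ∈ S, ¬Normal p with hG
  have hpick : ∀ S ∈ G, pick S ∈ S ∧ ¬Normal (pick S) := fun S hS => by
    have h := (Finset.mem_filter.1 hS).2
    simp only [pick, dif_pos h]
    exact h.choose_spec
  let Φ : Finset ℕ → ℕ × Finset ℕ := fun S => (pick S, S.erase (pick S))
  let w2 : ℕ × Finset ℕ → ℝ := fun x => (if Normal x.1 then 0 else ((x.1 : ℝ) - 1)⁻¹) * wS x.2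
  have hval : ∀ S ∈ G, wS S = w2 (Φ S) := fun S hS => by
    simp only [w2, Φ, if_neg (hpick S hS).2, wS]
    exact (Finset.mul_prod_erase S (fun p => ((p : ℝ) - 1)⁻¹) (hpick S hS).1).symm
  have hinj : Set.InjOn Φ G := fun S hS S' hS' h => by
    simp only [Φ, Prod.mk.injEq] at h
    rw [← Finset.insert_erase (hpick S (Finset.mem_coe.1 hS)).1,
      ← Finset.insert_erase (hpick S' (Finset.mem_coe.1 hS')).1, h.1]
    rw [h.1] at h
    rw [h.2]
  rw [Finset.sum_congr rfl hval, ← Finset.sum_image hinj]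
  have hw : ∀ p ∈ U, 0 ≤ (if Normal p then (0 : ℝ) else ((p : ℝ) - 1)⁻¹) := fun p hp => by
    split_ifs
    · exact le_rfl
    · refine inv_nonneg.2 ?_
      have : (2 : ℝ) ≤ p := by exact_mod_cast hU p hp
      linarith
  refine (Finset.sum_le_sum_of_subset_of_nonneg
    (t := U ×ˢ U.powerset.filter fun S => S.card ≤ K) ?_ fun x hx _ => ?_).trans ?_
  · intro x hx
    obtain ⟨S, hS, rfl⟩ := Finset.mem_image.1 hx
    obtain ⟨h1, h2⟩ := hF S (Finset.mem_filter.1 hS).1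
    refine Finset.mem_product.2 ⟨h1 (hpick S hS).1, Finset.mem_filter.2 ⟨?_, ?_⟩⟩
    · exact Finset.mem_powerset.2 ((Finset.erase_subset _ _).trans h1)
    · exact (Finset.card_le_card (Finset.erase_subset _ _)).trans h2
  · obtain ⟨h1, h2⟩ := Finset.mem_product.1 hx
    exact mul_nonneg (hw _ h1) (wS_nonneg fun p hp =>
      hU p (Finset.mem_powerset.1 (Finset.mem_filter.1 h2).1 hp))
  · rw [Finset.sum_product]
    simp only [w2]
    rw [← Finset.sum_mul_sum]
    exact mul_le_mul_of_nonneg_left (sum_small_subsets U hU K) (Finset.sum_nonneg hw)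

/-- Equal values counted once, plus colliding ordered pairs. -/
lemma dedup_le (N : Finset (Finset ℕ)) (hN : ∀ S ∈ N, ∀ p ∈ S, 2 ≤ p) :
    ∑ S ∈ N, wS S ≤ ∑ m ∈ N.image gS, ((m : ℕ) : ℝ)⁻¹
      + ∑ x ∈ (N ×ˢ N).filter (fun x => x.1 ≠ x.2 ∧ gS x.1 = gS x.2), wS x.1 := by
  let rep : ℕ → Finset ℕ := fun m => if h : ∃ S ∈ N, gS S = m then h.choose else ∅
  have hrep : ∀ S ∈ N, rep (gS S) ∈ N ∧ gS (rep (gS S)) = gS S := fun S hS => by
    have h : ∃ T ∈ N, gS T = gS S := ⟨S, hS, rfl⟩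
    simp only [rep, dif_pos h]
    exact h.choose_spec
  rw [← Finset.sum_filter_add_sum_filter_not N (fun S => rep (gS S) = S)]
  refine add_le_add ?_ ?_
  · have hinj : Set.InjOn gS ↑(N.filter fun S => rep (gS S) = S) := fun S hS S' hS' h => by
      rw [← (Finset.mem_filter.1 (Finset.mem_coe.1 hS)).2,
        ← (Finset.mem_filter.1 (Finset.mem_coe.1 hS')).2, h]
    rw [Finset.sum_congr rfl fun S hS => wS_eq (hN S (Finset.mem_filter.1 hS).1),
      ← Finset.sum_image (f := fun m : ℕ => (m : ℝ)⁻¹) hinj]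
    exact Finset.sum_le_sum_of_subset_of_nonneg
      (Finset.image_subset_image (Finset.filter_subset _ _)) fun m _ _ => by positivity
  · have hinj : Set.InjOn (fun S => (S, rep (gS S)))
        ↑(N.filter fun S => ¬rep (gS S) = S) := fun S _ S' _ h => (Prod.ext_iff.1 h).1
    rw [← Finset.sum_image (g := fun S => (S, rep (gS S))) (f := fun x => wS x.1) hinj]
    refine Finset.sum_le_sum_of_subset_of_nonneg ?_ fun x hx _ => ?_
    · intro x hx
      obtain ⟨S, hS, rfl⟩ := Finset.mem_image.1 hx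
      obtain ⟨hS, hne⟩ := Finset.mem_filter.1 hS
      exact Finset.mem_filter.2 ⟨Finset.mem_product.2 ⟨hS, (hrep S hS).1⟩,
        fun h => hne h.symm, (hrep S hS).2.symm⟩
    · exact wS_nonneg (hN _ (Finset.mem_product.1 (Finset.mem_filter.1 hx).1).1)

/-- What is used about a normal strict configuration. -/
def SetOK (l : ℝ) (K : ℕ) (S : Finset ℕ) : Prop :=
  (∀ p ∈ S, Normal p ∧ Zp l / 256 < X p ∧ X p ≤ l) ∧ S.card ≤ K ∧
    ∃ (k : ℕ) (p : Fin k → ℕ), StrictAnti p ∧ univ.image p = S ∧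
      Inner (fun i => X (p i)) (-eta l)

lemma pairOK_sdiff {l : ℝ} {K : ℕ} (hZ : 0 ≤ Zp l) (hη : 0 ≤ eta l)
    {S S' : Finset ℕ} (hS : SetOK l K S) (hS' : SetOK l K S') (heq : gS (S \ S') = gS (S' \ S))
    (hne : (S' \ S).Nonempty) (hlt : ∀ p ∈ S \ S', ∃ q ∈ S' \ S, p < q) :
    PairOK l K (S \ S') (S' \ S) := by
  obtain ⟨hn, hc, -⟩ := hS
  obtain ⟨hn', hc', k, p, hp, himg, hin⟩ := hS'
  have hX : ∀ q ∈ S', 0 < X q := fun q hq => by linarith [(hn' q hq).2.1]
  have hb : 0 < (S' \ S).card := Finset.card_pos.2 hne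
  set r := en (S' \ S) (S' \ S).card with hr
  set q₀ := r ⟨0, hb⟩ with hq₀
  have hq₀S : q₀ ∈ S' := (Finset.mem_sdiff.1 (en_mem rfl ⟨0, hb⟩)).1
  refine ⟨fun q hq => ⟨(hn q (Finset.mem_sdiff.1 hq).1).1, ?_⟩,
    fun q hq => hn' q (Finset.mem_sdiff.1 hq).1, disjoint_sdiff_sdiff,
    (Finset.card_le_card Finset.sdiff_subset).trans hc,
    (Finset.card_le_card Finset.sdiff_subset).trans hc', heq, hb, fun x hx => ?_, ?_⟩
  · linarith [(hn q (Finset.mem_sdiff.1 hq).1).2.1]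
  · obtain ⟨q, hq, hxq⟩ := hlt x hx
    obtain ⟨i, hi⟩ := exists_en (S := S' \ S) rfl hq
    refine hxq.trans_le ?_
    rw [← hi]
    exact (en_strictAnti rfl).antitone (by simp [Fin.le_def])
  · have hpX : ∀ i, 0 ≤ X (p i) := fun i =>
      (hX _ (himg ▸ Finset.mem_image_of_mem p (Finset.mem_univ i))).le
    have hsub : ∀ i, ∃ j, p j = r i := fun i => by
      have h : r i ∈ S' := (Finset.mem_sdiff.1 (en_mem rfl i)).1
      rw [← himg, Finset.mem_image] at h
      obtain ⟨j, -, hj⟩ := h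
      exact ⟨j, hj⟩
    have h1 := sub_tail_le hp (en_strictAnti rfl) hsub hpX hin hb
    rw [← hr, ← hq₀] at h1
    have h2 : (cell q₀ : ℝ) - 1 ≤ X q₀ := by
      linarith [cell_le_X_add_one (one_le_cell (hX _ hq₀S))]
    have h3 := mul_le_mul_of_nonneg_left h2 hη
    linarith

/-- All colliding ordered pairs. -/
lemma collisions_le {l Q₀ : ℝ} {K : ℕ} (hZ : 0 ≤ Zp l) (hη : 0 ≤ eta l) (U : Finset ℕ)
    (hU : ∀ p ∈ U, 2 ≤ p) (N : Finset (Finset ℕ)) (hN : ∀ S ∈ N, S ⊆ U ∧ SetOK l K S)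
    (hQ₀ : ∀ T : Finset (Finset ℕ × Finset ℕ),
      (∀ x ∈ T, PairOK l K x.1 x.2) → ∑ x ∈ T, wS x.2 ≤ Q₀) :
    ∑ x ∈ (N ×ˢ N).filter (fun x => x.1 ≠ x.2 ∧ gS x.1 = gS x.2), wS x.1
      ≤ 2 * ((1 + ∑ p ∈ U, ((p : ℝ) - 1)⁻¹) ^ K * Q₀) := by
  set T₀ := (N ×ˢ N).filter fun x => x.1 ≠ x.2 ∧ gS x.1 = gS x.2 with hT₀
  have hmem : ∀ x ∈ T₀, (x.1 \ x.2).Nonempty ∧ (x.2 \ x.1).Nonempty ∧
      gS (x.1 \ x.2) = gS (x.2 \ x.1) ∧
        wS x.1 = wS (x.1 ∩ x.2) * wS (x.2 \ x.1) := by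
    intro x hx
    obtain ⟨hx, hne, hg⟩ := Finset.mem_filter.1 hx
    obtain ⟨hx1, hx2⟩ := Finset.mem_product.1 hx
    have h3 : ∀ S ∈ N, ∀ p ∈ S, 3 ≤ p := fun S hS p hp => by
      obtain ⟨hn, hX, -⟩ := (hN S hS).2.1 p hp
      rcases (hn.1.two_le).eq_or_lt with h | h
      · exfalso
        rw [← h] at hX
        have : X 2 < 0 := by
          have h2 := Real.log_two_lt_d9
          have h2' := Real.log_two_gt_d9
          exact Real.log_neg (by push_cast; linarith) (by push_cast; linarith)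
        linarith
      · omega
    have h2 : ∀ S ∈ N, ∀ p ∈ S, 2 ≤ p := fun S hS p hp => le_trans (by norm_num) (h3 S hS p hp)
    have hg1 : gS (x.1 \ x.2) * gS (x.1 ∩ x.2) = gS x.1 := by
      simp only [gS]
      rw [mul_comm, Finset.prod_inter_mul_prod_sdiff]
    have hg2 : gS (x.2 \ x.1) * gS (x.1 ∩ x.2) = gS x.2 := by
      simp only [gS]
      rw [mul_comm, Finset.inter_comm, Finset.prod_inter_mul_prod_sdiff]
    have hR : 0 < gS (x.1 ∩ x.2) :=
      gS_pos fun p hp => h2 _ hx1 p (Finset.mem_inter.1 hp).1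
    have he : gS (x.1 \ x.2) = gS (x.2 \ x.1) :=
      Nat.eq_of_mul_eq_mul_right hR (by rw [hg1, hg2, hg])
    refine ⟨?_, ?_, he, ?_⟩
    · by_contra hc
      rw [Finset.not_nonempty_iff_eq_empty] at hc
      have h1 : gS (x.2 \ x.1) = 1 := by rw [← he, hc]; rfl
      have h0 := eq_empty_of_gS (fun p hp => h3 _ hx2 p (Finset.mem_sdiff.1 hp).1) h1
      exact hne (Finset.Subset.antisymm (Finset.sdiff_eq_empty_iff_subset.1 hc)
        (Finset.sdiff_eq_empty_iff_subset.1 h0))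
    · by_contra hc
      rw [Finset.not_nonempty_iff_eq_empty] at hc
      have h1 : gS (x.1 \ x.2) = 1 := by rw [he, hc]; rfl
      have h0 := eq_empty_of_gS (fun p hp => h3 _ hx1 p (Finset.mem_sdiff.1 hp).1) h1
      exact hne (Finset.Subset.antisymm (Finset.sdiff_eq_empty_iff_subset.1 h0)
        (Finset.sdiff_eq_empty_iff_subset.1 hc))
    · rw [wS_eq (h2 _ hx1), wS_eq fun p hp => h2 _ hx1 p (Finset.mem_inter.1 hp).1,
        wS_eq fun p hp => h2 _ hx2 p (Finset.mem_sdiff.1 hp).1, ← hg1, he]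
      push_cast
      rw [mul_inv, mul_comm]
  let O : Finset ℕ × Finset ℕ → Prop := fun x => ∀ p ∈ x.1 \ x.2, ∃ q ∈ x.2 \ x.1, p < q
  have hflip : ∀ x ∈ T₀, ¬O x → O (x.2, x.1) := by
    intro x hx hO
    obtain ⟨hne, hne', -⟩ := hmem x hx
    simp only [O, not_forall, not_exists, not_and, not_lt] at hO
    obtain ⟨p, hp, hmax⟩ := hO
    intro q hq
    refine ⟨p, hp, lt_of_le_of_ne (hmax q hq) fun h => ?_⟩
    exact (Finset.mem_sdiff.1 hp).2 (h ▸ (Finset.mem_sdiff.1 hq).1)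
  set F := (U.powerset.filter fun S => S.card ≤ K) with hF
  have hside : ∀ T : Finset (Finset ℕ × Finset ℕ), T ⊆ T₀ → (∀ x ∈ T, O x) →
      ∑ x ∈ T, wS x.1 ≤ (1 + ∑ p ∈ U, ((p : ℝ) - 1)⁻¹) ^ K * Q₀ := by
    intro T hT hO
    set PT := T.image fun x => (x.1 \ x.2, x.2 \ x.1) with hPT
    have hPOK : ∀ y ∈ PT, PairOK l K y.1 y.2 := by
      intro y hy
      obtain ⟨x, hx, rfl⟩ := Finset.mem_image.1 hy
      obtain ⟨-, hne', he, -⟩ := hmem x (hT hx)
      obtain ⟨h1, h2⟩ := Finset.mem_product.1 (Finset.mem_filter.1 (hT hx)).1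
      exact pairOK_sdiff hZ hη (hN _ h1).2 (hN _ h2).2 he hne' (hO x hx)
    let Φ : Finset ℕ × Finset ℕ → Finset ℕ × (Finset ℕ × Finset ℕ) :=
      fun x => (x.1 ∩ x.2, (x.1 \ x.2, x.2 \ x.1))
    have hinj : Set.InjOn Φ T := fun x _ y _ h => by
      simp only [Φ, Prod.mk.injEq] at h
      obtain ⟨h1, h2, h3⟩ := h
      refine Prod.ext ?_ ?_
      · rw [← Finset.sdiff_union_inter x.1 x.2, h1, h2, Finset.sdiff_union_inter]
      · rw [← Finset.sdiff_union_inter x.2 x.1, Finset.inter_comm, h1, h3, Finset.inter_comm,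
          Finset.sdiff_union_inter]
    rw [Finset.sum_congr rfl fun x hx => show wS x.1 = (fun z => wS z.1 * wS z.2.2) (Φ x) from
      (hmem x (hT hx)).2.2.2, ← Finset.sum_image (f := fun z => wS z.1 * wS z.2.2) hinj]
    have h2F : ∀ S ∈ F, ∀ p ∈ S, 2 ≤ p := fun S hS p hp =>
      hU p (Finset.mem_powerset.1 (Finset.mem_filter.1 hS).1 hp)
    have h2P : ∀ y ∈ PT, ∀ p ∈ y.2, 2 ≤ p := fun y hy p hp => ((hPOK y hy).2.1 p hp).1.1.two_le
    refine (Finset.sum_le_sum_of_subset_of_nonneg (t := F ×ˢ PT) ?_ fun z hz _ => ?_).trans ?_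
    · intro z hz
      obtain ⟨x, hx, rfl⟩ := Finset.mem_image.1 hz
      obtain ⟨h1, -⟩ := Finset.mem_product.1 (Finset.mem_filter.1 (hT hx)).1
      refine Finset.mem_product.2 ⟨Finset.mem_filter.2 ⟨?_, ?_⟩, Finset.mem_image_of_mem _ hx⟩
      · exact Finset.mem_powerset.2 (Finset.inter_subset_left.trans (hN _ h1).1)
      · exact (Finset.card_le_card Finset.inter_subset_left).trans (hN _ h1).2.2.1
    · obtain ⟨h1, h2⟩ := Finset.mem_product.1 hz
      exact mul_nonneg (wS_nonneg (h2F _ h1)) (wS_nonneg (h2P _ h2))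
    · rw [Finset.sum_product]
      simp only
      rw [← Finset.sum_mul_sum]
      exact mul_le_mul (sum_small_subsets U hU K) (hQ₀ PT hPOK)
        (Finset.sum_nonneg fun y hy => wS_nonneg (h2P y hy))
        (pow_nonneg (add_nonneg zero_le_one (Finset.sum_nonneg fun p hp => inv_nonneg.2 (by
          have : (2 : ℝ) ≤ p := by exact_mod_cast hU p hp
          linarith))) K)
  rw [← Finset.sum_filter_add_sum_filter_not T₀ O, two_mul]
  refine add_le_add (hside _ (Finset.filter_subset _ _) fun x hx => (Finset.mem_filter.1 hx).2) ?_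
  have hinj : Set.InjOn Prod.swap
      (↑(T₀.filter fun x => ¬O x) : Set (Finset ℕ × Finset ℕ)) := fun x _ y _ h =>
    Prod.swap_injective h
  have heq : ∑ x ∈ T₀ with ¬O x, wS x.1 = ∑ x ∈ (T₀.filter fun x => ¬O x).image Prod.swap, wS x.1
      := by
    rw [Finset.sum_image hinj]
    refine Finset.sum_congr rfl fun x hx => ?_
    obtain ⟨hx, -, hg⟩ := Finset.mem_filter.1 (Finset.mem_filter.1 hx).1
    obtain ⟨h1, h2⟩ := Finset.mem_product.1 hx
    simp only [Prod.fst_swap]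
    rw [wS_eq fun p hp => hU p ((hN _ h1).1 hp), wS_eq fun p hp => hU p ((hN _ h2).1 hp), hg]
  rw [heq]
  refine hside _ ?_ ?_
  · intro y hy
    obtain ⟨x, hx, rfl⟩ := Finset.mem_image.1 hy
    obtain ⟨hx, hne, hg⟩ := Finset.mem_filter.1 (Finset.mem_filter.1 hx).1
    obtain ⟨h1, h2⟩ := Finset.mem_product.1 hx
    exact Finset.mem_filter.2 ⟨Finset.mem_product.2 ⟨h2, h1⟩, hne.symm, hg.symm⟩
  · intro y hy
    obtain ⟨x, hx, rfl⟩ := Finset.mem_image.1 hy
    obtain ⟨hx, hO⟩ := Finset.mem_filter.1 hx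
    exact hflip x hx hO

lemma gS_mem_MF {l : ℝ} (hδ : del l ≤ eta l) (hl : 0 ≤ l) (hL : 0 ≤ Lg l) {k : ℕ}
    (hk : k ≤ Kp l) {p : Fin k → ℕ} (hp : p ∈ strictCfg l k) (hn : ∀ i, Normal (p i)) :
    gS (univ.image p) ∈ MF l := by
  obtain ⟨hpi, hanti, -, htop⟩ := Finset.mem_filter.1 hp
  have hw : ∀ i, (p i).Prime ∧ Zp l / 256 < X (p i) ∧ X (p i) ≤ (1 - eta l) * l := fun i =>
    Volume.mem_window.1 (Fintype.mem_piFinset.1 hpi i)
  have hlam : (1 - eta l) * l ≤ (1 - del l) * l :=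
    mul_le_mul_of_nonneg_right (by linarith) hl
  have hg : gS (univ.image p) = ∏ i, (p i - 1) := by
    rw [gS, Finset.prod_image fun i _ j _ e => hanti.injective e]
  rw [MF, Finset.mem_filter, Finset.mem_range, Nat.lt_succ_iff, hg]
  refine ⟨Nat.le_floor ?_, k, hk, p, hanti, fun i => ⟨hn i, (hw i).2.1⟩,
    ⟨htop.1.trans hlam, fun i => (htop.2 i).trans hlam⟩, 1, le_rfl,
    fun i h => absurd (Nat.dvd_one.1 h) (hw i).1.ne_one, fun s hs h => ?_, ?_, ?_⟩
  · rw [Nat.cast_prod]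
    refine (Finset.prod_le_prod (fun i _ => Nat.cast_nonneg _)
      (g := fun _ => Real.exp (Real.exp ((1 - del l) * l))) fun i _ => ?_).trans ?_
    · have h2 := (hw i).1.two_le
      have hlog : Real.log (p i) ≤ Real.exp ((1 - del l) * l) := by
        rw [← exp_X h2]; exact Real.exp_le_exp.2 ((hw i).2.2.trans hlam)
      have hp0 : (0 : ℝ) < p i := by exact_mod_cast (by omega : 0 < p i)
      exact le_trans (by exact_mod_cast Nat.sub_le (p i) 1) ((Real.log_le_iff_le_exp hp0).1 hlog)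
    · rw [Finset.prod_const, ← Real.exp_nat_mul, Finset.card_univ, Fintype.card_fin]
      refine Real.exp_le_exp.2 (mul_le_mul_of_nonneg_right ?_ (Real.exp_pos _).le)
      have hk' : (k : ℝ) ≤ Kp l := by exact_mod_cast hk
      have hB : 0 ≤ Bp l := by unfold Bp Zp; positivity
      linarith [Nat.cast_nonneg (α := ℝ) (Kp l)]
  · exact absurd (Nat.dvd_one.1 h) hs.ne_one
  · rw [Nat.totient_one, ArithmeticFunction.cardFactors_one, Nat.cast_zero]
    unfold Bp Zp; positivity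
  · rw [Nat.totient_one, mul_one]

/-- All eventual numerical facts. -/
lemma eventually_facts (C c C₁ e₀ : ℝ) (hc : 0 < c) :
    ∀ᶠ l : ℝ in atTop, 1 ≤ l ∧ 3 ≤ Lg l ∧ C + 1 ≤ Lg l ∧ 16 / c ≤ Lg l ∧
      16 * C₁ + 48 ≤ Lg l ∧ e₀ ≤ Zp l / 256 ∧ del l ≤ eta l ∧
      Zp l / 256 ≤ (1 - eta l) * l ∧ 400 * (Lg l ^ 2 + 1) ≤ l := by
  have hlog : Tendsto Lg atTop atTop := Real.tendsto_log_atTop
  have hp : ∀ n : ℕ, ∀ ε : ℝ, 0 < ε → ∀ᶠ l : ℝ in atTop, Lg l ^ n ≤ ε * l := fun n ε hε => by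
    filter_upwards [(Real.isLittleO_pow_log_id_atTop (n := n)).def hε,
      eventually_ge_atTop (1 : ℝ)] with l h hl
    have h1 : |Real.log l ^ n| ≤ ε * |l| := by
      simpa [Real.norm_eq_abs] using h
    rw [abs_of_nonneg (by linarith : (0 : ℝ) ≤ l)] at h1
    exact (le_abs_self _).trans h1
  have hd : ∀ᶠ l : ℝ in atTop, Lg l ^ 6 ≤ l ^ (1 / 5 : ℝ) := by
    filter_upwards [(isLittleO_log_rpow_rpow_atTop (s := 1 / 5) (6 : ℝ) (by norm_num)).def
      zero_lt_one, eventually_ge_atTop (1 : ℝ)] with l h hl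
    rw [one_mul, Real.norm_eq_abs, Real.norm_eq_abs] at h
    have h2 : 0 ≤ l ^ (1 / 5 : ℝ) := Real.rpow_nonneg (by linarith) _
    rw [abs_of_nonneg h2] at h
    have h3 : (Real.log l) ^ (6 : ℝ) = Lg l ^ 6 := by
      rw [Lg, ← Real.rpow_natCast]; norm_num
    rw [h3] at h
    exact (le_abs_self _).trans h
  filter_upwards [eventually_ge_atTop (1 : ℝ), hlog.eventually_ge_atTop 3,
    hlog.eventually_ge_atTop (C + 1), hlog.eventually_ge_atTop (16 / c),
    hlog.eventually_ge_atTop (16 * C₁ + 48), hlog.eventually_ge_atTop (256 * e₀ + 1), hd,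
    hp 80 (1 / 2) (by norm_num), hp 2 (1 / 800) (by norm_num), eventually_ge_atTop (800 : ℝ)]
    with l hl h3 hC h16 hC1 he hdel h80 h2 h800
  have hL1 : (1 : ℝ) ≤ Lg l := by linarith
  have hη : eta l ≤ 1 / 2 := by
    unfold eta
    rw [inv_le_comm₀ (by positivity) (by norm_num)]
    calc (1 / 2 : ℝ)⁻¹ ≤ 3 ^ 6 := by norm_num
      _ ≤ _ := pow_le_pow_left₀ (by norm_num) h3 6
  refine ⟨hl, h3, hC, h16, hC1, ?_, ?_, ?_, by linarith⟩
  · have := le_self_pow₀ hL1 (by norm_num : (80 : ℕ) ≠ 0)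
    unfold Zp; linarith
  · unfold del eta
    rw [Real.rpow_neg (by linarith)]
    exact inv_anti₀ (by positivity) hdel
  · have : (1 / 2) * l ≤ (1 - eta l) * l := mul_le_mul_of_nonneg_right (by linarith) (by linarith)
    unfold Zp; linarith

lemma M_bound {C₁ l : ℝ} {e : ℕ} (hC₁ : 0 ≤ C₁) (hl : 1 ≤ l) (hL : 3 ≤ Lg l)
    (hLC : 16 * C₁ + 48 ≤ Lg l) (hbig : 400 * (Lg l ^ 2 + 1) ≤ l)
    (he1 : Zp l / 256 ≤ e) (he2 : (e : ℝ) ≤ l + 1) :
    -(eta l * ((e : ℝ) - 1)) +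
      C₁ * ((Kp l : ℝ) ^ 3 * Real.log (2 * (e : ℝ) + 2 * (Kp l : ℝ) + 20) +
        (Kp l : ℝ) * Real.log ((Kp l : ℝ) + 2) * (T0 e + 1)) ≤ -(3 * Lg l ^ 5) := by
  set L := Lg l with hL'
  set K : ℝ := (Kp l : ℝ) with hK'
  have hK : K ≤ L ^ 2 := Nat.floor_le (by positivity)
  have hK0 : 0 ≤ K := Nat.cast_nonneg _
  have he0 : (0 : ℝ) ≤ e := Nat.cast_nonneg e
  set r : ℝ := (e : ℝ) ^ (1 / 4 : ℝ) with hr
  have hr0 : 0 ≤ r := Real.rpow_nonneg he0 _
  have hr4 : r ^ 4 = e := by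
    rw [hr, ← Real.rpow_natCast, ← Real.rpow_mul he0]; norm_num
  have hT : T0 e = r ^ 3 := by
    rw [hr, ← Real.rpow_natCast, ← Real.rpow_mul he0, T0]; norm_num
  have hrL : L ^ 20 / 4 ≤ r := by
    refine (pow_le_pow_iff_left₀ (by positivity) hr0 (by norm_num : (4 : ℕ) ≠ 0)).1 ?_
    rw [hr4]
    refine le_trans (le_of_eq ?_) he1
    rw [Zp, ← hL']; ring
  have h20 : (16 : ℝ) ≤ L ^ 20 :=
    le_trans (by norm_num) (pow_le_pow_left₀ (by norm_num) hL 20)
  have hr1 : 1 ≤ r := by linarith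
  have hr31 : 1 ≤ r ^ 3 := one_le_pow₀ hr1
  have hlog1 : Real.log (2 * (e : ℝ) + 2 * K + 20) ≤ 2 * L := by
    have h : 2 * (e : ℝ) + 2 * K + 20 ≤ 4 * l := by linarith
    refine (Real.log_le_log (by positivity) h).trans ?_
    rw [Real.log_mul (by norm_num) (by linarith), show (4 : ℝ) = 2 ^ 2 by norm_num, Real.log_pow]
    have := Real.log_two_lt_d9
    rw [hL', Lg] at hL ⊢
    push_cast; linarith
  have hlog2 : Real.log (K + 2) ≤ 2 * L ^ 2 := by
    have := Real.log_le_sub_one_of_pos (show 0 < K + 2 by positivity)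
    have : 1 ≤ L ^ 2 := one_le_pow₀ (by linarith)
    linarith
  have hlog1' : 0 ≤ Real.log (2 * (e : ℝ) + 2 * K + 20) := Real.log_nonneg (by linarith)
  have hlog2' : 0 ≤ Real.log (K + 2) := Real.log_nonneg (by linarith)
  have t1 : K ^ 3 * Real.log (2 * (e : ℝ) + 2 * K + 20) ≤ 2 * L ^ 7 :=
    (mul_le_mul (pow_le_pow_left₀ hK0 hK 3) hlog1 hlog1' (by positivity)).trans
      (le_of_eq (by ring))
  have t2 : K * Real.log (K + 2) * (T0 e + 1) ≤ 4 * L ^ 4 * r ^ 3 := by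
    rw [hT]
    refine (mul_le_mul (mul_le_mul hK hlog2 hlog2' (by positivity))
      (show r ^ 3 + 1 ≤ 2 * r ^ 3 by linarith) (by positivity) (by positivity)).trans
        (le_of_eq (by ring))
  have t3 : L ^ 14 / 8 * r ^ 3 ≤ eta l * ((e : ℝ) - 1) := by
    have h1 : eta l * (e : ℝ) / 2 ≤ eta l * ((e : ℝ) - 1) := by
      have : (2 : ℝ) ≤ e := by
        rw [← hr4]
        nlinarith [mul_le_mul_of_nonneg_right hrL (by positivity : 0 ≤ r ^ 3)]
      have hη : 0 ≤ eta l := by unfold eta; positivity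
      nlinarith
    refine le_trans ?_ h1
    rw [eta, ← hL', ← hr4, show (L ^ 6)⁻¹ * r ^ 4 / 2 = r / (2 * L ^ 6) * r ^ 3 by
      field_simp]
    refine mul_le_mul_of_nonneg_right ?_ (by positivity)
    rw [le_div_iff₀ (by positivity)]
    refine le_trans (le_of_eq ?_) hrL
    ring
  have hA : C₁ * (2 * L ^ 7) + C₁ * (4 * L ^ 4 * r ^ 3) + 3 * L ^ 5
      ≤ (6 * C₁ + 3) * L ^ 7 * r ^ 3 := by
    have p1 : L ^ 4 ≤ L ^ 7 := pow_le_pow_right₀ (by linarith) (by norm_num)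
    have p2 : L ^ 5 ≤ L ^ 7 := pow_le_pow_right₀ (by linarith) (by norm_num)
    have p3 : L ^ 7 ≤ L ^ 7 * r ^ 3 := le_mul_of_one_le_right (by positivity) hr31
    nlinarith [mul_le_mul_of_nonneg_right p1 (mul_nonneg hC₁ (pow_nonneg hr0 3))]
  have hB : (6 * C₁ + 3) * L ^ 7 * r ^ 3 ≤ L ^ 14 / 8 * r ^ 3 := by
    refine mul_le_mul_of_nonneg_right ?_ (by positivity)
    rw [show L ^ 14 / 8 = L ^ 7 / 8 * L ^ 7 by ring]
    refine mul_le_mul_of_nonneg_right ?_ (by positivity)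
    have : L ^ 2 ≤ L ^ 7 := pow_le_pow_right₀ (by linarith) (by norm_num)
    nlinarith
  have := mul_le_mul_of_nonneg_left (add_le_add t1 t2) hC₁
  linarith

lemma poly_bound {K l : ℝ} (hK : 0 ≤ K) (hl : 1 ≤ l) (h : 400 * (K + 1) ≤ l) :
    2 * ((K + 1) ^ 2 * (l + 2) * (32 * (3 * K + 1))) ≤ l ^ 4 := by
  calc 2 * ((K + 1) ^ 2 * (l + 2) * (32 * (3 * K + 1)))
      ≤ 2 * ((K + 1) ^ 2 * (2 * l) * (32 * (3 * (K + 1)))) := by
        gcongr <;> linarith
    _ = 384 * (K + 1) ^ 3 * l := by ring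
    _ ≤ (400 * (K + 1)) ^ 3 * l := by
        refine mul_le_mul_of_nonneg_right ?_ (by linarith)
        nlinarith [pow_nonneg (show (0 : ℝ) ≤ K + 1 by linarith) 3]
    _ ≤ l ^ 3 * l := mul_le_mul_of_nonneg_right (pow_le_pow_left₀ (by positivity) h 3)
        (by linarith)
    _ = l ^ 4 := by ring

lemma pairs_exp {W P α β M t : ℝ} (hW0 : 0 ≤ W) (hW : W ≤ Real.exp α)
    (hP : 2 * P ≤ Real.exp β) (h : α + β + M ≤ t) :
    2 * (W * (P * Real.exp M)) ≤ Real.exp t := by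
  refine le_trans ?_ (Real.exp_le_exp.2 h)
  rw [Real.exp_add, Real.exp_add, show 2 * (W * (P * Real.exp M)) = W * (2 * P) * Real.exp M by ring]
  refine mul_le_mul_of_nonneg_right ?_ (Real.exp_pos M).le
  exact (mul_le_mul_of_nonneg_left hP hW0).trans (mul_le_mul_of_nonneg_right hW (Real.exp_pos β).le)

lemma strictSets_split {l : ℝ} {K : ℕ} (hK : K ≤ Kp l) (hδ : del l ≤ eta l) (hl : 0 ≤ l)
    (hL : 0 ≤ Lg l) (hη : 0 ≤ eta l) :
    (∀ S ∈ strictSets l K, S ⊆ window (Zp l / 256) ((1 - eta l) * l) ∧ S.card ≤ K) ∧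
      ∀ S ∈ (strictSets l K).filter (fun S => ¬∃ p ∈ S, ¬Normal p),
        S ⊆ window (Zp l / 256) ((1 - eta l) * l) ∧ SetOK l K S ∧ gS S ∈ MF l := by
  set U := window (Zp l / 256) ((1 - eta l) * l) with hUdef
  have hUl : ∀ p ∈ U, Zp l / 256 < X p ∧ X p ≤ l := fun p hp => by
    have h := Volume.mem_window.1 hp
    have h' : 0 ≤ eta l * l := mul_nonneg hη hl
    exact ⟨h.2.1, by linarith [h.2.2]⟩
  have hFU : ∀ S ∈ strictSets l K, S ⊆ U ∧ S.card ≤ K := by
    intro S hS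
    obtain ⟨⟨k, p⟩, hc', rfl⟩ := Finset.mem_image.1 hS
    obtain ⟨hk, hp⟩ := Finset.mem_sigma.1 hc'
    obtain ⟨hpi, -⟩ := Finset.mem_filter.1 hp
    refine ⟨fun x hx => ?_, Finset.card_image_le.trans ?_⟩
    · obtain ⟨i, -, rfl⟩ := Finset.mem_image.1 hx
      exact Fintype.mem_piFinset.1 hpi i
    · rw [Finset.card_univ, Fintype.card_fin]
      exact Nat.lt_succ_iff.1 (Finset.mem_range.1 hk)
  refine ⟨hFU, fun S hS => ?_⟩
  obtain ⟨hSF, hnorm⟩ := Finset.mem_filter.1 hS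
  simp only [not_exists, not_and, not_not] at hnorm
  obtain ⟨hsub, hcard⟩ := hFU S hSF
  obtain ⟨⟨k, p⟩, hc', rfl⟩ := Finset.mem_image.1 hSF
  obtain ⟨hk, hp⟩ := Finset.mem_sigma.1 hc'
  obtain ⟨-, hanti, hin, -⟩ := Finset.mem_filter.1 hp
  refine ⟨hsub, ⟨fun x hx => ⟨hnorm x hx, hUl x (hsub hx)⟩, hcard, k, p, hanti, rfl, hin⟩, ?_⟩
  exact gS_mem_MF hδ hl hL ((Nat.lt_succ_iff.1 (Finset.mem_range.1 hk)).trans hK) hp
    fun i => hnorm _ (Finset.mem_image_of_mem _ (Finset.mem_univ i))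

lemma two_exp_le {L : ℝ} (hL : 1 ≤ L) :
    2 * Real.exp (-(2 * L ^ 5)) ≤ Real.exp (-(L ^ 5)) := by
  have h5 : 1 ≤ L ^ 5 := one_le_pow₀ hL
  rw [show -(L ^ 5) = -(2 * L ^ 5) + L ^ 5 by ring, Real.exp_add, mul_comm]
  refine mul_le_mul_of_nonneg_left ?_ (Real.exp_pos _).le
  linarith [Real.add_one_le_exp (L ^ 5)]

/-- Module StrictA. -/
theorem strictA_of (hColl : CollisionTarget) (hAbn : AbnormalTarget) (hWin : WindowTarget) :
    StrictLeATarget := by
  obtain ⟨C₀, hC₀⟩ := hColl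
  obtain ⟨c, e₀, hc, -, hAb⟩ := hAbn
  obtain ⟨C, hW⟩ := hWin
  set C₁ := max C₀ 0 with hC₁
  have hC₁0 : 0 ≤ C₁ := le_max_right _ _
  filter_upwards [eventually_facts C c C₁ e₀ hc] with l ⟨hl, hL, hLC, hLc, hLC1, he₀, hδ, hab, hbig⟩
  set K := Kp l with hK
  have hKle : (K : ℝ) ≤ Lg l ^ 2 := Nat.floor_le (by positivity)
  have hZ : 0 ≤ Zp l := by unfold Zp; positivity
  have hη : 0 ≤ eta l := by unfold eta; positivity
  set U := window (Zp l / 256) ((1 - eta l) * l) with hUdef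
  have hU : ∀ p ∈ U, 2 ≤ p := fun p hp => (Volume.mem_window.1 hp).1.two_le
  set WU := 1 + ∑ p ∈ U, ((p : ℝ) - 1)⁻¹ with hWU
  have hWU0 : 1 ≤ WU := by
    rw [hWU, le_add_iff_nonneg_right]
    refine Finset.sum_nonneg fun p hp => inv_nonneg.2 ?_
    have : (2 : ℝ) ≤ p := by exact_mod_cast hU p hp
    linarith
  set L := Lg l with hL'
  have hexpL : Real.exp L = l := Real.exp_log (by linarith)
  have hWUl : WU ≤ Real.exp (2 * L) := by
    have h := (abs_le.1 (hW _ _ (by linarith : (0 : ℝ) ≤ Zp l / 256) hab)).2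
    have h' : 0 ≤ eta l * l := mul_nonneg hη (by linarith)
    have hle : WU ≤ l + (C + 1) := by rw [hWU]; linarith
    refine hle.trans ?_
    rw [two_mul, Real.exp_add, hexpL]
    have hLl : L ≤ l := by rw [← hexpL]; linarith [Real.add_one_le_exp L]
    have h2l : 2 ≤ l := by nlinarith
    nlinarith
  have hpowW : WU ^ K ≤ Real.exp (2 * L ^ 3) := by
    refine (pow_le_pow_left₀ (by linarith) hWUl K).trans ?_
    rw [← Real.exp_nat_mul]
    refine Real.exp_le_exp.2 ?_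
    nlinarith
  rw [sum_strictCfg_eq]
  obtain ⟨hFU, hNOK⟩ := strictSets_split (K := K) le_rfl hδ (by linarith) (by linarith) hη
  set F := strictSets l K with hF
  rw [← Finset.sum_filter_add_sum_filter_not F (fun S => ∃ p ∈ S, ¬Normal p)]
  set N := F.filter fun S => ¬∃ p ∈ S, ¬Normal p with hN
  have hA : ∑ m ∈ N.image gS, ((m : ℕ) : ℝ)⁻¹ ≤ A l := by
    refine Finset.sum_le_sum_of_subset_of_nonneg ?_ fun m _ _ => by positivity
    intro m hm
    obtain ⟨S, hS, rfl⟩ := Finset.mem_image.1 hm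
    exact (hNOK S hS).2.2
  have hdd := dedup_le N fun S hS p hp => hU p ((hNOK S hS).1 hp)
  have hab' := abnormal_le U hU K F hFU
  have hAbU := hAb (Zp l / 256) ((1 - eta l) * l) he₀
  have hsq : Real.sqrt (Zp l / 256) = L ^ 40 / 16 := by
    rw [show Zp l / 256 = (L ^ 40 / 16) ^ 2 by unfold Zp; rw [← hL']; ring,
      Real.sqrt_sq (by positivity)]
  have hL6 : L ^ 6 ≤ c * Real.sqrt (Zp l / 256) := by
    rw [hsq]
    have h34 : L ≤ L ^ 34 := le_self_pow₀ (by linarith) (by norm_num)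
    have h := mul_le_mul_of_nonneg_left (hLc.trans h34) hc.le
    rw [mul_div_cancel₀ _ hc.ne'] at h
    have h6 : 0 ≤ L ^ 6 := by positivity
    nlinarith [mul_le_mul_of_nonneg_right h h6]
  have hL56 : 3 * L ^ 5 ≤ L ^ 6 := by nlinarith [pow_nonneg (show (0 : ℝ) ≤ L by linarith) 5]
  have hL34 : 3 * L ^ 3 ≤ L ^ 4 := by nlinarith [pow_nonneg (show (0 : ℝ) ≤ L by linarith) 3]
  have hL45 : 3 * L ^ 4 ≤ L ^ 5 := by nlinarith [pow_nonneg (show (0 : ℝ) ≤ L by linarith) 4]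
  have hLle : L ≤ L ^ 3 := le_self_pow₀ (by linarith) (by norm_num)
  have hAbn : ∑ S ∈ F.filter (fun S => ∃ p ∈ S, ¬Normal p), wS S ≤ Real.exp (-(2 * L ^ 5)) := by
    refine hab'.trans ?_
    refine (mul_le_mul hAbU hpowW (by positivity) (Real.exp_pos _).le).trans ?_
    rw [← Real.exp_add]
    refine Real.exp_le_exp.2 ?_
    linarith [pow_nonneg (show (0 : ℝ) ≤ L by linarith) 3]
  have hColl' : ∀ (a b Zb B e : ℕ) (y D : ℝ), 1 ≤ b → a ≤ K → b ≤ K → 16 ≤ y →
      ((collSet a b Zb B e y D).ncard : ℝ) ≤ y * Real.exp (-(e : ℝ) - D +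
        C₁ * ((K : ℝ) ^ 3 * Real.log ((e : ℝ) + Real.log (Real.log y) + K + 3) +
          (K : ℝ) * Real.log ((K : ℝ) + 2) * (T0 e + Zb + B + 1))) := by
    intro a b Zb B e y D hb1 haK hbK hy
    refine (hC₀ a b K Zb B e y D hb1 haK hbK hy).trans ?_
    refine mul_le_mul_of_nonneg_left (Real.exp_le_exp.2 (add_le_add le_rfl ?_)) (by linarith)
    refine mul_le_mul_of_nonneg_right (le_max_left _ _) (add_nonneg ?_ ?_)
    · refine mul_nonneg (by positivity) (Real.log_nonneg ?_)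
      have : 0 ≤ Real.log (Real.log y) := Real.log_nonneg <| by
        rw [Real.le_log_iff_exp_le (by linarith)]
        linarith [Real.exp_one_lt_d9]
      linarith [Nat.cast_nonneg (α := ℝ) e, Nat.cast_nonneg (α := ℝ) K]
    · have : 0 ≤ Real.log ((K : ℝ) + 2) :=
        Real.log_nonneg (by linarith [Nat.cast_nonneg (α := ℝ) K])
      have : 0 ≤ T0 e := Real.rpow_nonneg (Nat.cast_nonneg e) _
      positivity
  have hQ₀ := pairs_le hC₁0 hl hZ hColl'
    (fun e h1 h2 => M_bound hC₁0 hl hL hLC1 hbig h1 h2)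
  have hcol := collisions_le hZ hη U hU N (fun S hS => ⟨(hNOK S hS).1, (hNOK S hS).2.1⟩) hQ₀
  have hpoly : 2 * (((K : ℝ) + 1) ^ 2 * (l + 2) * (32 * (3 * (K : ℝ) + 1)))
      ≤ Real.exp (4 * L) := by
    rw [show 4 * L = (4 : ℕ) * L by norm_num, Real.exp_nat_mul, hexpL]
    exact poly_bound (Nat.cast_nonneg K) hl (by linarith)
  have hPairs : ∑ x ∈ (N ×ˢ N).filter (fun x => x.1 ≠ x.2 ∧ gS x.1 = gS x.2), wS x.1
      ≤ Real.exp (-(2 * L ^ 5)) := by
    refine hcol.trans (pairs_exp (pow_nonneg (by linarith) _) hpowW hpoly ?_)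
    linarith [pow_nonneg (show (0 : ℝ) ≤ L by linarith) 3]
  have h2 := two_exp_le (show 1 ≤ L by linarith)
  linarith [hdd]

end

end Vale.Agent.P031.StrictA

namespace Vale.Agent.P031

/-- Module StrictA, at the top level of the programme. -/
theorem strictA_of : CollisionTarget → AbnormalTarget → WindowTarget → StrictLeATarget :=
  StrictA.strictA_of

end Vale.Agent.P031
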