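import Vale.Agent.P031.UpperCount

/-!
# P031 Q2: almost every totient up to `y` is `(p - 1) m` with an admissible cofactor `m`
-/

namespace Vale.Agent.P031

open Finset Filter
open scoped Topology

namespace UpperAux

variable {l y : ℝ}

lemma one_le_A (h : Setup l y) : 1 ≤ A l := by
  classical
  have h1 : (1 : ℕ) ∈ MF l := by
    refine mem_filter.2 ⟨mem_range.2 (Nat.lt_succ_of_le (Nat.le_floor ?_)), ?_⟩
    · rw [Nat.cast_one]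
      exact Real.one_le_exp (by rw [h.Bp_eq]; have := h.one_le_L; positivity)
    · refine ⟨0, Nat.zero_le _, Fin.elim0, fun i => i.elim0, fun i => i.elim0,
        ⟨?_, fun i => i.elim0⟩, 1, le_rfl, fun i => i.elim0, ?_, ?_, by simp⟩
      · simp only [hvec, Finset.univ_eq_empty, Finset.sum_empty]
        nlinarith [h.del_le, h.lpos]
      · intro s hs hd; exact absurd (Nat.dvd_one.1 hd) hs.ne_one
      · simp only [Nat.totient_one, ArithmeticFunction.cardFactors_one, Nat.cast_zero]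
        rw [h.Bp_eq]; have := h.one_le_L; positivity
  have := single_le_sum (f := fun m : ℕ => (m : ℝ)⁻¹)
    (fun m _ => inv_nonneg.2 (Nat.cast_nonneg m)) h1
  simpa [A] using this

lemma mem_MF (h : Setup l y) {v k : ℕ} {p : Fin k → ℕ} {p₀ b : ℕ} (hg : Good l v k p p₀ b)
    (h1 : 1 ≤ v) (hk : k ≤ Kp l)
    (hΩ : (ArithmeticFunction.cardFactors b.totient : ℝ) ≤ Bp l)
    (ht : Top (fun i => X (p i)) ((1 - del l) * l)) :
    (∏ i, (p i - 1)) * b.totient ∈ MF l := by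
  classical
  have hm1 := hg.1.pos h1
  obtain ⟨⟨han, hpi, -, -, hb1, hbZ, -⟩, -, -, hnor⟩ := hg
  refine mem_filter.2 ⟨mem_range.2 (Nat.lt_succ_of_le (Nat.le_floor ?_)), k, hk, p, han,
    fun i => ⟨hnor i, by have := (hpi i).2.1; linarith [h.one_le_Z]⟩, ht, b, hb1,
    fun i hd => absurd (hbZ _ (hpi i).1 hd) (not_le.2 (hpi i).2.1), hbZ, hΩ, rfl⟩
  have hP0 : (∏ i, (p i - 1)) ≠ 0 := fun h0 => by rw [h0, zero_mul] at hm1; omega
  rw [← Real.log_le_iff_le_exp (by exact_mod_cast hm1), Nat.cast_mul,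
    Real.log_mul (by exact_mod_cast hP0) (by exact_mod_cast (Nat.totient_pos.2 hb1).ne'),
    Nat.cast_prod,
    Real.log_prod fun i _ => Nat.cast_ne_zero.2 (by have := (hpi i).1.two_le; omega)]
  set E := Real.exp ((1 - del l) * l) with hE
  have hs : ∀ i ∈ (univ : Finset (Fin k)), Real.log ((p i - 1 : ℕ) : ℝ) ≤ E := fun i _ => by
    have h2 := (hpi i).1.two_le
    refine le_trans (Real.log_le_log (y := ((p i : ℕ) : ℝ)) (by exact_mod_cast (by omega : 0 < p i - 1))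
      (by exact_mod_cast Nat.sub_le (p i) 1)) ?_
    rw [← exp_X h2]; exact Real.exp_le_exp.2 (ht.2 i)
  have h3 := log_le_cardFactors (Nat.totient_pos.2 hb1)
    fun s hs hd => totient_small hb1 hbZ hs hd
  have h4 : Real.exp (Zp l) ≤ E := Real.exp_le_exp.2 (by nlinarith [h.Z_le, h.del_le, h.lpos])
  have h5 := sum_le_card_nsmul univ _ _ hs
  rw [Finset.card_univ, Fintype.card_fin, nsmul_eq_mul] at h5
  have hE0 : 0 ≤ E := (Real.exp_pos _).le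
  have hB0 : 0 ≤ Bp l := le_trans (Nat.cast_nonneg _) hΩ
  have h6 : (k : ℝ) * E ≤ (Kp l : ℝ) * E :=
    mul_le_mul_of_nonneg_right (Nat.cast_le.2 hk) hE0
  have h7 := mul_le_mul hΩ h4 (Real.exp_pos _).le hB0
  nlinarith [mul_nonneg (Nat.cast_nonneg (Kp l) : (0 : ℝ) ≤ (Kp l : ℝ)) hE0, mul_nonneg hB0 hE0]

/-- Too many high primes. -/
lemma count_long (h : Setup l y) {a m η E : ℝ}
    (hneg : Real.exp (a * Lg l ^ 2 + 9 - m * Lg l ^ 3) ≤ η)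
    (hLong : ∀ U : Finset ℕ,
      (∀ u ∈ U, ∃ k : ℕ, Kp l < k ∧ ∃ p : Fin k → ℕ, StrictAnti p ∧
        (∀ i, Normal (p i) ∧ Zp l < X (p i) ∧ X (p i) ≤ l + 2) ∧ u = ∏ i, (p i - 1)) →
      ∑ u ∈ U, (u : ℝ)⁻¹ ≤ Real.exp (-(Lg l ^ 5)))
    (hlow : ∑ u ∈ Tot y (Zp l), (u : ℝ)⁻¹ ≤ Real.exp E)
    (hE : -(Lg l ^ 5) + E + 3 * Lg l ≤ a * Lg l ^ 2 - m * Lg l ^ 3) (S : Finset ℕ)
    (hS : ∀ v ∈ S, v ∈ Rng y ∧ 1 ≤ v ∧ ∃ k p p₀ b, Good l v k p p₀ b ∧ Kp l < k) :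
    (S.card : ℝ) ≤ η * (y / Real.log y) := by
  classical
  refine count_product h (Hi l y fun k _ => Kp l < k) (Tot y (Zp l)) hneg
    (hLong _ fun u hu => ?_) hlow hE S fun v hv => ?_
  · obtain ⟨k, p, hk, h'⟩ := (mem_filter.1 hu).2
    exact ⟨k, hk, p, h'⟩
  · obtain ⟨hvR, h1, k, p, p₀, b, hg, hk⟩ := hS v hv
    obtain ⟨hH, hWm, -⟩ := hg.mem h (P := fun k _ => Kp l < k) hk hvR h1
    exact ⟨hvR, h1, k, p, p₀, b, hg, hH, hWm⟩

/-- Too many prime factors in the low part. -/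
lemma count_many (h : Setup l y) {a m η E z₀ : ℝ}
    (hneg : Real.exp (a * Lg l ^ 2 + 9 - m * Lg l ^ 3) ≤ η)
    (hMany : ∀ U : Finset ℕ, z₀ ≤ Zp l →
      (∀ u ∈ U, 1 ≤ u ∧ (∀ s : ℕ, s.Prime → s ∣ u → X s ≤ Zp l) ∧
        Bp l < (ArithmeticFunction.cardFactors u : ℝ)) →
      ∑ u ∈ U, (u : ℝ)⁻¹ ≤ Real.exp (3 * Zp l - Bp l / 4))
    (hz : z₀ ≤ Zp l)
    (hT : ∑ u ∈ Tot y (l + 2), (u : ℝ)⁻¹ ≤ Real.exp E)
    (hE : E + -(Lg l ^ 5 / 8) + 3 * Lg l ≤ a * Lg l ^ 2 - m * Lg l ^ 3) (S : Finset ℕ)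
    (hS : ∀ v ∈ S, v ∈ Rng y ∧ 1 ≤ v ∧ ∃ k p p₀ b, Good l v k p p₀ b ∧
      Bp l < (ArithmeticFunction.cardFactors b.totient : ℝ)) :
    (S.card : ℝ) ≤ η * (y / Real.log y) := by
  classical
  set W' := (Tot y (Zp l)).filter fun u => Bp l < (ArithmeticFunction.cardFactors u : ℝ)
  have hsum : ∑ u ∈ W', (u : ℝ)⁻¹ ≤ Real.exp (-(Lg l ^ 5 / 8)) := by
    refine (hMany W' hz fun u hu => ?_).trans (Real.exp_le_exp.2 ?_)
    · obtain ⟨huW, huB⟩ := mem_filter.1 hu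
      obtain ⟨b, hb1, hbZ, rfl⟩ := (mem_filter.1 huW).2
      exact ⟨Nat.totient_pos.2 hb1, fun s hs hd => totient_small hb1 hbZ hs hd, huB⟩
    · have h35 := h.pow_mono (show 3 ≤ 5 by norm_num)
      have h64 := pow_le_pow_left₀ (by norm_num) h.L4 3
      have h24 : 24 ≤ Lg l ^ 5 := by linarith
      rw [h.Bp_eq, show Lg l ^ 85 = Lg l ^ 80 * Lg l ^ 5 by ring, ← Zp]
      nlinarith [mul_le_mul_of_nonneg_left h24 (show (0 : ℝ) ≤ Zp l by linarith [h.one_le_Z]),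
        h.one_le_Z]
  refine count_product h (Tot y (l + 2)) W' hneg hT hsum hE S fun v hv => ?_
  obtain ⟨hvR, h1, k, p, p₀, b, hg, hk⟩ := hS v hv
  obtain ⟨-, hWm, hTm⟩ := hg.mem h (P := fun _ _ => True) trivial hvR h1
  exact ⟨hvR, h1, k, p, p₀, b, hg, hTm, mem_filter.2 ⟨hWm, hk⟩⟩

/-- An inner condition fails. -/
lemma count_inner (h : Setup l y) {a m η E : ℝ}
    (hneg : Real.exp (a * Lg l ^ 2 + 9 - m * Lg l ^ 3) ≤ η)
    (hIn : ∀ U : Finset ℕ,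
      (∀ u ∈ U, ∃ k ≤ Kp l, ∃ p : Fin k → ℕ, StrictAnti p ∧
        (∀ i, Normal (p i) ∧ Zp l < X (p i) ∧ X (p i) ≤ l + 2) ∧
        ¬Inner (fun i => X (p i)) (eta l) ∧ u = ∏ i, (p i - 1)) →
      ∑ u ∈ U, (u : ℝ)⁻¹ ≤ Real.exp (-(Lg l ^ 5)))
    (hlow : ∑ u ∈ Tot y (Zp l), (u : ℝ)⁻¹ ≤ Real.exp E)
    (hE : -(Lg l ^ 5) + E + 3 * Lg l ≤ a * Lg l ^ 2 - m * Lg l ^ 3) (S : Finset ℕ)
    (hS : ∀ v ∈ S, v ∈ Rng y ∧ 1 ≤ v ∧ ∃ k p p₀ b, Good l v k p p₀ b ∧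
      k ≤ Kp l ∧ ¬Inner (fun i => X (p i)) (eta l)) :
    (S.card : ℝ) ≤ η * (y / Real.log y) := by
  classical
  refine count_product h (Hi l y fun k p => k ≤ Kp l ∧ ¬Inner (fun i => X (p i)) (eta l))
    (Tot y (Zp l)) hneg (hIn _ fun u hu => ?_) hlow hE S fun v hv => ?_
  · obtain ⟨k, p, ⟨hk, hI⟩, han, hn, he⟩ := (mem_filter.1 hu).2
    exact ⟨k, hk, p, han, hn, hI, he⟩
  · obtain ⟨hvR, h1, k, p, p₀, b, hg, hk⟩ := hS v hv
    obtain ⟨hH, hWm, -⟩ :=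
      hg.mem h (P := fun k p => k ≤ Kp l ∧ ¬Inner (fun i => X (p i)) (eta l)) hk hvR h1
    exact ⟨hvR, h1, k, p, p₀, b, hg, hH, hWm⟩

/-- The top condition fails badly. -/
lemma count_topfail (h : Setup l y) {a m η : ℝ}
    (hneg : Real.exp (a * Lg l ^ 2 + 9 - m * Lg l ^ 3) ≤ η)
    (hTop : ∀ U : Finset ℕ,
      (∀ v ∈ U, 1 ≤ v ∧ (v : ℝ) ≤ y ∧ ∃ k ≤ Kp l, ∃ p : Fin k → ℕ, ∃ p₀ : ℕ,
        StrictAnti p ∧ (∀ i, Normal (p i) ∧ Zp l < X (p i) ∧ p i < p₀) ∧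
        Normal p₀ ∧ Zp l < X p₀ ∧ X p₀ ≤ l + 2 ∧
        (1 + del l) * l < hvec (fun i => X (p i)) ∧
        ((p₀ - 1) * ∏ i, (p i - 1)) ∣ v) →
      (U.card : ℝ) ≤ y / Real.log y * Real.exp (-(Lg l ^ 5)))
    (hE : -(Lg l ^ 5) ≤ a * Lg l ^ 2 + 9 - m * Lg l ^ 3) (S : Finset ℕ)
    (hS : ∀ v ∈ S, v ∈ Rng y ∧ 1 ≤ v ∧ ∃ k p p₀ b, Good l v k p p₀ b ∧
      k ≤ Kp l ∧ (1 + del l) * l < hvec (fun i => X (p i))) :
    (S.card : ℝ) ≤ η * (y / Real.log y) := by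
  refine (hTop S fun v hv => ?_).trans ?_
  · obtain ⟨hvR, h1, k, p, p₀, b, ⟨hrep, -, hn₀, hnor⟩, hk, hh⟩ := hS v hv
    obtain ⟨hXp₀, -⟩ := hrep.X_le h hvR h1
    obtain ⟨han, hpi, -, hZ₀, -, -, hveq⟩ := hrep
    refine ⟨h1, le_of_mem_Rng h hvR, k, hk, p, p₀, han,
      fun i => ⟨hnor i, (hpi i).2.1, (hpi i).2.2⟩, hn₀, hZ₀, hXp₀, hh, ?_⟩
    rw [hveq, ← mul_assoc]; exact dvd_mul_right _ _
  · rw [mul_comm η]
    exact mul_le_mul_of_nonneg_left ((Real.exp_le_exp.2 hE).trans hneg)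
      (div_pos h.y_pos h.log_y_pos).le

/-- Every totient value up to `y` is in the main family or in one of the exceptional sets. -/
lemma classify (h : Setup l y) {v n : ℕ} (hvy : (v : ℝ) ≤ y) (hn : 1 ≤ n) (hnv : n.totient = v) :
    (∃ m ∈ MF l, ∃ p ∈ (range (⌊y / m + 1⌋₊ + 1)).filter Nat.Prime, (p - 1) * m = v) ∨
    (1 ≤ v ∧ (v : ℝ) ≤ √y) ∨
    (v ∈ Rng y ∧ 1 ≤ v ∧ ∀ s : ℕ, s.Prime → s ∣ v → cell s ≤ lvl l) ∨
    (v ∈ Rng y ∧ 1 ≤ v ∧ ∃ q : ℕ, q.Prime ∧ Zp l < X q ∧ q * (q - 1) ∣ v) ∨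
    (v ∈ Rng y ∧ 1 ≤ v ∧ ∃ k p p₀ b, Rep l v k p p₀ b ∧ (lvl l : ℝ) < X p₀ ∧ ¬Normal p₀) ∨
    (v ∈ Rng y ∧ 1 ≤ v ∧
      ∃ k p p₀ b, Rep l v k p p₀ b ∧ (lvl l : ℝ) < X p₀ ∧ ∃ i, ¬Normal (p i)) ∨
    (v ∈ Rng y ∧ 1 ≤ v ∧ ∃ k p p₀ b, Good l v k p p₀ b ∧ Kp l < k) ∨
    (v ∈ Rng y ∧ 1 ≤ v ∧ ∃ k p p₀ b, Good l v k p p₀ b ∧
      Bp l < (ArithmeticFunction.cardFactors b.totient : ℝ)) ∨
    (v ∈ Rng y ∧ 1 ≤ v ∧ ∃ k p p₀ b, Good l v k p p₀ b ∧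
      k ≤ Kp l ∧ ¬Inner (fun i => X (p i)) (eta l)) ∨
    (v ∈ Rng y ∧ 1 ≤ v ∧ ∃ k p p₀ b, Good l v k p p₀ b ∧
      k ≤ Kp l ∧ (1 + del l) * l < hvec (fun i => X (p i))) ∨
    (v ∈ Rng y ∧ 1 ≤ v ∧ √y < (v : ℝ) ∧ ∃ k p p₀ b, Good l v k p p₀ b ∧
      k ≤ Kp l ∧ (ArithmeticFunction.cardFactors b.totient : ℝ) ≤ Bp l ∧ p ∈ bandCfg l k) := by
  have h1 : 1 ≤ v := hnv ▸ Nat.totient_pos.2 hn
  have hvR : v ∈ Rng y := mem_range.2 (Nat.lt_succ_of_le (Nat.le_floor hvy))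
  by_cases h0 : (v : ℝ) ≤ √y
  · exact Or.inr <| Or.inl ⟨h1, h0⟩
  rcases decomp hn (Zp l) with hs | ⟨b, hb1, hbZ, k, p, han, hp, hveq⟩
  · rw [hnv] at hs
    exact Or.inr <| Or.inr <| Or.inr <| Or.inl ⟨hvR, h1, hs⟩
  rw [hnv] at hveq
  have hsmall : ∀ {s : ℕ}, s.Prime → s ∣ b.totient → cell s ≤ lvl l := fun hs hd =>
    Nat.ceil_le.2 ((totient_small hb1 hbZ hs hd).trans h.Z_le_lvl)
  cases k with
  | zero =>
    have hv : v = b.totient := by rw [hveq]; simp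
    exact Or.inr <| Or.inr <| Or.inl ⟨hvR, h1, fun s hs hd => hsmall hs (hv ▸ hd)⟩
  | succ k =>
    set p₀ := p 0 with hp₀def
    set q : Fin k → ℕ := fun i => p i.succ with hq
    have hrep : Rep l v k q p₀ b := by
      refine ⟨fun i j hij => han (Fin.succ_lt_succ_iff.2 hij),
        fun i => ⟨(hp _).1, (hp _).2, han (Fin.succ_pos i)⟩, (hp 0).1, (hp 0).2, hb1, hbZ, ?_⟩
      rw [hveq, Fin.prod_univ_succ, mul_assoc]
    by_cases hX : X p₀ ≤ (lvl l : ℝ)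
    · refine Or.inr <| Or.inr <| Or.inl ⟨hvR, h1, fun s hs hd => ?_⟩
      rw [hveq] at hd
      rcases hs.dvd_mul.1 hd with h' | h'
      · obtain ⟨i, -, hi⟩ := hs.prime.exists_mem_finset_dvd h'
        have hle : s ≤ p₀ := le_trans
          (Nat.le_of_dvd (by have := (hp i).1.two_le; omega) hi)
          ((Nat.sub_le _ _).trans (han.antitone (Fin.zero_le i)))
        exact Nat.ceil_le.2 ((X_mono hs.two_le hle).trans hX)
      · exact hsmall hs h'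
    rw [not_le] at hX
    by_cases hn₀ : Normal p₀
    swap
    · exact Or.inr <| Or.inr <| Or.inr <| Or.inr <| Or.inl
        ⟨hvR, h1, k, q, p₀, b, hrep, hX, hn₀⟩
    by_cases hnor : ∀ i, Normal (q i)
    swap
    · rw [not_forall] at hnor
      exact Or.inr <| Or.inr <| Or.inr <| Or.inr <| Or.inr <| Or.inl
        ⟨hvR, h1, k, q, p₀, b, hrep, hX, hnor⟩
    have hg : Good l v k q p₀ b := ⟨hrep, hX, hn₀, hnor⟩
    by_cases hk : Kp l < k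
    · exact Or.inr <| Or.inr <| Or.inr <| Or.inr <| Or.inr <| Or.inr <| Or.inl
        ⟨hvR, h1, k, q, p₀, b, hg, hk⟩
    rw [not_lt] at hk
    by_cases hΩ : Bp l < (ArithmeticFunction.cardFactors b.totient : ℝ)
    · exact Or.inr <| Or.inr <| Or.inr <| Or.inr <| Or.inr <| Or.inr <| Or.inr <| Or.inl
        ⟨hvR, h1, k, q, p₀, b, hg, hΩ⟩
    rw [not_lt] at hΩ
    by_cases hI : Inner (fun i => X (q i)) (eta l)
    swap
    · exact Or.inr <| Or.inr <| Or.inr <| Or.inr <| Or.inr <| Or.inr <| Or.inr <| Or.inr <| Or.inl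
        ⟨hvR, h1, k, q, p₀, b, hg, hk, hI⟩
    by_cases hh : (1 + del l) * l < hvec (fun i => X (q i))
    · exact Or.inr <| Or.inr <| Or.inr <| Or.inr <| Or.inr <| Or.inr <| Or.inr <| Or.inr <|
        Or.inr <| Or.inl ⟨hvR, h1, k, q, p₀, b, hg, hk, hh⟩
    rw [not_lt] at hh
    obtain ⟨-, hXq⟩ := hrep.X_le h hvR h1
    by_cases ht : Top (fun i => X (q i)) ((1 - del l) * l)
    · set m := (∏ i, (q i - 1)) * b.totient with hm
      have hm1 : 1 ≤ m := hrep.pos h1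
      obtain ⟨-, -, hp₀, -, -, -, hveq'⟩ := hrep
      refine Or.inl ⟨m, mem_MF h hg h1 hk hΩ ht, p₀, mem_filter.2 ⟨mem_range.2
        (Nat.lt_succ_of_le (Nat.le_floor ?_)), hp₀⟩, hveq'.symm⟩
      rw [hveq', Nat.cast_mul, Nat.cast_sub hp₀.one_le, Nat.cast_one] at hvy
      rw [← sub_le_iff_le_add, le_div_iff₀ (by exact_mod_cast hm1)]; exact hvy
    · have hXu : ∀ i, X (q i) ≤ (1 + del l) * l := fun i => (hXq i).trans h.add_two_le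
      obtain ⟨han', hqi, -⟩ := hrep
      classical
      exact Or.inr <| Or.inr <| Or.inr <| Or.inr <| Or.inr <| Or.inr <| Or.inr <| Or.inr <|
        Or.inr <| Or.inr ⟨hvR, h1, not_le.1 h0, k, q, p₀, b, hg, hk, hΩ,
          mem_filter.2 ⟨Fintype.mem_piFinset.2 fun i => mem_window (hqi i).1 (hqi i).2.1 (hXu i),
            han', hI, ⟨hh, hXu⟩, ht⟩⟩

/-- A cover by eleven sets. -/
lemma card_cover (T : Set ℕ) (M F₀ F₁ F₂ F₃ F₄ F₅ F₆ F₇ F₈ F₉ : Finset ℕ)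
    (h : ∀ v ∈ T, v ∈ M ∨ v ∈ F₀ ∨ v ∈ F₁ ∨ v ∈ F₂ ∨ v ∈ F₃ ∨ v ∈ F₄ ∨ v ∈ F₅ ∨ v ∈ F₆ ∨
      v ∈ F₇ ∨ v ∈ F₈ ∨ v ∈ F₉) :
    (T.ncard : ℝ) ≤ (M.card : ℝ) + F₀.card + F₁.card + F₂.card + F₃.card + F₄.card + F₅.card +
      F₆.card + F₇.card + F₈.card + F₉.card := by
  have h' : T.ncard ≤ (M ∪ F₀ ∪ F₁ ∪ F₂ ∪ F₃ ∪ F₄ ∪ F₅ ∪ F₆ ∪ F₇ ∪ F₈ ∪ F₉).card := by
    rw [← Set.ncard_coe_finset]
    refine Set.ncard_le_ncard (fun v hv => ?_) (Finset.finite_toSet _)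
    simp only [Finset.mem_coe, mem_union]
    have := h v hv
    tauto
  have hu : ∀ s t : Finset ℕ, (((s ∪ t).card : ℕ) : ℝ) ≤ s.card + t.card := fun s t => by
    exact_mod_cast card_union_le s t
  refine (Nat.cast_le.2 h').trans ?_
  repeat refine (hu _ _).trans (add_le_add ?_ le_rfl)
  exact le_rfl

/-- The exponents of the negligible sets. -/
lemma exponents {L Λ c C : ℝ} (hL : 1 ≤ L) (hΛ0 : 0 ≤ Λ) (hΛ : Λ ≤ L) :
    let a := 7000 * |C| + 3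
    let m := min c (1 / 8)
    (-(c * L ^ 3) + |C| * (4 * L ^ 2) + 3 * L ≤ a * L ^ 2 - m * L ^ 3) ∧
    (-(L ^ 5) + |C| * (6561 * Λ ^ 2) + 3 * L ≤ a * L ^ 2 - m * L ^ 3) ∧
    (|C| * (4 * L ^ 2) + -(L ^ 5 / 8) + 3 * L ≤ a * L ^ 2 - m * L ^ 3) ∧
    (-(L ^ 5) ≤ a * L ^ 2 + 9 - m * L ^ 3) := by
  intro a m
  have hcoef : m * L ^ 3 ≤ c * L ^ 3 :=
    mul_le_mul_of_nonneg_right (min_le_left _ _) (by positivity)
  have hcoef8 : m * L ^ 3 ≤ 1 / 8 * L ^ 3 :=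
    mul_le_mul_of_nonneg_right (min_le_right _ _) (by positivity)
  have hL35 : L ^ 3 ≤ L ^ 5 := pow_le_pow_right₀ hL (by norm_num)
  have hL2 : L ≤ L ^ 2 := by nlinarith
  have hC0 : 0 ≤ |C| * L ^ 2 := by positivity
  have hCL : |C| * Λ ^ 2 ≤ |C| * L ^ 2 :=
    mul_le_mul_of_nonneg_left (pow_le_pow_left₀ hΛ0 hΛ 2) (abs_nonneg C)
  have h5 : 0 ≤ L ^ 5 := by positivity
  have ha : a * L ^ 2 = 7000 * (|C| * L ^ 2) + 3 * L ^ 2 := by simp only [a]; ring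
  refine ⟨?_, ?_, ?_, ?_⟩ <;> linarith

end UpperAux

open UpperAux in
/-- Module Upper. -/
theorem upper_target (hEu : EulerTarget) (hAb : AbnormalTarget) (hCr : CrudeTarget)
    (hMany : ManyFactorsTarget) (hLong : LongTupleTarget) (hIn : InnerFailTarget)
    (hTop : TopFailTarget) (hBand : BandTarget) (hA : StrictLeATarget) : UpperTarget := by
  classical
  intro ε hε
  obtain ⟨Cs, hCs⟩ := smooth_count hEu
  obtain ⟨c, e₀, hc, hAbCount, hAbSum⟩ := hAb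
  obtain ⟨C₀, hCr⟩ := hCr
  obtain ⟨z₀, hMany⟩ := hMany
  obtain ⟨C₁, hBand⟩ := hBand
  set η := ε / 11 with hηdef
  have hη : 0 < η := by positivity
  set a₀ := 7000 * |C₀| + 3 with ha₀
  obtain ⟨W₀, hW⟩ := eventually_atTop.1
    ((tendsto_rpow_mul_exp_neg_mul_atTop_nhds_zero 1 (1 / 2) (by norm_num)).eventually_le_const hη)
  have hLev : ∀ᶠ L : ℝ in atTop, 4 ≤ L ∧ 10 * L ^ 85 ≤ Real.exp L ∧
      Real.exp (a₀ * L ^ 2 + 9 - min c (1 / 8) * L ^ 3) ≤ η ∧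
      Real.exp (0 * L ^ 2 + (1 + Cs) - 1 * L ^ 3) ≤ η ∧
      Real.exp (6561 * |C₀| * Real.log L ^ 2 + Real.log (640 * (|C₁| + 1)) - L / 5) * L ^ 4 ≤ η :=
    (eventually_ge_atTop 4).and <| (ev_pow 85 10).and <|
      (small _ _ _ _ (lt_min hc (by norm_num)) hη).and <|
      (small _ _ _ _ one_pos hη).and (small_band _ _ _ hη)
  have hZlim : Tendsto Zp atTop atTop :=
    (tendsto_pow_atTop (by norm_num : 80 ≠ 0)).comp Real.tendsto_log_atTop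
  filter_upwards [Real.tendsto_log_atTop.eventually hLev, hLong, hIn, hTop, hBand, hA,
    eventually_gt_atTop (1 : ℝ), eventually_ge_atTop (W₀ + 1),
    eventually_ge_atTop (2 + |Real.log η|), hZlim.eventually_ge_atTop (max z₀ e₀),
    eventually_ge_atTop (2 * e₀)]
    with l hL hLong hIn hTop hBand hA hl1 hlW hlη hZbig hle₀ y hy hyl
  obtain ⟨hL4, hLpow, hneg, hsm, hband⟩ := hL
  rw [Real.exp_log (by linarith : 0 < l)] at hLpow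
  have h : Setup l y := ⟨hL4, by linarith, hLpow, hy, hyl⟩
  have hAge := one_le_A h
  have hT := sum_Tot_top h hCr
  have hlow := sum_Tot_low h hCr
  have hL1 := h.one_le_L
  obtain ⟨hEab, hEhi, hE6, hE8⟩ := exponents (c := c) (C := C₀) hL1 (Real.log_nonneg hL1)
    ((Real.log_le_sub_one_of_pos (by linarith)).trans (by linarith))
  set R := Rng y with hR
  set w := y / Real.log y with hw
  set P0 := fun v : ℕ => 1 ≤ v ∧ (v : ℝ) ≤ √y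
  have c0 := count_low h hW hlW (R.filter P0) fun v hv => (mem_filter.1 hv).2
  set P1 := fun v : ℕ => v ∈ R ∧ 1 ≤ v ∧ ∀ s : ℕ, s.Prime → s ∣ v → cell s ≤ lvl l
  have c1 := count_smooth h hCs hsm (R.filter P1) fun v hv => (mem_filter.1 hv).2
  set P2 := fun v : ℕ => v ∈ R ∧ 1 ≤ v ∧ ∃ q : ℕ, q.Prime ∧ Zp l < X q ∧ q * (q - 1) ∣ v
  have c2 := count_square h hη hlη (R.filter P2) fun v hv => (mem_filter.1 hv).2
  set P3 := fun v : ℕ => v ∈ R ∧ 1 ≤ v ∧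
    ∃ k p p₀ b, Rep l v k p p₀ b ∧ (lvl l : ℝ) < X p₀ ∧ ¬Normal p₀
  have c3 := count_abnormal_top h hc hAbCount hle₀ hneg hT hEab (R.filter P3)
    fun v hv => (mem_filter.1 hv).2
  set P4 := fun v : ℕ => v ∈ R ∧ 1 ≤ v ∧
    ∃ k p p₀ b, Rep l v k p p₀ b ∧ (lvl l : ℝ) < X p₀ ∧ ∃ i, ¬Normal (p i)
  have c4 := count_abnormal_high h hc hAbSum (le_of_max_le_right hZbig) hneg hT hEab
    (R.filter P4) fun v hv => (mem_filter.1 hv).2
  set P5 := fun v : ℕ => v ∈ R ∧ 1 ≤ v ∧ ∃ k p p₀ b, Good l v k p p₀ b ∧ Kp l < k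
  have c5 := count_long h hneg hLong hlow hEhi (R.filter P5) fun v hv => (mem_filter.1 hv).2
  set P6 := fun v : ℕ => v ∈ R ∧ 1 ≤ v ∧ ∃ k p p₀ b, Good l v k p p₀ b ∧
    Bp l < (ArithmeticFunction.cardFactors b.totient : ℝ)
  have c6 := count_many h hneg (hMany _ _) (le_of_max_le_left hZbig) hT
    hE6 (R.filter P6) fun v hv => (mem_filter.1 hv).2
  set P7 := fun v : ℕ => v ∈ R ∧ 1 ≤ v ∧ ∃ k p p₀ b, Good l v k p p₀ b ∧
    k ≤ Kp l ∧ ¬Inner (fun i => X (p i)) (eta l)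
  have c7 := count_inner h hneg hIn hlow hEhi (R.filter P7) fun v hv => (mem_filter.1 hv).2
  set P8 := fun v : ℕ => v ∈ R ∧ 1 ≤ v ∧ ∃ k p p₀ b, Good l v k p p₀ b ∧
    k ≤ Kp l ∧ (1 + del l) * l < hvec (fun i => X (p i))
  have c8 := count_topfail h hneg (hTop y hy hyl) hE8 (R.filter P8)
    fun v hv => (mem_filter.1 hv).2
  set P9 := fun v : ℕ => v ∈ R ∧ 1 ≤ v ∧ √y < (v : ℝ) ∧ ∃ k p p₀ b, Good l v k p p₀ b ∧
    k ≤ Kp l ∧ (ArithmeticFunction.cardFactors b.totient : ℝ) ≤ Bp l ∧ p ∈ bandCfg l k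
  have c9 := count_band h hlow hBand hA hAge hband (R.filter P9) fun v hv => (mem_filter.1 hv).2
  set M := (MF l).biUnion fun m =>
    ((range (⌊y / m + 1⌋₊ + 1)).filter Nat.Prime).image fun p => (p - 1) * m with hM
  have cM : (M.card : ℝ) ≤ ∑ m ∈ MF l, (Nat.primeCounting ⌊y / m + 1⌋₊ : ℝ) := by
    rw [← Nat.cast_sum, Nat.cast_le]
    refine card_biUnion_le.trans (sum_le_sum fun m _ => card_image_le.trans (le_of_eq ?_))
    rw [Nat.primeCounting, ← Nat.primesBelow_card_eq_primeCounting']; rfl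
  have hV' : (V y : ℝ) ≤ (M.card : ℝ) + (R.filter P0).card + (R.filter P1).card +
      (R.filter P2).card + (R.filter P3).card + (R.filter P4).card + (R.filter P5).card +
      (R.filter P6).card + (R.filter P7).card + (R.filter P8).card + (R.filter P9).card := by
    refine card_cover _ _ _ _ _ _ _ _ _ _ _ _ fun v hv => ?_
    obtain ⟨hvy, n, hn, hnv⟩ := hv
    have hvR : v ∈ R := mem_range.2 (Nat.lt_succ_of_le (Nat.le_floor hvy))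
    refine Or.imp ?_ (Or.imp ?_ (Or.imp ?_ (Or.imp ?_ (Or.imp ?_ (Or.imp ?_ (Or.imp ?_
      (Or.imp ?_ (Or.imp ?_ (Or.imp ?_ ?_))))))))) (classify h hvy hn hnv)
    · rintro ⟨m, hm, p, hp, he⟩
      exact mem_biUnion.2 ⟨m, hm, mem_image.2 ⟨p, hp, he⟩⟩
    all_goals exact fun h' => mem_filter.2 ⟨hvR, h'⟩
  refine hV'.trans ?_
  have hw0 : 0 < w := div_pos h.y_pos h.log_y_pos
  have h11 : η * w ≤ η * w * A l := le_mul_of_one_le_right (by positivity) hAge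
  have : η * w * A l * 11 = ε * w * A l := by rw [hηdef]; ring
  have : 0 ≤ η * w * A l := by linarith [mul_pos hη hw0]
  linarith

end Vale.Agent.P031
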