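import Vale.Agent.P031.Targets
import Vale.Agent.P031.Basic
import Mathlib.NumberTheory.Chebyshev
import Mathlib.Analysis.SpecialFunctions.Exp
import Mathlib.Analysis.Complex.ExponentialBounds
import Mathlib.Analysis.SpecialFunctions.Pow.Asymptotics

/-!
# P031 Q2: tools for the upper bound
-/

namespace Vale.Agent.P031

open Finset Filter
open scoped Topology

namespace UpperAux

lemma sum_exp_le_two (e : ℕ) : ∑ c ∈ Icc 1 e, Real.exp ((c : ℝ) - e) ≤ 2 := by
  induction e with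
  | zero => simp
  | succ e ih =>
    rw [Finset.sum_Icc_succ_top (by omega)]
    have h : ∀ c : ℕ, Real.exp ((c : ℝ) - (e + 1 : ℕ)) = Real.exp ((c : ℝ) - e) / Real.exp 1 := by
      intro c; rw [← Real.exp_sub]; push_cast; ring_nf
    simp only [h, ← Finset.sum_div, sub_self, Real.exp_zero]
    have h2 := Real.exp_one_gt_d9
    have : (∑ c ∈ Icc 1 e, Real.exp ((c : ℝ) - e)) / Real.exp 1 ≤ 1 := by
      rw [div_le_one (by linarith)]; linarith
    linarith

lemma exp_le_one_add {x : ℝ} (h0 : 0 ≤ x) (h1 : x ≤ 1) : Real.exp x ≤ 1 + 2 * x := by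
  have := Real.abs_exp_sub_one_le (x := x) (by rwa [abs_of_nonneg h0])
  rw [abs_of_nonneg h0] at this
  linarith [le_abs_self (Real.exp x - 1)]

lemma exp_log_le_wt (e : ℕ) (L : List ℕ) (hL : ∀ s ∈ L, 2 ≤ s) :
    Real.exp (Real.exp (-(e : ℝ)) * Real.log (L.prod : ℕ)) ≤
      (L.map fun s => Real.exp (Real.exp ((cell s : ℝ) - e))).prod := by
  induction L with
  | nil => simp
  | cons s L ih =>
    have hs : 2 ≤ s := hL s (by simp)
    have hL' : ∀ t ∈ L, 2 ≤ t := fun t ht => hL t (by simp [ht])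
    have hp : (L.prod : ℕ) ≠ 0 := by
      intro h; have := List.prod_eq_zero_iff.1 h; have := hL' 0 this; omega
    simp only [List.prod_cons, List.map_cons, Nat.cast_mul]
    rw [Real.log_mul (by exact_mod_cast (by omega : s ≠ 0)) (by exact_mod_cast hp), mul_add,
      Real.exp_add]
    refine mul_le_mul ?_ (ih hL') (Real.exp_pos _).le (Real.exp_pos _).le
    refine Real.exp_le_exp.2 ?_
    rw [show (cell s : ℝ) - e = -(e : ℝ) + cell s by ring, Real.exp_add]
    gcongr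
    rw [← exp_X hs]; exact Real.exp_le_exp.2 (X_le_cell s)

/-- Rankin: few integers up to `y` have all prime factors in cells at most `e`. -/
lemma smooth_count (hEu : EulerTarget) : ∃ C : ℝ, ∀ e : ℕ, 2 ≤ e → ∀ y : ℝ, 1 ≤ y →
    ∀ S : Finset ℕ, (∀ v ∈ S, 1 ≤ v ∧ (v : ℝ) ≤ y ∧ ∀ s : ℕ, s.Prime → s ∣ v → cell s ≤ e) →
    (S.card : ℝ) ≤ y * Real.exp (-(Real.log y / Real.exp (e : ℝ)) + e + C) := by
  obtain ⟨C, -, hC⟩ := hEu
  refine ⟨4 + C * (1 + Real.exp 1 + Real.exp 1) ^ 2, fun e he y hy S hS => ?_⟩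
  set z : ℕ → ℝ := fun c => Real.exp (Real.exp ((c : ℝ) - e)) with hz
  set ε := Real.exp (-(e : ℝ)) with hε
  have zmono : Monotone z := fun a b h => by simp only [hz]; gcongr
  have zle : ∀ c ≤ e, z c ≤ Real.exp 1 := by
    intro c hc; simp only [hz]
    refine Real.exp_le_exp.2 (Real.exp_le_one_iff.2 ?_)
    have : (c : ℝ) ≤ e := by exact_mod_cast hc
    linarith
  have e2 : (2 : ℝ) ≤ e := by exact_mod_cast he
  have E := hC e z (Real.exp 1) (Real.exp 1) S (fun c => (Real.exp_pos _).le) zle ?_ ?_ ?_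
  rotate_left
  · rw [Finset.sum_congr rfl fun c _ => abs_of_nonneg (sub_nonneg.2 (zmono (Nat.le_succ c))),
      Finset.sum_range_sub]
    have := zle e le_rfl
    have : 0 ≤ z 0 := (Real.exp_pos _).le
    linarith
  · intro s hs hcs
    have h2 := Real.exp_one_lt_d9
    have h1 := Real.exp_one_gt_d9
    rcases Nat.lt_or_ge s 4 with h4 | h4
    · have hs2 := hs.two_le
      have small : ∀ j : ℕ, cell s ≤ j → (j : ℝ) ≤ e - 1 →
          z (cell s) ≤ 1 + 2 * Real.exp ((j : ℝ) - e) := by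
        intro j hj hje
        refine (zmono hj).trans (exp_le_one_add (Real.exp_pos _).le (Real.exp_le_one_iff.2 ?_))
        linarith
      interval_cases s
      · have hc : cell 2 ≤ 0 := by
          rw [cell, Nat.ceil_le]; simp only [X, Nat.cast_zero]
          refine Real.log_nonpos (Real.log_nonneg (by norm_num)) ?_
          have := Real.log_two_lt_d9; norm_num; linarith
        have := small 0 hc (by push_cast; linarith)
        refine this.trans ?_
        have h : Real.exp (((0 : ℕ) : ℝ) - e) ≤ Real.exp (-1) * Real.exp (-1) := by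
          rw [← Real.exp_add]; exact Real.exp_le_exp.2 (by push_cast; linarith)
        have h' : Real.exp (-1) ≤ 1 / 2 := by
          rw [Real.exp_neg, one_div]; exact inv_anti₀ (by norm_num) (by linarith)
        have := Real.exp_pos (-1 : ℝ)
        push_cast at h ⊢; nlinarith
      · have hc : cell 3 ≤ 1 := by
          rw [cell, Nat.ceil_le]; simp only [X, Nat.cast_one]
          rw [Real.log_le_iff_le_exp (Real.log_pos (by norm_num))]
          have h3 : Real.log (3 : ℝ) ≤ 2 := by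
            have := Real.log_le_sub_one_of_pos (x := (3 : ℝ)) (by norm_num); linarith
          push_cast; linarith
        have := small 1 hc (by push_cast; linarith)
        refine this.trans ?_
        have h' : Real.exp (((1 : ℕ) : ℝ) - e) ≤ 1 / 2 := by
          refine le_trans (Real.exp_le_exp.2 (show _ ≤ (-1 : ℝ) by push_cast; linarith)) ?_
          rw [Real.exp_neg, one_div]; exact inv_anti₀ (by norm_num) (by linarith)
        push_cast at h' ⊢; linarith
    · have := zle _ hcs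
      have : (4 : ℝ) ≤ s := by exact_mod_cast h4
      linarith
  · exact fun v hv => ⟨(hS v hv).1, (hS v hv).2.2⟩
  have zsum : ∑ c ∈ Icc 1 e, z c ≤ e + 4 := by
    calc ∑ c ∈ Icc 1 e, z c ≤ ∑ c ∈ Icc 1 e, (1 + 2 * Real.exp ((c : ℝ) - e)) := by
          refine sum_le_sum fun c hc => exp_le_one_add (Real.exp_pos _).le (Real.exp_le_one_iff.2 ?_)
          have : (c : ℝ) ≤ e := by exact_mod_cast (Finset.mem_Icc.1 hc).2
          linarith
      _ ≤ e + 4 := by
          rw [sum_add_distrib, ← mul_sum]; simp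
          have := sum_exp_le_two e; linarith
  have hy0 : 0 < y := by linarith
  have step : ∀ v ∈ S, (1 : ℝ) ≤ y * Real.exp (-(ε * Real.log y)) * (wt z v / v) := by
    intro v hv
    obtain ⟨hv1, hvy, -⟩ := hS v hv
    have hv0 : (0 : ℝ) < v := by exact_mod_cast hv1
    have hw : Real.exp (ε * Real.log v) ≤ wt z v := by
      have := exp_log_le_wt e v.primeFactorsList
        fun s hs => (Nat.prime_of_mem_primeFactorsList hs).two_le
      rwa [Nat.prod_primeFactorsList (by omega)] at this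
    have hl : Real.log v ≤ Real.log y := Real.log_le_log hv0 hvy
    have hε1 : ε ≤ 1 := Real.exp_le_one_iff.2 (by linarith)
    calc (1 : ℝ) = Real.exp 0 := (Real.exp_zero).symm
      _ ≤ Real.exp (Real.log y + -(ε * Real.log y) + (ε * Real.log v - Real.log v)) :=
          Real.exp_le_exp.2 (by nlinarith)
      _ = y * Real.exp (-(ε * Real.log y)) * (Real.exp (ε * Real.log v) / v) := by
          rw [Real.exp_add, Real.exp_add, Real.exp_sub, Real.exp_log hy0, Real.exp_log hv0]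
      _ ≤ _ := by gcongr
  calc (S.card : ℝ) = ∑ v ∈ S, (1 : ℝ) := by simp
    _ ≤ ∑ v ∈ S, y * Real.exp (-(ε * Real.log y)) * (wt z v / v) := sum_le_sum step
    _ = y * Real.exp (-(ε * Real.log y)) * ∑ v ∈ S, wt z v / v := (mul_sum _ _ _).symm
    _ ≤ y * Real.exp (-(ε * Real.log y)) *
        Real.exp (e + 4 + C * (1 + Real.exp 1 + Real.exp 1) ^ 2) := by
          gcongr; exact E.trans (Real.exp_le_exp.2 (by linarith))
    _ = _ := by
          rw [mul_assoc, ← Real.exp_add, hε, Real.exp_neg, div_eq_inv_mul]; ring_nf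

/-- Chebyshev's bound. -/
lemma primes_le_five {z : ℝ} (hz : 2 ≤ z) :
    (((range (⌊z⌋₊ + 1)).filter fun p : ℕ => p.Prime).card : ℝ) ≤ 5 * z / Real.log z := by
  have h := Chebyshev.pi_le_log4_mul_div (x := z) (by linarith)
  have e : (((range (⌊z⌋₊ + 1)).filter fun p : ℕ => p.Prime).card : ℝ) = Nat.primeCounting ⌊z⌋₊ := by
    rw [Nat.primeCounting, ← Nat.primesBelow_card_eq_primeCounting']; rfl
  rw [e]
  have h4 : Real.log 4 ≤ 3 / 2 := by
    rw [show (4 : ℝ) = 2 ^ 2 by norm_num, Real.log_pow]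
    have := Real.log_two_lt_d9; push_cast; linarith
  have hl : 0 < Real.log z := Real.log_pos (by linarith)
  have hs : Real.log z ≤ 2 * √z := by
    have := Real.log_le_sub_one_of_pos (Real.sqrt_pos.2 (by linarith : (0 : ℝ) < z))
    rw [Real.log_sqrt (by linarith)] at this; linarith
  rw [Real.log_sqrt (by linarith)] at h
  refine h.trans ?_
  rw [le_div_iff₀ hl, add_mul]
  have hz0 : Real.log 4 * z / (Real.log z / 2) * Real.log z = 2 * Real.log 4 * z := by
    field_simp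
  rw [hz0]
  nlinarith [Real.mul_self_sqrt (by linarith : (0 : ℝ) ≤ z),
    mul_le_mul_of_nonneg_left hs (Real.sqrt_nonneg z)]

/-- The number of values `(p - 1) m` with `m` in `U` and `p` a prime from a thin set. -/
lemma card_shifted_le {t y κ : ℝ} (ht : 0 < t) (hy : 0 ≤ y) (hκ : 0 ≤ κ) (P : ℕ → Prop)
    [DecidablePred P] (hP : ∀ z : ℝ, 2 ≤ z → t ≤ Real.log z →
      (((range (⌊z⌋₊ + 1)).filter fun p : ℕ => p.Prime ∧ P p).card : ℝ) ≤ κ * z / Real.log z)
    (U S : Finset ℕ)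
    (hS : ∀ v ∈ S, (v : ℝ) ≤ y ∧ ∃ m ∈ U, 1 ≤ m ∧
      ∃ p : ℕ, p.Prime ∧ P p ∧ t ≤ Real.log p ∧ v = (p - 1) * m) :
    (S.card : ℝ) ≤ 2 * κ * y / t * ∑ m ∈ U, (m : ℝ)⁻¹ := by
  set g : ℕ → Finset ℕ := fun m => (range (⌊y / m + 1⌋₊ + 1)).filter fun p : ℕ =>
    1 ≤ m ∧ p.Prime ∧ P p ∧ t ≤ Real.log p ∧ (((p - 1) * m : ℕ) : ℝ) ≤ y with hg
  have hsub : S ⊆ U.biUnion fun m => (g m).image fun p => (p - 1) * m := by
    intro v hv
    obtain ⟨hvy, m, hm, hm1, p, hp, hPp, hpt, rfl⟩ := hS v hv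
    refine mem_biUnion.2 ⟨m, hm, mem_image.2 ⟨p, ?_, rfl⟩⟩
    refine mem_filter.2 ⟨mem_range.2 (Nat.lt_succ_of_le (Nat.le_floor ?_)), hm1, hp, hPp, hpt, hvy⟩
    rw [Nat.cast_mul, Nat.cast_sub hp.one_le, Nat.cast_one] at hvy
    rw [← sub_le_iff_le_add, le_div_iff₀ (by exact_mod_cast hm1)]; exact hvy
  have each : ∀ m ∈ U, ((g m).card : ℝ) ≤ 2 * κ * y / t * (m : ℝ)⁻¹ := by
    intro m _
    rcases (g m).eq_empty_or_nonempty with h | ⟨p, hp⟩
    · rw [h]; simp; positivity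
    · obtain ⟨hpr, hm1, hpp, -, hpt, hpy⟩ := mem_filter.1 hp
      have hm0 : (0 : ℝ) < m := by exact_mod_cast hm1
      have hp2 : (2 : ℝ) ≤ p := by exact_mod_cast hpp.two_le
      have hpz : (p : ℝ) ≤ y / m + 1 :=
        le_trans (Nat.cast_le.2 (Nat.lt_succ_iff.1 (mem_range.1 hpr))) (Nat.floor_le (by positivity))
      have h1 : 1 ≤ y / m := by linarith
      have hz : t ≤ Real.log (y / m + 1) := hpt.trans (Real.log_le_log (by linarith) hpz)
      calc ((g m).card : ℝ)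
          ≤ (((range (⌊y / m + 1⌋₊ + 1)).filter fun q : ℕ => q.Prime ∧ P q).card : ℝ) := by
            gcongr; intro q hq; rw [hg, mem_filter] at hq
            exact mem_filter.2 ⟨hq.1, hq.2.2.1, hq.2.2.2.1⟩
        _ ≤ κ * (y / m + 1) / Real.log (y / m + 1) := hP _ (by linarith) hz
        _ ≤ κ * (2 * (y / m)) / t := by gcongr; linarith
        _ = _ := by ring
  calc (S.card : ℝ) ≤ ((∑ m ∈ U, (g m).card : ℕ) : ℝ) := by
        exact_mod_cast (card_le_card hsub).trans (card_biUnion_le.trans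
          (sum_le_sum fun m _ => card_image_le))
    _ ≤ _ := by rw [Nat.cast_sum, mul_sum]; exact sum_le_sum each

lemma sum_inv_mul_le (U W : Finset ℕ) :
    ∑ m ∈ (U ×ˢ W).image (fun t : ℕ × ℕ => t.1 * t.2), (m : ℝ)⁻¹ ≤
      (∑ u ∈ U, (u : ℝ)⁻¹) * ∑ w ∈ W, (w : ℝ)⁻¹ := by
  refine (sum_image_le_of_nonneg (f := fun m : ℕ => (m : ℝ)⁻¹) fun u _ => ?_).trans (le_of_eq ?_)
  · exact inv_nonneg.2 (Nat.cast_nonneg _)
  · rw [sum_mul_sum, sum_product]
    exact sum_congr rfl fun u _ => sum_congr rfl fun w _ => by simp only [Nat.cast_mul, mul_inv]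

/-- Few integers up to `y` are divisible by `q (q - 1)` for a prime `q > Q`. -/
lemma card_square_le {y : ℝ} (hy : 0 ≤ y) {Q : ℕ} (hQ : 2 ≤ Q) (S : Finset ℕ)
    (hS : ∀ v ∈ S, 1 ≤ v ∧ (v : ℝ) ≤ y ∧ ∃ q : ℕ, Q ≤ q ∧ q * (q - 1) ∣ v) :
    (S.card : ℝ) ≤ y / (Q - 1) := by
  set N := ⌊y⌋₊
  set g : ℕ → Finset ℕ := fun q => (Ioc 0 N).filter fun v => q * (q - 1) ∣ v
  have hsub : S ⊆ (Ico Q (Q + N + 1)).biUnion g := by
    intro v hv
    obtain ⟨hv1, hvy, q, hq, hd⟩ := hS v hv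
    have hvN : v ≤ N := Nat.le_floor hvy
    refine mem_biUnion.2 ⟨q, mem_Ico.2 ⟨hq, ?_⟩, mem_filter.2 ⟨mem_Ioc.2 ⟨hv1, hvN⟩, hd⟩⟩
    have h := Nat.le_of_dvd hv1 hd
    have : q ≤ q * (q - 1) := Nat.le_mul_of_pos_right q (by omega)
    omega
  have each : ∀ q ∈ Ico Q (Q + N + 1), ((g q).card : ℝ) ≤ y * (((q : ℝ) - 1)⁻¹ - (q : ℝ)⁻¹) := by
    intro q hq
    have hq2 : 2 ≤ q := hQ.trans (mem_Ico.1 hq).1
    have hq' : (2 : ℝ) ≤ q := by exact_mod_cast hq2
    rw [Nat.Ioc_filter_dvd_card_eq_div]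
    refine Nat.cast_div_le.trans ?_
    push_cast [Nat.cast_sub (by omega : 1 ≤ q)]
    have e : ((q : ℝ) - 1)⁻¹ - (q : ℝ)⁻¹ = 1 / ((q : ℝ) * (q - 1)) := by
      have h0 : (q : ℝ) ≠ 0 := by linarith
      have h1 : (q : ℝ) - 1 ≠ 0 := by linarith
      field_simp; ring
    rw [e, mul_one_div]
    gcongr
    · nlinarith
    · exact Nat.floor_le hy
  calc (S.card : ℝ) ≤ ((∑ q ∈ Ico Q (Q + N + 1), (g q).card : ℕ) : ℝ) := by
        exact_mod_cast (card_le_card hsub).trans card_biUnion_le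
    _ ≤ ∑ q ∈ Ico Q (Q + N + 1), y * (((q : ℝ) - 1)⁻¹ - (q : ℝ)⁻¹) := by
        rw [Nat.cast_sum]; exact sum_le_sum each
    _ ≤ y / (Q - 1) := by
        rw [← mul_sum, div_eq_mul_inv]
        refine mul_le_mul_of_nonneg_left ?_ hy
        have h := Finset.sum_Ico_sub (fun q : ℕ => -((q : ℝ) - 1)⁻¹) (show Q ≤ Q + N + 1 by omega)
        have e : ∀ q : ℕ, ((q : ℝ) - 1)⁻¹ - (q : ℝ)⁻¹ =
            -(((q + 1 : ℕ) : ℝ) - 1)⁻¹ - -((q : ℝ) - 1)⁻¹ := by
          intro q; push_cast; ring_nf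
        rw [sum_congr rfl fun q _ => e q, h]
        have : (1 : ℝ) ≤ ((Q + N + 1 : ℕ) : ℝ) := by exact_mod_cast (by omega : 1 ≤ Q + N + 1)
        have : (0 : ℝ) ≤ (((Q + N + 1 : ℕ) : ℝ) - 1)⁻¹ := inv_nonneg.2 (by linarith)
        linarith

lemma totient_prod_mul (S : Finset ℕ) (b : ℕ) (hS : ∀ s ∈ S, s.Prime ∧ ¬s ∣ b) :
    ((∏ s ∈ S, s) * b).totient = (∏ s ∈ S, (s - 1)) * b.totient := by
  induction S using Finset.induction_on with
  | empty => simp
  | insert a s ha ih =>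
    obtain ⟨hpa, hab⟩ := hS a (mem_insert_self a s)
    have hc : Nat.Coprime a ((∏ x ∈ s, x) * b) := by
      refine Nat.Coprime.mul_right (Nat.Coprime.prod_right fun x hx => ?_)
        (hpa.coprime_iff_not_dvd.2 hab)
      exact (Nat.coprime_primes hpa (hS x (mem_insert_of_mem hx)).1).2 fun h => ha (h ▸ hx)
    rw [prod_insert ha, prod_insert ha, mul_assoc, Nat.totient_mul hc, Nat.totient_prime hpa,
      ih fun x hx => hS x (mem_insert_of_mem hx), mul_assoc]

lemma exists_le_of_dvd_totient {b s : ℕ} (hb : 1 ≤ b) (hs : s.Prime) (h : s ∣ b.totient) :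
    ∃ r : ℕ, r.Prime ∧ r ∣ b ∧ s ≤ r := by
  rw [Nat.totient_eq_prod_factorization (by omega), Finsupp.prod] at h
  obtain ⟨r, hr, hd⟩ := hs.prime.exists_mem_finset_dvd h
  rw [Nat.support_factorization] at hr
  obtain ⟨hrp, hrd, -⟩ := Nat.mem_primeFactors.1 hr
  refine ⟨r, hrp, hrd, ?_⟩
  rcases hs.dvd_mul.1 hd with h' | h'
  · exact Nat.le_of_dvd hrp.pos (hs.dvd_of_dvd_pow h')
  · have h1 := Nat.le_of_dvd (by have := hrp.two_le; omega) h'
    omega

lemma log_le_cardFactors {u : ℕ} (hu : 1 ≤ u) {Z : ℝ}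
    (h : ∀ s : ℕ, s.Prime → s ∣ u → X s ≤ Z) :
    Real.log u ≤ (ArithmeticFunction.cardFactors u : ℝ) * Real.exp Z := by
  have key : ∀ L : List ℕ, (∀ s ∈ L, 2 ≤ s ∧ X s ≤ Z) →
      Real.log (L.prod : ℕ) ≤ (L.length : ℝ) * Real.exp Z := by
    intro L
    induction L with
    | nil => simp
    | cons s L ih =>
      intro hL
      obtain ⟨hs, hsX⟩ := hL s (by simp)
      have hL' : ∀ t ∈ L, 2 ≤ t ∧ X t ≤ Z := fun t ht => hL t (by simp [ht])
      have hp : (L.prod : ℕ) ≠ 0 := by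
        intro h0; have := (hL' 0 (List.prod_eq_zero_iff.1 h0)).1; omega
      simp only [List.prod_cons, List.length_cons, Nat.cast_mul, Nat.cast_add, Nat.cast_one]
      rw [Real.log_mul (by exact_mod_cast (by omega : s ≠ 0)) (by exact_mod_cast hp), ← exp_X hs,
        add_one_mul]
      linarith [ih hL', Real.exp_le_exp.2 hsX]
  have := key u.primeFactorsList fun s hs =>
    ⟨(Nat.prime_of_mem_primeFactorsList hs).two_le,
      h s (Nat.prime_of_mem_primeFactorsList hs) (Nat.dvd_of_mem_primeFactorsList hs)⟩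
  rwa [Nat.prod_primeFactorsList (by omega), ← ArithmeticFunction.cardFactors_apply] at this

/-- A totient is divisible by `q (q - 1)` with `q` high, or comes from distinct high primes
and a low part. -/
lemma decomp {n : ℕ} (hn : 1 ≤ n) (Z : ℝ) :
    (∃ q : ℕ, q.Prime ∧ Z < X q ∧ q * (q - 1) ∣ n.totient) ∨
    ∃ b : ℕ, 1 ≤ b ∧ (∀ s : ℕ, s.Prime → s ∣ b → X s ≤ Z) ∧
      ∃ k : ℕ, ∃ p : Fin k → ℕ, StrictAnti p ∧ (∀ i, (p i).Prime ∧ Z < X (p i)) ∧
        n.totient = (∏ i, (p i - 1)) * b.totient := by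
  classical
  by_cases hsq : ∃ q : ℕ, q.Prime ∧ Z < X q ∧ q * q ∣ n
  · obtain ⟨q, hq, hZ, hd⟩ := hsq
    refine Or.inl ⟨q, hq, hZ, ?_⟩
    have h := Nat.totient_dvd_of_dvd hd
    rwa [← sq, Nat.totient_prime_pow hq (by norm_num), pow_one] at h
  right
  set S := n.primeFactors.filter fun q => Z < X q with hS
  have hSn : (∏ s ∈ S, s) ∣ n :=
    (prod_dvd_prod_of_subset _ _ _ (filter_subset _ _)).trans (Nat.prod_primeFactors_dvd n)
  obtain ⟨b, hb⟩ := hSn
  have hb1 : 1 ≤ b := by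
    rcases Nat.eq_zero_or_pos b with h | h
    · rw [h, mul_zero] at hb; omega
    · exact h
  have hnot : ∀ s ∈ S, s.Prime ∧ ¬s ∣ b := by
    intro s hs
    obtain ⟨hp, hZ⟩ := mem_filter.1 hs
    refine ⟨Nat.prime_of_mem_primeFactors hp, fun hsb => hsq
      ⟨s, Nat.prime_of_mem_primeFactors hp, hZ, ?_⟩⟩
    exact (mul_dvd_mul (dvd_prod_of_mem (fun x => x) hs) hsb).trans (hb ▸ dvd_rfl)
  refine ⟨b, hb1, ?_, S.card, fun i => S.orderEmbOfFin rfl (Fin.rev i), ?_, ?_, ?_⟩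
  · intro s hs hsb
    by_contra hX
    have hsn : s ∣ n := hsb.trans (hb ▸ dvd_mul_left b _)
    exact (hnot s (mem_filter.2 ⟨Nat.mem_primeFactors.2 ⟨hs, hsn, by omega⟩, not_le.1 hX⟩)).2 hsb
  · exact fun i j hij => (S.orderEmbOfFin rfl).strictMono (Fin.rev_lt_rev.2 hij)
  · intro i
    have hm := S.orderEmbOfFin_mem rfl (Fin.rev i)
    exact ⟨(hnot _ hm).1, (mem_filter.1 hm).2⟩
  · have h1 : (∏ i, (S.orderEmbOfFin rfl (Fin.rev i) - 1)) = ∏ s ∈ S, (s - 1) := by
      conv_rhs => rw [← S.map_orderEmbOfFin_univ rfl, prod_map]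
      exact Fintype.prod_equiv Fin.revPerm _ _ fun i => rfl
    rw [h1, hb, totient_prod_mul S b hnot]

/-- The limit used for every negligible term. -/
lemma small (a b c η : ℝ) (hc : 0 < c) (hη : 0 < η) :
    ∀ᶠ L : ℝ in atTop, Real.exp (a * L ^ 2 + b - c * L ^ 3) ≤ η := by
  filter_upwards [eventually_ge_atTop (max 1 ((|a| + |b| + |Real.log η|) / c))] with L hL
  have h1 : 1 ≤ L := le_of_max_le_left hL
  have h2 : |a| + |b| + |Real.log η| ≤ c * L := by
    have := le_of_max_le_right hL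
    rw [div_le_iff₀ hc] at this; linarith
  rw [← Real.le_log_iff_exp_le hη]
  have hsq : (1 : ℝ) ≤ L ^ 2 := one_le_pow₀ h1
  nlinarith [mul_le_mul_of_nonneg_right (le_abs_self a) (sq_nonneg L), le_abs_self b,
    neg_abs_le (Real.log η), mul_le_mul_of_nonneg_left hsq (abs_nonneg b),
    mul_le_mul_of_nonneg_left hsq (abs_nonneg (Real.log η)),
    mul_le_mul_of_nonneg_right h2 (sq_nonneg L)]

end UpperAux

end Vale.Agent.P031
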