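import Vale.Agent.P031.UpperAux

/-!
# P031 Q2: the exceptional sets of the upper bound
-/

namespace Vale.Agent.P031.UpperAux

open Finset Filter
open scoped Topology

noncomputable section

/-- A totient value given by its top prime, the other high primes and the low part. -/
def Rep (l : ℝ) (v k : ℕ) (p : Fin k → ℕ) (p₀ b : ℕ) : Prop :=
  StrictAnti p ∧ (∀ i, (p i).Prime ∧ Zp l < X (p i) ∧ p i < p₀) ∧ p₀.Prime ∧ Zp l < X p₀ ∧
    1 ≤ b ∧ (∀ s : ℕ, s.Prime → s ∣ b → X s ≤ Zp l) ∧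
    v = (p₀ - 1) * ((∏ i, (p i - 1)) * b.totient)

/-- Values below this level are smooth. -/
def lvl (l : ℝ) : ℕ := ⌊l - 3 * Lg l - 2⌋₊

/-- The range of values. -/
def Rng (y : ℝ) : Finset ℕ := range (⌊y⌋₊ + 1)

open Classical in
/-- Totient values with all primes below `z`. -/
def Tot (y z : ℝ) : Finset ℕ :=
  (Rng y).filter fun u => ∃ b : ℕ, 1 ≤ b ∧ (∀ s : ℕ, s.Prime → s ∣ b → X s ≤ z) ∧ b.totient = u

/-- A representation by normal primes with a large top prime. -/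
def Good (l : ℝ) (v k : ℕ) (p : Fin k → ℕ) (p₀ b : ℕ) : Prop :=
  Rep l v k p p₀ b ∧ (lvl l : ℝ) < X p₀ ∧ Normal p₀ ∧ ∀ i, Normal (p i)

open Classical in
/-- Products of distinct high normal primes, less one each, with a property. -/
def Hi (l y : ℝ) (P : (k : ℕ) → (Fin k → ℕ) → Prop) : Finset ℕ :=
  (Rng y).filter fun u => ∃ k : ℕ, ∃ p : Fin k → ℕ,
    P k p ∧ StrictAnti p ∧ (∀ i, Normal (p i) ∧ Zp l < X (p i) ∧ X (p i) ≤ l + 2) ∧
    u = ∏ i, (p i - 1)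

/-- The numeric facts used in all counts. -/
structure Setup (l y : ℝ) : Prop where
  L4 : 4 ≤ Lg l
  lpos : 0 < l
  big : 10 * Lg l ^ 85 ≤ l
  y16 : 16 ≤ y
  close : |Real.log (Real.log y) - l| ≤ 1

lemma ev_pow (n : ℕ) (c : ℝ) : ∀ᶠ L : ℝ in atTop, c * L ^ n ≤ Real.exp L := by
  filter_upwards [(Real.tendsto_exp_div_pow_atTop n).eventually_ge_atTop c,
    eventually_gt_atTop 0] with L h hL
  rwa [le_div_iff₀ (pow_pos hL n)] at h

lemma small_band (a b η : ℝ) (hη : 0 < η) :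
    ∀ᶠ L : ℝ in atTop, Real.exp (a * Real.log L ^ 2 + b - L / 5) * L ^ 4 ≤ η := by
  have h1 := (Real.isLittleO_pow_log_id_atTop (n := 2)).def
    (show (0 : ℝ) < 1 / (10 * (|a| + 4)) by positivity)
  filter_upwards [h1, eventually_ge_atTop (max (Real.exp 1) (10 * (|b| + |Real.log η|)))]
    with L h hL
  have hLe : Real.exp 1 ≤ L := le_of_max_le_left hL
  have hL0 : 0 < L := lt_of_lt_of_le (Real.exp_pos 1) hLe
  have hlog : 1 ≤ Real.log L := by rwa [Real.le_log_iff_exp_le hL0]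
  rw [id, Real.norm_of_nonneg (sq_nonneg _), Real.norm_of_nonneg hL0.le, div_mul_eq_mul_div,
    one_mul, le_div_iff₀ (by positivity)] at h
  have h2 : 10 * (|b| + |Real.log η|) ≤ L := le_of_max_le_right hL
  rw [← Real.exp_log (pow_pos hL0 4), ← Real.exp_add, ← Real.le_log_iff_exp_le hη, Real.log_pow]
  push_cast
  nlinarith [mul_le_mul_of_nonneg_right (le_abs_self a) (sq_nonneg (Real.log L)), le_abs_self b,
    neg_abs_le (Real.log η), mul_le_mul_of_nonneg_left hlog (by linarith : (0 : ℝ) ≤ Real.log L)]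

variable {l y : ℝ}

lemma Setup.one_le_L (h : Setup l y) : 1 ≤ Lg l := by linarith [h.L4]

lemma Setup.exp_L (h : Setup l y) : Real.exp (Lg l) = l := Real.exp_log h.lpos

lemma Setup.pow_mono (h : Setup l y) {i j : ℕ} (hij : i ≤ j) : Lg l ^ i ≤ Lg l ^ j :=
  pow_le_pow_right₀ h.one_le_L hij

lemma Setup.one_le_Z (h : Setup l y) : 1 ≤ Zp l := one_le_pow₀ h.one_le_L

lemma Setup.Bp_eq (_h : Setup l y) : Bp l = Lg l ^ 85 := by rw [Bp, Zp]; ring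

lemma Setup.L_le (h : Setup l y) : Lg l ≤ Lg l ^ 85 := by
  simpa using h.pow_mono (show 1 ≤ 85 by norm_num)

lemma Setup.l4 (h : Setup l y) : 4 ≤ l := by linarith [h.big, h.L_le, h.L4]

lemma Setup.Z_le (h : Setup l y) : 10 * Zp l ≤ l := by
  have := h.pow_mono (show 80 ≤ 85 by norm_num)
  rw [Zp]; linarith [h.big]

lemma Setup.lvl_le (h : Setup l y) : (lvl l : ℝ) ≤ l - 3 * Lg l - 2 :=
  Nat.floor_le (by linarith [h.big, h.L_le, h.L4])

lemma Setup.le_lvl (_h : Setup l y) : l - 3 * Lg l - 3 ≤ (lvl l : ℝ) := by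
  have := Nat.lt_floor_add_one (l - 3 * Lg l - 2); rw [lvl]; linarith

lemma Setup.half_le_lvl (h : Setup l y) : l / 2 ≤ (lvl l : ℝ) := by
  linarith [h.le_lvl, h.big, h.L_le, h.L4]

lemma Setup.Z_le_lvl (h : Setup l y) : Zp l ≤ (lvl l : ℝ) := by
  linarith [h.half_le_lvl, h.Z_le, h.one_le_Z]

lemma Setup.two_le_lvl (h : Setup l y) : 2 ≤ lvl l := by
  have : (2 : ℝ) ≤ (lvl l : ℝ) := by linarith [h.half_le_lvl, h.l4]
  exact_mod_cast this

lemma Setup.del_eq (h : Setup l y) : del l = Real.exp (-(Lg l / 5)) := by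
  rw [del, Real.rpow_def_of_pos h.lpos, Lg]; congr 1; ring

lemma Setup.del_pos (h : Setup l y) : 0 < del l := h.del_eq ▸ Real.exp_pos _

lemma Setup.del_le (h : Setup l y) : del l ≤ 1 / 2 := by
  rw [h.del_eq, Real.exp_neg, one_div]
  refine inv_anti₀ (by norm_num) ?_
  have := Real.quadratic_le_exp_of_nonneg (show (0 : ℝ) ≤ Lg l / 5 by linarith [h.L4])
  nlinarith [h.L4]

lemma Setup.add_two_le (h : Setup l y) : l + 2 ≤ (1 + del l) * l := by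
  have h1 : del l * l = Real.exp (4 * Lg l / 5) := by
    nth_rw 2 [← h.exp_L]
    rw [h.del_eq, ← Real.exp_add]; ring_nf
  have := Real.add_one_le_exp (4 * Lg l / 5)
  linarith [h.L4]

lemma Setup.y_pos (h : Setup l y) : 0 < y := by linarith [h.y16]

lemma Setup.log_y_pos (h : Setup l y) : 0 < Real.log y := Real.log_pos (by linarith [h.y16])

lemma Setup.log_y_le (h : Setup l y) : Real.log y ≤ Real.exp (l + 1) := by
  rw [← Real.exp_log h.log_y_pos]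
  exact Real.exp_le_exp.2 (by linarith [(abs_le.1 h.close).2])

lemma Setup.le_log_y (h : Setup l y) : Real.exp (l - 1) ≤ Real.log y := by
  rw [← Real.exp_log h.log_y_pos]
  exact Real.exp_le_exp.2 (by linarith [(abs_le.1 h.close).1])

lemma Setup.toW (h : Setup l y) {η f : ℝ} (hf : Real.log y * f ≤ η) :
    y * f ≤ η * (y / Real.log y) := by
  have hl := h.log_y_pos
  rw [show y * f = y / Real.log y * (Real.log y * f) by field_simp, mul_comm η]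
  exact mul_le_mul_of_nonneg_left hf (div_pos h.y_pos hl).le

lemma le_of_mem_Rng (h : Setup l y) {v : ℕ} (hv : v ∈ Rng y) : (v : ℝ) ≤ y :=
  le_trans (Nat.cast_le.2 (Nat.lt_succ_iff.1 (mem_range.1 hv))) (Nat.floor_le h.y_pos.le)

lemma mem_Rng_of_dvd {u v : ℕ} (hv : v ∈ Rng y) (h1 : 1 ≤ v) (hd : u ∣ v) : u ∈ Rng y :=
  mem_range.2 (lt_of_le_of_lt (Nat.le_of_dvd h1 hd) (mem_range.1 hv))

lemma Rep.pos {v k : ℕ} {p : Fin k → ℕ} {p₀ b : ℕ} (hr : Rep l v k p p₀ b) (h1 : 1 ≤ v) :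
    1 ≤ (∏ i, (p i - 1)) * b.totient := by
  refine Nat.pos_of_ne_zero fun h0 => ?_
  have := hr.2.2.2.2.2.2
  rw [h0, mul_zero] at this; omega

lemma Rep.X_le (h : Setup l y) {v k : ℕ} {p : Fin k → ℕ} {p₀ b : ℕ} (hr : Rep l v k p p₀ b)
    (hv : v ∈ Rng y) (h1 : 1 ≤ v) : X p₀ ≤ l + 2 ∧ ∀ i, X (p i) ≤ l + 2 := by
  obtain ⟨-, hpi, hp₀, -, -, -, hveq⟩ := hr
  have hd : p₀ - 1 ≤ v := Nat.le_of_dvd h1 (hveq ▸ dvd_mul_right _ _)
  have hle : (p₀ : ℝ) ≤ y ^ 2 := by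
    have : (p₀ : ℝ) ≤ (v : ℝ) + 1 := by exact_mod_cast (show p₀ ≤ v + 1 by omega)
    nlinarith [le_of_mem_Rng h hv, h.y16]
  have hX : X p₀ ≤ l + 2 := by
    calc X p₀ ≤ Real.log (Real.log (y ^ 2)) :=
          Real.log_le_log (log_pos_of_two_le hp₀.two_le)
            (Real.log_le_log (by exact_mod_cast hp₀.pos) hle)
      _ = Real.log 2 + Real.log (Real.log y) := by
          rw [Real.log_pow, Real.log_mul (by norm_num) h.log_y_pos.ne']; push_cast; rfl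
      _ ≤ l + 2 := by linarith [(abs_le.1 h.close).2, Real.log_two_lt_d9]
  exact ⟨hX, fun i => (X_mono (hpi i).1.two_le (hpi i).2.2.le).trans hX⟩

lemma totient_small {Z : ℝ} {b s : ℕ} (hb : 1 ≤ b) (hZ : ∀ r : ℕ, r.Prime → r ∣ b → X r ≤ Z)
    (hs : s.Prime) (h : s ∣ b.totient) : X s ≤ Z := by
  obtain ⟨r, hr, hrb, hsr⟩ := exists_le_of_dvd_totient hb hs h
  exact (X_mono hs.two_le hsr).trans (hZ r hr hrb)

lemma high_totient {k : ℕ} (p : Fin k → ℕ) (hinj : Function.Injective p) {Z Bd : ℝ}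
    (hp : ∀ i, (p i).Prime ∧ Z < X (p i) ∧ X (p i) ≤ Bd) {b : ℕ} (hb : 1 ≤ b)
    (hbZ : ∀ s : ℕ, s.Prime → s ∣ b → X s ≤ Z) (hZ : Z ≤ Bd) (S : Finset (Fin k)) :
    ∃ n : ℕ, 1 ≤ n ∧ (∀ s : ℕ, s.Prime → s ∣ n → X s ≤ Bd) ∧
      n.totient = (∏ i ∈ S, (p i - 1)) * b.totient := by
  refine ⟨(∏ s ∈ S.image p, s) * b, ?_, ?_, ?_⟩
  · refine Nat.mul_pos (prod_pos fun s hs => ?_) hb
    obtain ⟨i, -, rfl⟩ := mem_image.1 hs
    exact (hp i).1.pos
  · intro s hs hd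
    rcases hs.dvd_mul.1 hd with h | h
    · obtain ⟨r, hr, hsr⟩ := hs.prime.exists_mem_finset_dvd h
      obtain ⟨i, -, rfl⟩ := mem_image.1 hr
      rw [(Nat.prime_dvd_prime_iff_eq hs (hp i).1).1 hsr]
      exact (hp i).2.2
    · exact (hbZ s hs h).trans hZ
  · rw [totient_prod_mul, prod_image fun i _ j _ h => hinj h]
    intro s hs
    obtain ⟨i, -, rfl⟩ := mem_image.1 hs
    exact ⟨(hp i).1, fun h => (hbZ _ (hp i).1 h).not_gt (hp i).2.1⟩

lemma mem_window {a b : ℝ} {q : ℕ} (hq : q.Prime) (ha : a < X q) (hb : X q ≤ b) :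
    q ∈ window a b := by
  refine mem_filter.2 ⟨mem_range.2 (Nat.lt_succ_of_le (Nat.le_floor ?_)), hq, ha, hb⟩
  rw [← Real.exp_log (by exact_mod_cast hq.pos : (0 : ℝ) < q), ← exp_X hq.two_le]
  exact Real.exp_le_exp.2 (Real.exp_le_exp.2 hb)

lemma Good.mem (h : Setup l y) {v k : ℕ} {p : Fin k → ℕ} {p₀ b : ℕ} (hg : Good l v k p p₀ b)
    {P : (k : ℕ) → (Fin k → ℕ) → Prop} (hP : P k p) (hv : v ∈ Rng y) (h1 : 1 ≤ v) :
    (∏ i, (p i - 1)) ∈ Hi l y P ∧ b.totient ∈ Tot y (Zp l) ∧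
      (∏ i, (p i - 1)) ∈ Tot y (l + 2) := by
  obtain ⟨hrep, -, -, hnor⟩ := hg
  obtain ⟨hXp₀, hXp⟩ := hrep.X_le h hv h1
  obtain ⟨han, hpi, hp₀, hZ₀, hb1, hbZ, hveq⟩ := hrep
  obtain ⟨n, hn1, hnX, hntot⟩ := high_totient p han.injective
    (fun i => ⟨(hpi i).1, (hpi i).2.1, hXp i⟩) (le_refl 1)
    (fun s hs hd => absurd (Nat.dvd_one.1 hd) hs.ne_one) (hZ₀.le.trans hXp₀) univ
  rw [Nat.totient_one, mul_one] at hntot
  have hd1 : (∏ i, (p i - 1)) ∣ v := hveq ▸ (dvd_mul_right _ _).mul_left _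
  have hd2 : b.totient ∣ v := hveq ▸ (dvd_mul_left _ _).mul_left _
  classical
  exact ⟨mem_filter.2 ⟨mem_Rng_of_dvd hv h1 hd1, k, p, hP, han,
    fun i => ⟨hnor i, (hpi i).2.1, hXp i⟩, rfl⟩,
    mem_filter.2 ⟨mem_Rng_of_dvd hv h1 hd2, b, hb1, hbZ, rfl⟩,
    mem_filter.2 ⟨mem_Rng_of_dvd hv h1 hd1, n, hn1, hnX, hntot⟩⟩

/-! ### The sums over totient values -/

lemma sum_Tot_top (h : Setup l y) {C₀ : ℝ}
    (hCr : ∀ (z : ℝ) (U : Finset ℕ), 1 ≤ z →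
      (∀ u ∈ U, ∃ b : ℕ, 1 ≤ b ∧ (∀ s : ℕ, s.Prime → s ∣ b → X s ≤ z) ∧ b.totient = u) →
      ∑ u ∈ U, (u : ℝ)⁻¹ ≤ Real.exp (C₀ * Real.log (z + 2) ^ 2)) :
    ∑ u ∈ Tot y (l + 2), (u : ℝ)⁻¹ ≤ Real.exp (|C₀| * (4 * Lg l ^ 2)) := by
  classical
  refine (hCr (l + 2) _ (by linarith [h.l4]) fun u hu => (mem_filter.1 hu).2).trans
    (Real.exp_le_exp.2 ?_)
  have h0 : 0 ≤ Real.log (l + 2 + 2) := Real.log_nonneg (by linarith [h.l4])
  have hlogl : Real.log (l + 2 + 2) ≤ 2 * Lg l := by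
    rw [show 2 * Lg l = Real.log (l ^ 2) by rw [Real.log_pow, Lg]; norm_num]
    exact Real.log_le_log (by linarith [h.l4]) (by nlinarith [h.l4])
  refine (mul_le_mul_of_nonneg_right (le_abs_self C₀) (sq_nonneg _)).trans
    (mul_le_mul_of_nonneg_left ?_ (abs_nonneg _))
  nlinarith

lemma sum_Tot_low (h : Setup l y) {C₀ : ℝ}
    (hCr : ∀ (z : ℝ) (U : Finset ℕ), 1 ≤ z →
      (∀ u ∈ U, ∃ b : ℕ, 1 ≤ b ∧ (∀ s : ℕ, s.Prime → s ∣ b → X s ≤ z) ∧ b.totient = u) →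
      ∑ u ∈ U, (u : ℝ)⁻¹ ≤ Real.exp (C₀ * Real.log (z + 2) ^ 2)) :
    ∑ u ∈ Tot y (Zp l), (u : ℝ)⁻¹ ≤ Real.exp (|C₀| * (6561 * Real.log (Lg l) ^ 2)) := by
  classical
  refine (hCr (Zp l) _ h.one_le_Z fun u hu => (mem_filter.1 hu).2).trans (Real.exp_le_exp.2 ?_)
  have h0 : 0 ≤ Real.log (Zp l + 2) := Real.log_nonneg (by linarith [h.one_le_Z])
  have hlogZ : Real.log (Zp l + 2) ≤ 81 * Real.log (Lg l) := by
    rw [show 81 * Real.log (Lg l) = Real.log (Lg l ^ 81) by rw [Real.log_pow]; norm_num]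
    refine Real.log_le_log (by linarith [h.one_le_Z]) ?_
    rw [Zp, pow_succ (Lg l) 80]
    nlinarith [one_le_pow₀ h.one_le_L (n := 80), h.L4]
  refine (mul_le_mul_of_nonneg_right (le_abs_self C₀) (sq_nonneg _)).trans
    (mul_le_mul_of_nonneg_left ?_ (abs_nonneg _))
  nlinarith

/-! ### The negligible sets -/

/-- What makes a set negligible: the exponent is at most `a L² + 9 - m L³`. -/
lemma negl (h : Setup l y) {a m η E S : ℝ}
    (hneg : Real.exp (a * Lg l ^ 2 + 9 - m * Lg l ^ 3) ≤ η) (hS0 : 0 ≤ S) (hSE : S ≤ Real.exp E)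
    (hE : E + 3 * Lg l ≤ a * Lg l ^ 2 - m * Lg l ^ 3) :
    2 * 5 * y / Real.exp (lvl l : ℝ) * S ≤ η * (y / Real.log y) := by
  have h10 : (2 * 5 : ℝ) ≤ Real.exp 5 := by
    have := Real.quadratic_le_exp_of_nonneg (show (0 : ℝ) ≤ 5 by norm_num); linarith
  rw [show 2 * 5 * y / Real.exp (lvl l : ℝ) * S = y * (2 * 5 * Real.exp (-(lvl l : ℝ)) * S) by
    rw [Real.exp_neg]; ring]
  refine h.toW (le_trans ?_ hneg)
  calc Real.log y * (2 * 5 * Real.exp (-(lvl l : ℝ)) * S)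
      ≤ Real.exp (l + 1) * (Real.exp 5 * Real.exp (-(lvl l : ℝ)) * Real.exp E) := by
        gcongr; exact h.log_y_le
    _ ≤ _ := by
        rw [← Real.exp_add, ← Real.exp_add, ← Real.exp_add]
        exact Real.exp_le_exp.2 (by linarith [h.le_lvl])

lemma exp_lvl_le_log {q : ℕ} (hq : q.Prime) (h : (lvl l : ℝ) < X q) :
    Real.exp (lvl l : ℝ) ≤ Real.log q :=
  (Real.exp_le_exp.2 h.le).trans_eq (exp_X hq.two_le)

lemma count_low (h : Setup l y) {η W₀ : ℝ}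
    (hW : ∀ x, W₀ ≤ x → x ^ (1 : ℝ) * Real.exp (-(1 / 2) * x) ≤ η) (hlW : W₀ + 1 ≤ l)
    (S : Finset ℕ) (hS : ∀ v ∈ S, 1 ≤ v ∧ (v : ℝ) ≤ √y) :
    (S.card : ℝ) ≤ η * (y / Real.log y) := by
  have hy0 := h.y_pos
  have hc : S.card ≤ ⌊√y⌋₊ := by
    refine (card_le_card (t := Icc 1 ⌊√y⌋₊) fun v hv => ?_).trans (by simp)
    exact mem_Icc.2 ⟨(hS v hv).1, Nat.le_floor (hS v hv).2⟩
  refine ((Nat.cast_le.2 hc).trans (Nat.floor_le (Real.sqrt_nonneg y))).trans ?_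
  have hw' := hW (Real.log y) (by linarith [Real.add_one_le_exp (l - 1), h.le_log_y])
  rw [Real.rpow_one] at hw'
  have e : Real.exp (-(1 / 2) * Real.log y) = (√y)⁻¹ := by
    rw [← Real.exp_log (Real.sqrt_pos.2 hy0), Real.log_sqrt hy0.le, ← Real.exp_neg]; ring_nf
  rw [e] at hw'
  have := h.toW hw'
  rwa [← div_eq_mul_inv, Real.div_sqrt] at this

lemma count_smooth (h : Setup l y) {η Cs : ℝ}
    (hCs : ∀ e : ℕ, 2 ≤ e → ∀ y : ℝ, 1 ≤ y →
      ∀ S : Finset ℕ, (∀ v ∈ S, 1 ≤ v ∧ (v : ℝ) ≤ y ∧ ∀ s : ℕ, s.Prime → s ∣ v → cell s ≤ e) →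
      (S.card : ℝ) ≤ y * Real.exp (-(Real.log y / Real.exp (e : ℝ)) + e + Cs))
    (hsm : Real.exp (0 * Lg l ^ 2 + (1 + Cs) - 1 * Lg l ^ 3) ≤ η)
    (S : Finset ℕ)
    (hS : ∀ v ∈ S, v ∈ Rng y ∧ 1 ≤ v ∧ ∀ s : ℕ, s.Prime → s ∣ v → cell s ≤ lvl l) :
    (S.card : ℝ) ≤ η * (y / Real.log y) := by
  refine (hCs (lvl l) h.two_le_lvl y (by linarith [h.y16]) S fun v hv =>
    ⟨(hS v hv).2.1, le_of_mem_Rng h (hS v hv).1, (hS v hv).2.2⟩).trans (h.toW ?_)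
  refine le_trans ?_ hsm
  have h1 : Real.exp (3 * Lg l + 1) ≤ Real.log y / Real.exp (lvl l : ℝ) := by
    rw [le_div_iff₀ (Real.exp_pos _), ← Real.exp_add]
    exact le_trans (Real.exp_le_exp.2 (by linarith [h.lvl_le])) h.le_log_y
  refine (mul_le_mul_of_nonneg_right h.log_y_le (Real.exp_pos _).le).trans ?_
  rw [← Real.exp_add]
  refine Real.exp_le_exp.2 ?_
  have h3 : l * (l * l) ≤ Real.exp (3 * Lg l + 1) := by
    rw [← h.exp_L, ← Real.exp_add, ← Real.exp_add, h.exp_L]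
    exact Real.exp_le_exp.2 (by linarith)
  have h4 := h.l4
  nlinarith [h.pow_mono (show 3 ≤ 85 by norm_num), h.big, h.lvl_le, h.L4,
    mul_le_mul h4 h4 (by norm_num) (by linarith)]

lemma count_square (h : Setup l y) {η : ℝ} (hη : 0 < η) (hlη : 2 + |Real.log η| ≤ l)
    (S : Finset ℕ)
    (hS : ∀ v ∈ S, v ∈ Rng y ∧ 1 ≤ v ∧ ∃ q : ℕ, q.Prime ∧ Zp l < X q ∧ q * (q - 1) ∣ v) :
    (S.card : ℝ) ≤ η * (y / Real.log y) := by
  set E := Real.exp (Zp l) with hEdef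
  set Q := ⌊Real.exp E⌋₊ + 1 with hQ
  have hexp2 : 2 ≤ Real.exp E := by
    linarith [Real.add_one_le_exp E, Real.add_one_le_exp (Zp l), h.one_le_Z]
  have hQ2 : 2 ≤ Q := by
    have : 1 ≤ ⌊Real.exp E⌋₊ := Nat.le_floor (by push_cast; linarith)
    omega
  refine (card_square_le h.y_pos.le hQ2 S fun v hv => ?_).trans ?_
  · obtain ⟨hvR, h1, q, hq, hZq, hd⟩ := hS v hv
    refine ⟨h1, le_of_mem_Rng h hvR, q, ?_, hd⟩
    have h' := Real.exp_lt_exp.2 (Real.exp_lt_exp.2 hZq)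
    rw [exp_X hq.two_le, Real.exp_log (by exact_mod_cast hq.pos)] at h'
    exact Nat.succ_le_of_lt ((Nat.floor_lt (Real.exp_pos _).le).2 h')
  · rw [hQ, Nat.cast_succ, add_sub_cancel_right, div_eq_mul_inv]
    refine h.toW ?_
    have hfl : Real.exp E / 2 ≤ (⌊Real.exp E⌋₊ : ℝ) := by
      linarith [Nat.lt_floor_add_one (Real.exp E)]
    rw [← div_eq_mul_inv, div_le_iff₀ (by linarith)]
    have hll : l * l ≤ E := by
      rw [← h.exp_L, ← Real.exp_add, hEdef]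
      refine Real.exp_le_exp.2 ?_
      rw [Zp]
      nlinarith [h.pow_mono (show 2 ≤ 80 by norm_num), h.L4]
    have key : Real.exp (l + 1) ≤ η * (Real.exp E / 2) := by
      have h' : Real.exp (l + 1) ≤ Real.exp (Real.log η + E + -1) := by
        refine Real.exp_le_exp.2 ?_
        nlinarith [neg_abs_le (Real.log η), h.l4]
      rw [Real.exp_add (Real.log η + E), Real.exp_add (Real.log η) E, Real.exp_log hη] at h'
      refine h'.trans ?_
      rw [mul_assoc]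
      refine mul_le_mul_of_nonneg_left ?_ hη.le
      rw [div_eq_mul_inv, Real.exp_neg]
      gcongr
      linarith [Real.exp_one_gt_d9]
    exact h.log_y_le.trans (key.trans (mul_le_mul_of_nonneg_left hfl hη.le))

open Classical in
lemma count_abnormal_top (h : Setup l y) {a m η c e₀ C₀ : ℝ} (hc : 0 < c)
    (hAbCount : ∀ P : ℝ, 16 ≤ P → e₀ ≤ Real.log (Real.log P) →
      (((range (⌊P⌋₊ + 1)).filter fun p : ℕ => p.Prime ∧ ¬Normal p).card : ℝ)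
        ≤ P / Real.log P * Real.exp (-(c * √(Real.log (Real.log P)))))
    (hle₀ : 2 * e₀ ≤ l)
    (hneg : Real.exp (a * Lg l ^ 2 + 9 - m * Lg l ^ 3) ≤ η)
    (hT : ∑ u ∈ Tot y (l + 2), (u : ℝ)⁻¹ ≤ Real.exp (|C₀| * (4 * Lg l ^ 2)))
    (hE : -(c * Lg l ^ 3) + |C₀| * (4 * Lg l ^ 2) + 3 * Lg l ≤ a * Lg l ^ 2 - m * Lg l ^ 3)
    (S : Finset ℕ)
    (hS : ∀ v ∈ S, v ∈ Rng y ∧ 1 ≤ v ∧
      ∃ k p p₀ b, Rep l v k p p₀ b ∧ (lvl l : ℝ) < X p₀ ∧ ¬Normal p₀) :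
    (S.card : ℝ) ≤ η * (y / Real.log y) := by
  have hsq : Lg l ^ 3 ≤ √(lvl l : ℝ) := by
    have := h.one_le_L
    rw [Real.le_sqrt (by positivity) (by positivity), ← pow_mul]
    linarith [h.pow_mono (show 3 * 2 ≤ 85 by norm_num), h.big, h.half_le_lvl,
      one_le_pow₀ h.one_le_L (n := 85)]
  set κ := Real.exp (-(c * Lg l ^ 3)) with hκ
  have hP : ∀ z : ℝ, 2 ≤ z → Real.exp (lvl l : ℝ) ≤ Real.log z →
      (((range (⌊z⌋₊ + 1)).filter fun p : ℕ => p.Prime ∧ ¬Normal p).card : ℝ)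
        ≤ κ * z / Real.log z := by
    intro z hz htz
    have hlz : 0 < Real.log z := Real.log_pos (by linarith)
    have h1 : (lvl l : ℝ) ≤ Real.log (Real.log z) := (Real.le_log_iff_exp_le hlz).2 htz
    have h16 : 16 ≤ z := by
      rw [← Real.log_le_log_iff (by norm_num) (by linarith), show (16 : ℝ) = 2 ^ 4 by norm_num,
        Real.log_pow]
      have := Real.log_two_lt_d9
      have := Real.add_one_le_exp (lvl l : ℝ)
      have : (2 : ℝ) ≤ (lvl l : ℝ) := by exact_mod_cast h.two_le_lvl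
      push_cast; linarith
    refine (hAbCount z h16 (by linarith [h.half_le_lvl])).trans ?_
    rw [mul_comm κ z, mul_div_right_comm]
    refine mul_le_mul_of_nonneg_left (Real.exp_le_exp.2 ?_) (by positivity)
    nlinarith [Real.sqrt_le_sqrt h1]
  refine (card_shifted_le (t := Real.exp (lvl l : ℝ)) (y := y) (κ := κ) (Real.exp_pos _) h.y_pos.le (Real.exp_pos _).le
    (fun p => ¬Normal p) hP (Tot y (l + 2)) S fun v hv => ?_).trans ?_
  · obtain ⟨hvR, h1, k, p, p₀, b, hrep, hX₀, hab⟩ := hS v hv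
    obtain ⟨hXp₀, hXp⟩ := hrep.X_le h hvR h1
    have hm1 := hrep.pos h1
    obtain ⟨han, hpi, hp₀, hZ₀, hb1, hbZ, hveq⟩ := hrep
    obtain ⟨n, hn1, hnX, hntot⟩ := high_totient p han.injective
      (fun i => ⟨(hpi i).1, (hpi i).2.1, hXp i⟩) hb1 hbZ (hZ₀.le.trans hXp₀) univ
    exact ⟨le_of_mem_Rng h hvR, _,
      mem_filter.2 ⟨mem_Rng_of_dvd hvR h1 (hveq ▸ dvd_mul_left _ _), n, hn1, hnX, hntot⟩,
      hm1, p₀, hp₀, hab, exp_lvl_le_log hp₀ hX₀, hveq⟩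
  · rw [show 2 * κ * y / Real.exp (lvl l : ℝ) * ∑ u ∈ Tot y (l + 2), (u : ℝ)⁻¹ =
      2 * 5 * y / Real.exp (lvl l : ℝ) * (κ / 5 * ∑ u ∈ Tot y (l + 2), (u : ℝ)⁻¹) by ring]
    refine negl h hneg (by positivity) ?_ hE
    rw [Real.exp_add, hκ]
    exact mul_le_mul (by linarith [Real.exp_pos (-(c * Lg l ^ 3))]) hT (by positivity)
      (Real.exp_pos _).le

open Classical in
lemma count_abnormal_high (h : Setup l y) {a m η c e₀ C₀ : ℝ} (hc : 0 < c)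
    (hAbSum : ∀ a b : ℝ, e₀ ≤ a →
      (∑ p ∈ window a b, if Normal p then 0 else ((p : ℝ) - 1)⁻¹) ≤ Real.exp (-(c * √a)))
    (hZe₀ : e₀ ≤ Zp l)
    (hneg : Real.exp (a * Lg l ^ 2 + 9 - m * Lg l ^ 3) ≤ η)
    (hT : ∑ u ∈ Tot y (l + 2), (u : ℝ)⁻¹ ≤ Real.exp (|C₀| * (4 * Lg l ^ 2)))
    (hE : -(c * Lg l ^ 3) + |C₀| * (4 * Lg l ^ 2) + 3 * Lg l ≤ a * Lg l ^ 2 - m * Lg l ^ 3)
    (S : Finset ℕ)
    (hS : ∀ v ∈ S, v ∈ Rng y ∧ 1 ≤ v ∧
      ∃ k p p₀ b, Rep l v k p p₀ b ∧ (lvl l : ℝ) < X p₀ ∧ ∃ i, ¬Normal (p i)) :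
    (S.card : ℝ) ≤ η * (y / Real.log y) := by
  set AP := ((window (Zp l) (l + 2)).filter fun q => ¬Normal q).image fun q => q - 1 with hAP
  have hsumAP : ∑ u ∈ AP, (u : ℝ)⁻¹ ≤ Real.exp (-(c * Lg l ^ 3)) := by
    refine (sum_image_le_of_nonneg (f := fun u : ℕ => (u : ℝ)⁻¹)
      fun u _ => inv_nonneg.2 (Nat.cast_nonneg u)).trans ?_
    have e : ∑ q ∈ (window (Zp l) (l + 2)).filter (fun q => ¬Normal q), ((q - 1 : ℕ) : ℝ)⁻¹ =
        ∑ q ∈ window (Zp l) (l + 2), if Normal q then 0 else ((q : ℝ) - 1)⁻¹ := by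
      rw [sum_filter]
      refine sum_congr rfl fun q hq => ?_
      simp only [ite_not]
      rw [Nat.cast_sub (mem_filter.1 hq).2.1.one_le, Nat.cast_one]
    rw [e]
    refine (hAbSum _ _ hZe₀).trans (Real.exp_le_exp.2 ?_)
    have : Lg l ^ 3 ≤ √(Zp l) := by
      have := h.one_le_L
      rw [Zp, Real.le_sqrt (by positivity) (by positivity), ← pow_mul]
      exact h.pow_mono (by norm_num)
    nlinarith
  refine (card_shifted_le (Real.exp_pos _) h.y_pos.le (by norm_num : (0 : ℝ) ≤ 5) (fun _ => True)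
    (fun z hz _ => (Nat.cast_le.2 (card_le_card fun q hq => mem_filter.2
      ⟨(mem_filter.1 hq).1, (mem_filter.1 hq).2.1⟩)).trans (primes_le_five hz))
    ((AP ×ˢ Tot y (l + 2)).image fun t : ℕ × ℕ => t.1 * t.2) S fun v hv => ?_).trans
    (negl h hneg (by positivity) ((sum_inv_mul_le AP _).trans ?_) hE)
  · obtain ⟨hvR, h1, k, p, p₀, b, hrep, hX₀, i, hab⟩ := hS v hv
    obtain ⟨hXp₀, hXp⟩ := hrep.X_le h hvR h1
    have hm1 := hrep.pos h1
    obtain ⟨han, hpi, hp₀, hZ₀, hb1, hbZ, hveq⟩ := hrep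
    obtain ⟨n, hn1, hnX, hntot⟩ := high_totient p han.injective
      (fun j => ⟨(hpi j).1, (hpi j).2.1, hXp j⟩) hb1 hbZ (hZ₀.le.trans hXp₀) (univ.erase i)
    have hmul : (∏ j, (p j - 1)) * b.totient =
        (p i - 1) * ((∏ j ∈ univ.erase i, (p j - 1)) * b.totient) := by
      rw [← mul_prod_erase univ (fun j => p j - 1) (mem_univ i), mul_assoc]
    refine ⟨le_of_mem_Rng h hvR, _, ?_, hm1, p₀, hp₀, trivial, exp_lvl_le_log hp₀ hX₀, hveq⟩
    refine mem_image.2 ⟨⟨p i - 1, (∏ j ∈ univ.erase i, (p j - 1)) * b.totient⟩,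
      mem_product.2 ⟨mem_image.2 ⟨p i, mem_filter.2
          ⟨mem_window (hpi i).1 (hpi i).2.1 (hXp i), hab⟩, rfl⟩,
        mem_filter.2 ⟨mem_Rng_of_dvd hvR h1 ?_, n, hn1, hnX, hntot⟩⟩, hmul.symm⟩
    rw [hveq, hmul]; exact (dvd_mul_left _ _).mul_left _
  · rw [Real.exp_add]
    exact mul_le_mul hsumAP hT (by positivity) (Real.exp_pos _).le

/-- The count for values whose cofactor factors into two sets with small sums. -/
lemma count_product (h : Setup l y) {a m η E₁ E₂ : ℝ} (U₁ U₂ : Finset ℕ)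
    (hneg : Real.exp (a * Lg l ^ 2 + 9 - m * Lg l ^ 3) ≤ η)
    (h₁ : ∑ u ∈ U₁, (u : ℝ)⁻¹ ≤ Real.exp E₁) (h₂ : ∑ u ∈ U₂, (u : ℝ)⁻¹ ≤ Real.exp E₂)
    (hE : E₁ + E₂ + 3 * Lg l ≤ a * Lg l ^ 2 - m * Lg l ^ 3)
    (S : Finset ℕ)
    (hS : ∀ v ∈ S, v ∈ Rng y ∧ 1 ≤ v ∧ ∃ k p p₀ b, Good l v k p p₀ b ∧
      (∏ i, (p i - 1)) ∈ U₁ ∧ b.totient ∈ U₂) :
    (S.card : ℝ) ≤ η * (y / Real.log y) := by
  refine (card_shifted_le (Real.exp_pos _) h.y_pos.le (by norm_num : (0 : ℝ) ≤ 5) (fun _ => True)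
    (fun z hz _ => (Nat.cast_le.2 (card_le_card fun q hq => mem_filter.2
      ⟨(mem_filter.1 hq).1, (mem_filter.1 hq).2.1⟩)).trans (primes_le_five hz))
    ((U₁ ×ˢ U₂).image fun t : ℕ × ℕ => t.1 * t.2) S fun v hv => ?_).trans
    (negl h hneg (by positivity) ((sum_inv_mul_le U₁ U₂).trans ?_) hE)
  · obtain ⟨hvR, h1, k, p, p₀, b, ⟨hrep, hX₀, -⟩, hm₁, hm₂⟩ := hS v hv
    have hm := hrep.pos h1
    obtain ⟨-, -, hp₀, -, -, -, hveq⟩ := hrep
    exact ⟨le_of_mem_Rng h hvR, _, mem_image.2 ⟨(_, _), mem_product.2 ⟨hm₁, hm₂⟩, rfl⟩, hm,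
      p₀, hp₀, trivial, exp_lvl_le_log hp₀ hX₀, hveq⟩
  · rw [Real.exp_add]
    exact mul_le_mul h₁ h₂ (by positivity) (Real.exp_pos _).le

lemma log_top_prime (h : Setup l y) {v k : ℕ} {p : Fin k → ℕ} {p₀ b : ℕ}
    (hr : Rep l v k p p₀ b) (hk : k ≤ Kp l) (hsq : √y < (v : ℝ))
    (hΩ : (ArithmeticFunction.cardFactors b.totient : ℝ) ≤ Bp l) :
    Real.log y / (4 * ((Kp l : ℝ) + 1)) ≤ Real.log p₀ := by
  have hy0 := h.y_pos
  obtain ⟨-, hpi, hp₀, -, hb1, hbZ, hveq⟩ := hr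
  have hBZ : Bp l * Real.exp (Zp l) ≤ Real.log y / 4 := by
    have h1 : Bp l ≤ Real.exp (Bp l) := by linarith [Real.add_one_le_exp (Bp l)]
    have h2 : Real.exp (Bp l + Zp l) ≤ Real.exp (l - 3) := by
      refine Real.exp_le_exp.2 ?_
      rw [h.Bp_eq, Zp]; linarith [h.pow_mono (show 80 ≤ 85 by norm_num), h.big, h.l4]
    have h3 : Real.exp (l - 3) * 4 ≤ Real.exp (l - 1) := by
      rw [show l - 1 = l - 3 + 2 by ring, Real.exp_add]
      refine mul_le_mul_of_nonneg_left ?_ (Real.exp_pos _).le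
      have := Real.quadratic_le_exp_of_nonneg (show (0 : ℝ) ≤ 2 by norm_num); linarith
    rw [le_div_iff₀ (by norm_num)]
    calc Bp l * Real.exp (Zp l) * 4 ≤ Real.exp (Bp l) * Real.exp (Zp l) * 4 := by gcongr
      _ ≤ Real.exp (l - 1) := by rw [← Real.exp_add]; linarith
      _ ≤ _ := h.le_log_y
  have hlp : 0 ≤ Real.log p₀ := (log_pos_of_two_le hp₀.two_le).le
  have hprod : ((∏ i, (p i - 1) : ℕ) : ℝ) ≤ (p₀ : ℝ) ^ k := by
    have h' := prod_le_pow_card (univ : Finset (Fin k)) (fun i => p i - 1) p₀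
      fun i _ => by have := (hpi i).2.2; omega
    rw [Finset.card_univ, Fintype.card_fin] at h'
    exact_mod_cast h'
  have hbpos : (0 : ℝ) < (b.totient : ℝ) := by exact_mod_cast Nat.totient_pos.2 hb1
  have hp0' : (0 : ℝ) < p₀ := by exact_mod_cast hp₀.pos
  have hvle : (v : ℝ) ≤ (p₀ : ℝ) ^ (k + 1) * b.totient := by
    have h' : (((p₀ - 1 : ℕ) : ℝ)) ≤ p₀ := by exact_mod_cast Nat.sub_le p₀ 1
    rw [hveq, Nat.cast_mul, Nat.cast_mul, pow_succ, ← mul_assoc,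
      mul_comm ((p₀ : ℝ) ^ k) (p₀ : ℝ)]
    gcongr
  have h2 := Real.log_le_log (Real.sqrt_pos.2 hy0) (hsq.le.trans hvle)
  rw [Real.log_sqrt hy0.le, Real.log_mul (pow_ne_zero _ hp0'.ne') hbpos.ne', Real.log_pow] at h2
  have h3 := log_le_cardFactors (Nat.totient_pos.2 hb1)
    fun s hs hd => totient_small hb1 hbZ hs hd
  have h4 : (ArithmeticFunction.cardFactors b.totient : ℝ) * Real.exp (Zp l) ≤
      Real.log y / 4 := (mul_le_mul_of_nonneg_right hΩ (Real.exp_pos _).le).trans hBZ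
  have h5 : ((k + 1 : ℕ) : ℝ) * Real.log p₀ ≤ ((Kp l : ℝ) + 1) * Real.log p₀ := by
    refine mul_le_mul_of_nonneg_right ?_ hlp
    exact_mod_cast Nat.succ_le_succ hk
  rw [div_le_iff₀ (by positivity)]
  linarith

open Classical in
/-- The band. -/
lemma count_band (h : Setup l y) {η C₀ C₁ : ℝ}
    (hW : ∑ u ∈ Tot y (Zp l), (u : ℝ)⁻¹ ≤ Real.exp (|C₀| * (6561 * Real.log (Lg l) ^ 2)))
    (hBand : ∑ k ∈ range (Kp l + 1), ∑ p ∈ bandCfg l k, cfgWt p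
      ≤ C₁ * Kp l * del l * ∑ k ∈ range (Kp l + 1), ∑ p ∈ strictCfg l k, cfgWt p)
    (hA : ∑ k ∈ range (Kp l + 1), ∑ p ∈ strictCfg l k, cfgWt p
      ≤ A l + Real.exp (-(Lg l ^ 5)))
    (hAge : 1 ≤ A l)
    (hband : Real.exp (6561 * |C₀| * Real.log (Lg l) ^ 2 + Real.log (640 * (|C₁| + 1)) - Lg l / 5)
      * Lg l ^ 4 ≤ η)
    (S : Finset ℕ)
    (hS : ∀ v ∈ S, v ∈ Rng y ∧ 1 ≤ v ∧ √y < (v : ℝ) ∧ ∃ k p p₀ b, Good l v k p p₀ b ∧
      k ≤ Kp l ∧ (ArithmeticFunction.cardFactors b.totient : ℝ) ≤ Bp l ∧ p ∈ bandCfg l k) :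
    (S.card : ℝ) ≤ η * (y / Real.log y) * A l := by
  have hly := h.log_y_pos
  have hy0 := h.y_pos
  set t₂ := Real.log y / (4 * ((Kp l : ℝ) + 1)) with ht₂
  set H := (range (Kp l + 1)).biUnion fun k => (bandCfg l k).image fun p => ∏ i, (p i - 1)
    with hH
  have hsumH : ∑ u ∈ H, (u : ℝ)⁻¹ ≤
      ∑ k ∈ range (Kp l + 1), ∑ p ∈ bandCfg l k, cfgWt p := by
    have key : ∀ s : Finset ℕ, ∑ u ∈ s.biUnion (fun k => (bandCfg l k).image
        fun p : Fin k → ℕ => (∏ i, (p i - 1) : ℕ)), (u : ℝ)⁻¹ ≤ ∑ k ∈ s, ∑ p ∈ bandCfg l k, cfgWt p := by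
      intro s
      induction s using Finset.induction_on with
      | empty => simp
      | insert a s ha ih =>
        rw [biUnion_insert, sum_insert ha]
        refine le_trans ?_ (add_le_add (le_refl _) ih)
        refine le_trans (le_add_of_nonneg_right (sum_nonneg fun u _ =>
          inv_nonneg.2 (Nat.cast_nonneg u))) ((sum_union_inter).le.trans (add_le_add ?_ le_rfl))
        refine (sum_image_le_of_nonneg (f := fun u : ℕ => (u : ℝ)⁻¹)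
          fun u _ => inv_nonneg.2 (Nat.cast_nonneg u)).trans
          (le_of_eq (sum_congr rfl fun p hp => ?_))
        rw [cfgWt, Nat.cast_prod, ← Finset.prod_inv_distrib]
        refine prod_congr rfl fun i _ => ?_
        have hpr := Fintype.mem_piFinset.1 (mem_filter.1 hp).1 i
        rw [Nat.cast_sub (mem_filter.1 hpr).2.1.one_le, Nat.cast_one]
    exact key _
  refine (card_shifted_le (t := t₂) (by positivity) hy0.le (by norm_num : (0 : ℝ) ≤ 5)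
    (fun _ => True)
    (fun z hz _ => (Nat.cast_le.2 (card_le_card fun q hq => mem_filter.2
      ⟨(mem_filter.1 hq).1, (mem_filter.1 hq).2.1⟩)).trans (primes_le_five hz))
    ((H ×ˢ Tot y (Zp l)).image fun t : ℕ × ℕ => t.1 * t.2) S
    fun v hv => ?_).trans ?_
  · obtain ⟨hvR, h1, hsq, k, p, p₀, b, hg, hk, hΩ, hmem⟩ := hS v hv
    obtain ⟨-, hWm, -⟩ := hg.mem h (P := fun _ _ => True) trivial hvR h1
    have hrep := hg.1
    have hlog := log_top_prime h hrep hk hsq hΩ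
    have hm := hrep.pos h1
    obtain ⟨-, -, hp₀, -, -, -, hveq⟩ := hrep
    exact ⟨le_of_mem_Rng h hvR, _, mem_image.2 ⟨(_, _), mem_product.2
      ⟨mem_biUnion.2 ⟨k, mem_range.2 (by omega), mem_image.2 ⟨p, hmem, rfl⟩⟩, hWm⟩, rfl⟩, hm,
      p₀, hp₀, trivial, hlog, hveq⟩
  · have hK : (Kp l : ℝ) ≤ Lg l ^ 2 := Nat.floor_le (sq_nonneg _)
    have hδ0 := h.del_pos
    have hS1' : (∑ k ∈ range (Kp l + 1), ∑ p ∈ strictCfg l k, cfgWt p) ≤ 2 * A l := by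
      refine hA.trans ?_
      have : Real.exp (-(Lg l ^ 5)) ≤ 1 := by
        rw [Real.exp_le_one_iff]
        linarith [pow_nonneg (show (0 : ℝ) ≤ Lg l by linarith [h.L4]) 5]
      linarith
    have hstr0 : 0 ≤ ∑ k ∈ range (Kp l + 1), ∑ p ∈ strictCfg l k, cfgWt p := by
      refine sum_nonneg fun k _ => sum_nonneg fun p hp => prod_nonneg fun i _ => inv_nonneg.2 ?_
      have hpr := Fintype.mem_piFinset.1 (mem_filter.1 hp).1 i
      have : (1 : ℝ) ≤ (p i : ℝ) := by exact_mod_cast (mem_filter.1 hpr).2.1.one_le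
      linarith
    have hsum : ∑ u ∈ H, (u : ℝ)⁻¹ ≤ (|C₁| + 1) * Lg l ^ 2 * del l * (2 * A l) := by
      refine hsumH.trans (hBand.trans ?_)
      calc C₁ * (Kp l : ℝ) * del l * ∑ k ∈ range (Kp l + 1), ∑ p ∈ strictCfg l k, cfgWt p
          ≤ (|C₁| + 1) * (Kp l : ℝ) * del l *
            ∑ k ∈ range (Kp l + 1), ∑ p ∈ strictCfg l k, cfgWt p := by
            gcongr; linarith [le_abs_self C₁]
        _ ≤ _ := by gcongr
    have hf : 2 * 5 * (4 * ((Kp l : ℝ) + 1)) * ((|C₁| + 1) * Lg l ^ 2 * del l * 2 *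
        Real.exp (|C₀| * (6561 * Real.log (Lg l) ^ 2))) ≤ η := by
      refine le_trans ?_ hband
      rw [show (6561 * |C₀| * Real.log (Lg l) ^ 2 + Real.log (640 * (|C₁| + 1)) - Lg l / 5) =
        Real.log (640 * (|C₁| + 1)) + -(Lg l / 5) + |C₀| * (6561 * Real.log (Lg l) ^ 2) by ring,
        Real.exp_add, Real.exp_add, Real.exp_log (by positivity), ← h.del_eq]
      have hK2 : (Kp l : ℝ) + 1 ≤ 2 * Lg l ^ 2 := by nlinarith [h.L4]
      calc _ ≤ 2 * 5 * (4 * (2 * Lg l ^ 2)) * ((|C₁| + 1) * Lg l ^ 2 * del l * 2 *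
            Real.exp (|C₀| * (6561 * Real.log (Lg l) ^ 2))) := by gcongr
        _ ≤ _ := by
          have hn : 0 ≤ (|C₁| + 1) * Lg l ^ 4 * del l *
              Real.exp (|C₀| * (6561 * Real.log (Lg l) ^ 2)) := by positivity
          nlinarith
    calc 2 * 5 * y / t₂ * ∑ m ∈ (H ×ˢ Tot y (Zp l)).image (fun t : ℕ × ℕ => t.1 * t.2), (m : ℝ)⁻¹
        ≤ 2 * 5 * y / t₂ * (((|C₁| + 1) * Lg l ^ 2 * del l * (2 * A l)) *
            Real.exp (|C₀| * (6561 * Real.log (Lg l) ^ 2))) := by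
          gcongr
          exact (sum_inv_mul_le H _).trans
            (mul_le_mul hsum hW (by positivity) (by positivity))
      _ = 2 * 5 * (4 * ((Kp l : ℝ) + 1)) * ((|C₁| + 1) * Lg l ^ 2 * del l * 2 *
            Real.exp (|C₀| * (6561 * Real.log (Lg l) ^ 2))) * (y / Real.log y * A l) := by
          rw [ht₂]; field_simp
      _ ≤ η * (y / Real.log y * A l) := mul_le_mul_of_nonneg_right hf (by positivity)
      _ = _ := (mul_assoc _ _ _).symm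

end

end Vale.Agent.P031.UpperAux
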